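import Vale.Agent.P284.H894.G.Spec
import Vale.Agent.P284.H678.A2
import Vale.Agent.P284.H427.G11

/-!
# P284 (helper639), block G5: the pieces of a Galois covering and the passage from `PshFam` to
plurisubharmonic functions on the covering space
-/

open scoped Manifold ContDiff Topology
open Filter Set Metric

noncomputable section

namespace Vale.Agent.P284.H639

open Vale.Agent.P272.K Vale.Agent.P284.H248 Vale.Agent.P284.H894 Vale.Agent.P284.H678
open Vale.Agent.P284.H894.G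

variable {n : ℕ} {X : Type} [TopologicalSpace X] [ChartedSpace (Cm n) X] {L : LineBundle n X}

omit [ChartedSpace (Cm n) X] in
/-- A continuous map from a ball lifts to a covering space, with a given value at the centre. -/
theorem exists_lift_at {Y : Type} [TopologicalSpace Y] {π : Y → X} (hc : IsCoveringMap π)
    {c : Cm n} {r : ℝ} (hr : 0 < r) {f : Cm n → X}
    (hf : ContinuousOn f (ball c r)) (y0 : Y) (hy0 : π y0 = f c) :
    ∃ σ : Cm n → Y, ContinuousOn σ (ball c r) ∧ (∀ z ∈ ball c r, π (σ z) = f z) ∧ σ c = y0 := by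
  have hconv : Convex ℝ (ball c r) := convex_ball c r
  have hcb : c ∈ ball c r := mem_ball_self hr
  have : ContractibleSpace (ball c r) := hconv.contractibleSpace ⟨c, hcb⟩
  have : LocallyPathConnectedSpace (ball c r) := isOpen_ball.locallyPathConnectedSpace
  let F : C(ball c r, X) := ⟨fun z => f z, continuousOn_iff_continuous_domRestrict.1 hf⟩
  obtain ⟨g, ⟨hg0, hg⟩, -⟩ := hc.existsUnique_continuousMap_lifts F ⟨c, hcb⟩ y0 hy0
  classical
  refine ⟨fun z => if h : z ∈ ball c r then g ⟨z, h⟩ else y0, ?_, fun z hz => ?_, ?_⟩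
  · rw [continuousOn_iff_continuous_domRestrict]
    have : (ball c r).domRestrict (fun z => if h : z ∈ ball c r then g ⟨z, h⟩ else y0) = g := by
      funext z
      exact dif_pos z.2
    rw [this]
    exact g.continuous
  · simp only [hz, dif_pos]
    exact congrFun hg ⟨z, hz⟩
  · simp only [hcb, dif_pos]
    exact hg0

section
variable {Y Γ : Type} [TopologicalSpace Y] [Group Γ] [MulAction Γ Y] {π : Y → X}
  (hG : IsGalois Γ π)
  {P : Pcs L} {σ : P.I → Cm n → Y}
  (hσ : ∀ a, ContinuousOn (σ a) (ball (P.c a) (4 * P.r a)))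
  (hπ : ∀ a, ∀ z ∈ ball (P.c a) (4 * P.r a), π (σ a z) = (P.e a).symm z)

include hG hσ hπ in
/-- near a point of a sheet the sheet is given by the chart -/
theorem sheet_ev {γ : Γ} {a : P.I} {z : Cm n} (hz : z ∈ ball (P.c a) (3 * P.r a)) :
    ∀ᶠ y in 𝓝 (γ • σ a z), π y ∈ (P.e a).source ∧ P.e a (π y) ∈ ball (P.c a) (3 * P.r a) ∧
      γ • σ a (P.e a (π y)) = y := by
  have hsub : ball (P.c a) (3 * P.r a) ⊆ ball (P.c a) (4 * P.r a) :=
    ball_subset_ball (by linarith [P.r_pos a])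
  have hz4 := hsub hz
  have hpy : π (γ • σ a z) = (P.e a).symm z := by
    rw [← hπ a z hz4]; exact ((hG.orb _ _).2 ⟨_, rfl⟩).symm
  have hcπ : ContinuousAt π (γ • σ a z) := hG.cov.continuous.continuousAt
  have hsrc : (P.e a).symm z ∈ (P.e a).source := (P.e a).map_target (P.target hz4)
  have hval : P.e a (π (γ • σ a z)) = z := by
    rw [hpy, (P.e a).right_inv (P.target hz4)]
  have he : ContinuousAt (fun y => P.e a (π y)) (γ • σ a z) := by
    refine ContinuousAt.comp ?_ hcπ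
    rw [hpy]
    exact (P.e a).continuousAt hsrc
  have hev1 : ∀ᶠ y in 𝓝 (γ • σ a z), π y ∈ (P.e a).source := by
    refine hcπ.eventually ?_
    rw [hpy]
    exact (P.e a).open_source.mem_nhds hsrc
  have hev2 : ∀ᶠ y in 𝓝 (γ • σ a z), P.e a (π y) ∈ ball (P.c a) (3 * P.r a) := by
    refine he.eventually ?_
    show ∀ᶠ y in 𝓝 (P.e a (π (γ • σ a z))), y ∈ ball (P.c a) (3 * P.r a)
    rw [hval]
    exact isOpen_ball.mem_nhds hz
  have hu : ContinuousAt (fun y => γ • σ a (P.e a (π y))) (γ • σ a z) := by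
    refine (hG.cont γ).continuousAt.comp ?_
    refine ContinuousAt.comp (f := fun y => P.e a (π y)) ?_ he
    rw [hval]
    exact (hσ a).continuousAt (isOpen_ball.mem_nhds hz4)
  have h3 := lifts_eventuallyEq hG.cov hu continuousAt_id (by simp only [id, hval]) (by
    filter_upwards [hev1, hev2] with y h1 h2
    have h5 : π (γ • σ a (P.e a (π y))) = π (σ a (P.e a (π y))) :=
      ((hG.orb _ _).2 ⟨_, rfl⟩).symm
    rw [h5, hπ a _ (hsub h2), (P.e a).left_inv h1]
    rfl)
  filter_upwards [h3, hev1, hev2] with y h1 h2 h4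
  exact ⟨h2, h4, h1⟩

include hG hπ in
/-- every point lies on a sheet -/
theorem exists_sheet (y : Y) : ∃ (γ : Γ) (a : P.I), π y ∈ (P.e a).source ∧
    P.e a (π y) ∈ ball (P.c a) (3 * P.r a) ∧ γ • σ a (P.e a (π y)) = y := by
  obtain ⟨a, ha1, ha2⟩ := P.cover (π y)
  have h3 : P.e a (π y) ∈ ball (P.c a) (3 * P.r a) :=
    ball_subset_ball (by linarith [P.r_pos a]) ha2
  have h4 : π (σ a (P.e a (π y))) = π y := by
    rw [hπ a _ (ball_subset_ball (by linarith [P.r_pos a]) h3), (P.e a).left_inv ha1]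
  obtain ⟨γ, hγ⟩ := (hG.orb _ _).1 h4
  exact ⟨γ, a, ha1, h3, hγ⟩

variable [T2Space X] [IsManifold 𝓘(ℂ, Cm n) ω X] (K : KD P Γ)
  (hK : ∀ a b z, z ∈ P.O a b → K.κ a b z • σ b (P.T a b z) = σ a z) (v : PshFam (mkCoc P K))

/-- the function on the covering space -/
def uOf (hs : ∀ y : Y, ∃ (γ : Γ) (a : P.I), π y ∈ (P.e a).source ∧
    P.e a (π y) ∈ ball (P.c a) (3 * P.r a) ∧ γ • σ a (P.e a (π y)) = y)
    (v : PshFam (mkCoc P K)) (y : Y) : ℝ :=
  v.v (hs y).choose (hs y).choose_spec.choose (P.e (hs y).choose_spec.choose (π y))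

include hG hπ hK in
theorem uOf_eq (hs : ∀ y : Y, ∃ (γ : Γ) (a : P.I), π y ∈ (P.e a).source ∧
    P.e a (π y) ∈ ball (P.c a) (3 * P.r a) ∧ γ • σ a (P.e a (π y)) = y)
    (γ : Γ) (a : P.I) {z : Cm n} (hz : z ∈ ball (P.c a) (3 * P.r a)) :
    uOf (K := K) hs v (γ • σ a z) = v.v γ a z := by
  have hsub : ∀ a, ball (P.c a) (3 * P.r a) ⊆ ball (P.c a) (4 * P.r a) := fun a =>
    ball_subset_ball (by linarith [P.r_pos a])
  unfold uOf
  set y : Y := γ • σ a z with hy
  set γ' := (hs y).choose with hγ'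
  set b := (hs y).choose_spec.choose with hb
  obtain ⟨h1, h2, h3⟩ := (hs y).choose_spec.choose_spec
  rw [← hb] at h1 h2 h3
  rw [← hγ'] at h3
  have hpy : π y = (P.e a).symm z := by
    rw [← hπ a z (hsub a hz), hy]; exact ((hG.orb _ _).2 ⟨_, rfl⟩).symm
  have hO : z ∈ P.O a b := by
    refine ⟨hsub a hz, ?_, ?_⟩
    · rw [← hpy]; exact h1
    · show P.e b ((P.e a).symm z) ∈ _
      rw [← hpy]; exact hsub b h2
  have hT : P.T a b z = P.e b (π y) := by
    show P.e b ((P.e a).symm z) = _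
    rw [hpy]
  have h4 : γ * K.κ a b z = γ' := by
    refine smul_cancel (Γ := Γ) hG.free (y := σ b (P.e b (π y))) ?_
    rw [mul_smul, ← hT, hK a b z hO, hT, h3]
  have h5 := v.change γ a b z hO hz (by
    show P.T a b z ∈ ball (P.c b) (3 * P.r b)
    rw [hT]; exact h2)
  have h6 : (mkCoc P K).κ a b z = K.κ a b z := rfl
  have h7 : (mkCoc P K).T a b z = P.T a b z := rfl
  rw [h6, h7, h4, hT] at h5
  exact h5.symm

include hG hσ hπ hK in
theorem uOf_psh (hs : ∀ y : Y, ∃ (γ : Γ) (a : P.I), π y ∈ (P.e a).source ∧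
    P.e a (π y) ∈ ball (P.c a) (3 * P.r a) ∧ γ • σ a (P.e a (π y)) = y) :
    IsPsh (n := n) π (uOf (K := K) hs v) where
  usc := by
    intro y
    obtain ⟨γ, a, h1, h2, h3⟩ := hs y
    intro c hc
    have e1 := uOf_eq hG hπ K hK v hs γ a h2
    rw [h3] at e1
    rw [e1] at hc
    have hev := sheet_ev hG hσ hπ (γ := γ) h2
    rw [h3] at hev
    have hcont : ContinuousAt (fun y' => P.e a (π y')) y :=
      ContinuousAt.comp (f := π) (g := P.e a) ((P.e a).continuousAt h1)
        hG.cov.continuous.continuousAt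
    have h4 : ∀ᶠ z' in 𝓝 (P.e a (π y)), v.v γ a z' < c := v.usc γ a _ h2 c hc
    filter_upwards [hev, hcont.eventually h4] with y' h5 h6
    have e2 := uOf_eq hG hπ K hK v hs γ a h5.2.1
    rw [h5.2.2] at e2
    rw [e2]
    exact h6
  mean := by
    intro φ hφ
    obtain ⟨γ, a, h1, h2, h3⟩ := hs (φ 0)
    have e1 := uOf_eq hG hπ K hK v hs γ a h2
    rw [h3] at e1
    have hev := sheet_ev hG hσ hπ (γ := γ) h2
    rw [h3] at hev
    have hφ0 : ContinuousAt φ 0 := hφ.cont.continuousAt (ball_mem_nhds _ one_pos)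
    obtain ⟨ε, hε, hball⟩ := Metric.eventually_nhds_iff_ball.1 (hφ0.eventually hev)
    set κ : ℝ := min ε 1 with hκdef
    have hκ : 0 < κ := lt_min hε one_pos
    have hin : ∀ t ∈ ball (0 : ℂ) 1, t * κ ∈ ball (0 : ℂ) ε ∧ t * κ ∈ ball (0 : ℂ) 1 := by
      intro t ht
      rw [mem_ball_zero_iff] at ht
      have h5 : ‖t * (κ : ℂ)‖ < κ := by
        rw [norm_mul, Complex.norm_real, Real.norm_of_nonneg hκ.le]
        exact (mul_lt_iff_lt_one_left hκ).2 ht
      rw [mem_ball_zero_iff, mem_ball_zero_iff]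
      exact ⟨h5.trans_le (min_le_left _ _), h5.trans_le (min_le_right _ _)⟩
    set ψ : ℂ → Cm n := fun t => P.e a (π (φ (t * κ))) with hψ
    have hd : DifferentiableOn ℂ ψ (ball 0 1) := by
      intro t ht
      have h5 := hφ.holo (t * κ) (hin t ht).2 (P.e a) ⟨P.mem a, (hball _ (hin t ht).1).1⟩
      have h6 : DifferentiableAt ℂ (fun t : ℂ => t * (κ : ℂ)) t :=
        differentiableAt_id.mul_const _
      exact (DifferentiableAt.comp t h5 h6).differentiableWithinAt
    have hm := v.mean γ a ψ hd fun t ht => (hball _ (hin t ht).1).2.1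
    refine ⟨κ, hκ, fun ρ hρ => ?_⟩
    have hρκ : 0 < ρ / κ := div_pos hρ.1 hκ
    have hρκ1 : ρ / κ < 1 := (div_lt_one hκ).2 hρ.2
    rw [Vale.Agent.P284.H427.circleAverage_scale _ _ hκ.ne', e1]
    have h7 := hm (ρ / κ) ⟨hρκ, hρκ1⟩
    have h8 : ψ 0 = P.e a (π (φ 0)) := by
      rw [hψ]; simp only [zero_mul]
    rw [h8] at h7
    refine h7.trans_eq (Real.circleAverage_congr_sphere fun t ht => ?_)
    have ht1 : t ∈ ball (0 : ℂ) 1 := by
      rw [mem_sphere_zero_iff_norm, abs_of_pos hρκ] at ht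
      rw [mem_ball_zero_iff, ht]
      exact hρκ1
    have h9 := hball _ (hin t ht1).1
    have e2 := uOf_eq hG hπ K hK v hs γ a h9.2.1
    rw [h9.2.2] at e2
    simp only [zero_add]
    rw [e2]

end

/-- **Block G5.** -/
theorem g5Stmt : G5Stmt := by
  intro n X _ _ _ _ _ _ L P E Γ _ _ _ _ p hG y hy
  have hlift : ∀ a, ∃ σ : Cm n → E, ContinuousOn σ (ball (P.c a) (4 * P.r a)) ∧
      (∀ z ∈ ball (P.c a) (4 * P.r a), p (σ z) = (P.e a).symm z) ∧ σ (P.c a) = y a := fun a =>
    exists_lift_at hG.cov (by have := P.r_pos a; positivity)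
      ((P.e a).continuousOn_symm.mono fun w hw => P.target hw) (y a) (hy a)
  choose σ hσ hπ hc using hlift
  let K : KD P Γ :=
    { κ := kap σ Γ
      self := fun a z hz => kap_eq hG.free hG.orb hπ hz (by rw [P.T_self hz.1, one_smul])
      trans := fun a b d z hz h => kap_eq hG.free hG.orb hπ (P.trans_mem hz h) (by
        rw [mul_smul, ← P.T_T (d := d) hz, kap_spec hG.orb hπ h, kap_spec hG.orb hπ hz])
      loc := fun a b z hz => kap_loc hG.cov hG.cont hG.free hG.orb hσ hπ hz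
      conn := fun Q hQ => kap_conn hG.cov hG.cont hG.free hG.orb hσ hπ Q hQ }
  have hK : ∀ a b z, z ∈ P.O a b → K.κ a b z • σ b (P.T a b z) = σ a z := fun a b z hz =>
    kap_spec hG.orb hπ hz
  have hs := fun y : E => exists_sheet hG hπ y
  refine ⟨K, σ, hσ, hπ, hc, fun v => ⟨uOf (K := K) hs v, uOf_psh hG hσ hπ K hK v hs,
    fun y => ⟨v.nonneg _ _ _, v.le_one _ _ _⟩, fun γ a z hz => uOf_eq hG hπ K hK v hs γ a hz⟩⟩

end Vale.Agent.P284.H639
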