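import Vale.Agent.P284.H894.V.Spec
import Vale.Agent.P284.H639.G5
import Vale.Agent.P284.H790.A1
import Vale.Agent.P284.H841.A4
import Vale.Agent.P272.K.Inv.Consts

/-!
# P284, theorem V, block V15: the pieces of a Galois covering of a compact Kähler manifold, and the
passage from `LimFam` to functions on the covering space
-/

open scoped Manifold ContDiff Topology Pointwise ComplexConjugate ComplexOrder
open Filter Set Metric MeasureTheory

noncomputable section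

namespace Vale.Agent.P284.H639.V

open Vale.Agent.P272.K Vale.Agent.P284.H248 Vale.Agent.P284.H894 Vale.Agent.P284.H678
  Vale.Agent.P284.H894.G Vale.Agent.P284.H894.V Vale.Agent.P284.H639

variable {n : ℕ}

/-! ### Quadratic forms -/

theorem quad_pull' (J M : Matrix (Fin n) (Fin n) ℂ) (w : Cm n) :
    quad (J.transpose * M * J.map (starRingEnd ℂ)) w = quad M (J.mulVec w) := by
  rw [quad_eq, quad_eq]
  have h1 : (fun i => cj (J.mulVec w i)) = (J.map (starRingEnd ℂ)).mulVec fun i => cj (w i) := by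
    funext i
    simp only [Matrix.mulVec, dotProduct, cj, map_sum, map_mul, Matrix.map_apply]
  have h2 : (J.map (starRingEnd ℂ)).conjTranspose = J.transpose := by
    ext i j; simp
  rw [h1, ← Matrix.mulVec_mulVec, ← Matrix.mulVec_mulVec, Matrix.star_mulVec, h2]
  rw [Matrix.dotProduct_mulVec, Matrix.dotProduct_mulVec, Matrix.dotProduct_mulVec]

theorem quad_one' (w : Cm n) : (quad (1 : Matrix (Fin n) (Fin n) ℂ) w).re = ∑ p, ‖w p‖ ^ 2 := by
  unfold quad
  rw [Complex.re_sum]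
  refine Finset.sum_congr rfl fun i _ => ?_
  rw [Finset.sum_eq_single i]
  · rw [Matrix.one_apply_eq, one_mul, cj, Complex.mul_conj, Complex.ofReal_re,
      Complex.normSq_eq_norm_sq]
  · intro j _ hj
    rw [Matrix.one_apply_ne (Ne.symm hj), zero_mul]
  · simp

theorem sum_eq_quad (M : Matrix (Fin n) (Fin n) ℂ) (v : Cm n) :
    (∑ j, ∑ k, M j k * v j * conj (v k)).re = (quad M v).re := by
  unfold quad
  simp only [cj, mul_assoc]

theorem norm_sq_le (w : Cm n) : ‖w‖ ^ 2 ≤ ∑ i, ‖w i‖ ^ 2 := by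
  have h2 : ‖w‖ ≤ √(∑ i, ‖w i‖ ^ 2) := by
    refine (pi_norm_le_iff_of_nonneg (Real.sqrt_nonneg _)).2 fun i => ?_
    refine Real.le_sqrt_of_sq_le ?_
    exact Finset.single_le_sum (f := fun i => ‖w i‖ ^ 2) (fun i _ => sq_nonneg _)
      (Finset.mem_univ i)
  have h3 : 0 ≤ ∑ i, ‖w i‖ ^ 2 := Finset.sum_nonneg fun i _ => sq_nonneg _
  calc ‖w‖ ^ 2 ≤ √(∑ i, ‖w i‖ ^ 2) ^ 2 := by gcongr
    _ = _ := Real.sq_sqrt h3

/-- bounds on a compact set -/
theorem exists_bds {Q : Set (Cm n)} (hQ : IsCompact Q) (M : Cm n → Matrix (Fin n) (Fin n) ℂ)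
    (hM : ∀ z ∈ Q, ∀ i j, ContDiffAt ℝ ∞ (fun y => M y i j) z) (hpos : ∀ z ∈ Q, (M z).PosDef) :
    ∃ B : ℝ, 0 < B ∧ ∀ z ∈ Q, (∀ ξ : Cm n, ∑ j, ‖ξ j‖ ^ 2 ≤ B * (quad (M z) ξ).re) ∧
      (∀ ξ : Cm n, (quad (M z) ξ).re ≤ B * ∑ j, ‖ξ j‖ ^ 2) ∧ vol M z ≤ B ∧ 1 ≤ B * vol M z := by
  have hMc : ∀ i j, ContinuousOn (fun z => M z i j) Q := fun i j z hz =>
    (hM z hz i j).continuousAt.continuousWithinAt
  have h1c : ∀ i j, ContinuousOn (fun _ : Cm n => (1 : Matrix (Fin n) (Fin n) ℂ) i j) Q :=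
    fun i j => continuousOn_const
  obtain ⟨B1, hB1, h1⟩ := exists_quad_lower hQ M (fun _ => 1) hMc h1c hpos
  obtain ⟨B2, hB2, h2⟩ := exists_quad_lower hQ (fun _ => 1) M h1c hMc fun _ _ => Matrix.PosDef.one
  have hv : ∀ z ∈ Q, 0 < vol M z := fun z hz => (Complex.pos_iff.1 (hpos z hz).det_pos).1
  have hvc : ContinuousOn (vol M) Q := fun z hz =>
    (Complex.continuous_re.continuousAt.comp
      (contDiffAt_det (hM z hz)).continuousAt).continuousWithinAt
  obtain ⟨B3, h3⟩ := hQ.exists_bound_of_continuousOn hvc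
  obtain ⟨B4, h4⟩ := hQ.exists_bound_of_continuousOn (hvc.inv₀ fun z hz => (hv z hz).ne')
  refine ⟨B1 + B2 + |B3| + |B4|, by positivity, fun z hz => ?_⟩
  have hq : ∀ ξ : Cm n, 0 ≤ (quad (M z) ξ).re := fun ξ => quad_nonneg (hpos z hz).posSemidef ξ
  have hs : ∀ ξ : Cm n, 0 ≤ ∑ j, ‖ξ j‖ ^ 2 := fun ξ => Finset.sum_nonneg fun i _ => sq_nonneg _
  refine ⟨fun ξ => ?_, fun ξ => ?_, ?_, ?_⟩
  · have := h1 z hz ξ
    rw [quad_one'] at this
    refine this.trans (mul_le_mul_of_nonneg_right ?_ (hq ξ))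
    have := abs_nonneg B3; have := abs_nonneg B4; linarith
  · have := h2 z hz ξ
    rw [quad_one'] at this
    refine this.trans (mul_le_mul_of_nonneg_right ?_ (hs ξ))
    have := abs_nonneg B3; have := abs_nonneg B4; linarith
  · have := h3 z hz
    rw [Real.norm_eq_abs] at this
    have h5 := le_abs_self (vol M z)
    have h6 := le_abs_self B3
    have := abs_nonneg B4
    linarith
  · have h5 := h4 z hz
    rw [Real.norm_eq_abs, Pi.inv_apply] at h5
    have h6 : (vol M z)⁻¹ ≤ B1 + B2 + |B3| + |B4| := by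
      have h7 := le_abs_self (vol M z)⁻¹
      have h8 := le_abs_self B4
      have := abs_nonneg B3
      linarith
    have h9 := mul_le_mul_of_nonneg_right h6 (hv z hz).le
    rwa [inv_mul_cancel₀ (hv z hz).ne'] at h9

/-! ### The Kähler metric on the pieces -/

section
variable {X : Type} [TopologicalSpace X] [ChartedSpace (Cm n) X] {L : LineBundle n X}

variable (n X) in
/-- the trivial line bundle -/
def trivL : LineBundle n X where
  ι := Unit
  U _ := univ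
  isOpen _ := isOpen_univ
  cover x := ⟨(), mem_univ x⟩
  g _ _ _ := 1
  holo _ _ _ _ _ _ _ := contDiffAt_const
  ne_zero _ _ _ _ _ := one_ne_zero
  cocycle _ _ _ _ _ _ _ := one_mul 1

theorem exists_bds_pcs (P : Pcs L) {w : Chart n X → Cm n → Matrix (Fin n) (Fin n) ℂ}
    (hw : IsHermitian w) : ∃ B : ℝ, 0 < B ∧ ∀ a, ∀ z ∈ closedBall (P.c a) (4 * P.r a),
      (∀ ξ : Cm n, ∑ j, ‖ξ j‖ ^ 2 ≤ B * (quad (w (P.e a) z) ξ).re) ∧
      (∀ ξ : Cm n, (quad (w (P.e a) z) ξ).re ≤ B * ∑ j, ‖ξ j‖ ^ 2) ∧ vol (w (P.e a)) z ≤ B ∧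
      1 ≤ B * vol (w (P.e a)) z := by
  have h : ∀ a, ∃ B : ℝ, 0 < B ∧ ∀ z ∈ closedBall (P.c a) (4 * P.r a),
      (∀ ξ : Cm n, ∑ j, ‖ξ j‖ ^ 2 ≤ B * (quad (w (P.e a) z) ξ).re) ∧
      (∀ ξ : Cm n, (quad (w (P.e a) z) ξ).re ≤ B * ∑ j, ‖ξ j‖ ^ 2) ∧ vol (w (P.e a)) z ≤ B ∧
      1 ≤ B * vol (w (P.e a)) z := fun a =>
    exists_bds (isCompact_closedBall _ _) (w (P.e a))
      (fun z hz => hw.smooth_target (P.mem a) (P.sub a hz))
      fun z hz => hw.posDef_target (P.mem a) (P.sub a hz)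
  choose B hB hB' using h
  obtain ⟨a0, ha0⟩ := Finite.exists_max B
  refine ⟨B a0, hB a0, fun a z hz => ?_⟩
  obtain ⟨h1, h2, h3, h4⟩ := hB' a z hz
  have hpos := hw.posDef_target (P.mem a) (P.sub a hz)
  refine ⟨fun ξ => (h1 ξ).trans (mul_le_mul_of_nonneg_right (ha0 a) ?_),
    fun ξ => (h2 ξ).trans (mul_le_mul_of_nonneg_right (ha0 a) ?_), h3.trans (ha0 a),
    h4.trans (mul_le_mul_of_nonneg_right (ha0 a) ?_)⟩
  · exact quad_nonneg hpos.posSemidef ξ
  · exact Finset.sum_nonneg fun i _ => sq_nonneg _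
  · exact (Complex.pos_iff.1 hpos.det_pos).1.le

variable [T2Space X] [IsManifold 𝓘(ℂ, Cm n) ω X]

theorem exists_KM (P : Pcs L) {Γ : Type} [Group Γ] (K : KD P Γ)
    {w : Chart n X → Cm n → Matrix (Fin n) (Fin n) ℂ} (hw : IsKahler w) :
    Nonempty (KM (mkCoc P K)) := by
  obtain ⟨B, hB, h⟩ := exists_bds_pcs P hw.toIsHermitian
  have hcl : ∀ a, ball (P.c a) (4 * P.r a) ⊆ closedBall (P.c a) (4 * P.r a) := fun a =>
    ball_subset_closedBall
  exact ⟨{
    w := fun a => w (P.e a)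
    ku := fun a =>
      { isOpen := isOpen_ball
        smooth := fun z hz => hw.smooth_target (P.mem a) (P.target hz)
        pos := fun z hz => hw.posDef_target (P.mem a) (P.target hz)
        closed := fun z hz i j k => by
          have := hw.closed (P.e a) ((P.e a).symm z) (P.at' hz) i j k
          rwa [(P.e a).right_inv (P.target hz)] at this }
    change := fun a b z hz => by
      have h1 := hw.change (P.e a) (P.e b) ((P.e a).symm z) (P.at_left hz) (P.at_right hz)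
      rw [jacM_eq, (P.e a).right_inv (P.target hz.1)] at h1
      exact h1
    lam := B⁻¹
    lam_pos := inv_pos.2 hB
    Lam := B
    low := fun a z hz v => by
      rw [sum_eq_quad, inv_mul_le_iff₀ hB]
      exact (h a z (hcl a hz)).1 v
    up := fun a z hz v => by
      rw [sum_eq_quad]
      exact (h a z (hcl a hz)).2.1 v
    vol_up := fun a z hz => (h a z (hcl a hz)).2.2.1
    vol_low := fun a z hz => by
      rw [inv_le_iff_one_le_mul₀' hB]
      exact (h a z (hcl a hz)).2.2.2 }⟩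

end

/-- the covering group is finitely generated -/
theorem fg_of_coc {Γ : Type} [Group Γ] (C : Coc n Γ) : Group.FG Γ := by
  refine Group.fg_iff.2 ⟨(C.N : Set Γ), ?_, C.N.finite_toSet⟩
  rw [eq_top_iff]
  intro γ _
  obtain ⟨a⟩ := C.ne
  exact C.conn (fun γ _ => γ ∈ Subgroup.closure (C.N : Set Γ))
    (fun γ a b z h1 h2 h3 hγ =>
      Subgroup.mul_mem _ hγ (Subgroup.subset_closure (C.κ_mem a b z h1 h2 h3))) 1 a γ a
    (Subgroup.one_mem _)

/-! ### From `LimFam` to the covering space -/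

section
variable {X : Type} [TopologicalSpace X] [ChartedSpace (Cm n) X] {L : LineBundle n X}
  {Y Γ : Type} [TopologicalSpace Y] [Group Γ] [MulAction Γ Y] {π : Y → X}
  (hG : IsGalois Γ π)
  {P : Pcs L} {σ : P.I → Cm n → Y}
  (hσ : ∀ a, ContinuousOn (σ a) (ball (P.c a) (4 * P.r a)))
  (hπ : ∀ a, ∀ z ∈ ball (P.c a) (4 * P.r a), π (σ a z) = (P.e a).symm z)

include hG hσ hπ in
/-- near a point of a sheet the sheet is given by the chart -/
theorem sheet_ev2 {γ : Γ} {a : P.I} {z : Cm n} (hz : z ∈ ball (P.c a) (2 * P.r a)) :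
    ∀ᶠ y in 𝓝 (γ • σ a z), π y ∈ (P.e a).source ∧ P.e a (π y) ∈ ball (P.c a) (2 * P.r a) ∧
      γ • σ a (P.e a (π y)) = y := by
  have hr := P.r_pos a
  have hz3 : z ∈ ball (P.c a) (3 * P.r a) := ball_subset_ball (by linarith) hz
  have hz4 : z ∈ ball (P.c a) (4 * P.r a) := ball_subset_ball (by linarith) hz
  have hpy : π (γ • σ a z) = (P.e a).symm z := by
    rw [← hπ a z hz4]; exact ((hG.orb _ _).2 ⟨_, rfl⟩).symm
  have hcπ : ContinuousAt π (γ • σ a z) := hG.cov.continuous.continuousAt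
  have hsrc : (P.e a).symm z ∈ (P.e a).source := (P.e a).map_target (P.target hz4)
  have hval : P.e a (π (γ • σ a z)) = z := by
    rw [hpy, (P.e a).right_inv (P.target hz4)]
  have he : ContinuousAt (fun y => P.e a (π y)) (γ • σ a z) := by
    refine ContinuousAt.comp ?_ hcπ
    rw [hpy]
    exact (P.e a).continuousAt hsrc
  have hev2 : ∀ᶠ y in 𝓝 (γ • σ a z), P.e a (π y) ∈ ball (P.c a) (2 * P.r a) := by
    refine he.eventually ?_
    show ∀ᶠ y in 𝓝 (P.e a (π (γ • σ a z))), y ∈ ball (P.c a) (2 * P.r a)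
    rw [hval]
    exact isOpen_ball.mem_nhds hz
  filter_upwards [sheet_ev hG hσ hπ (γ := γ) hz3, hev2] with y h1 h2
  exact ⟨h1.1, h2, h1.2.2⟩

include hG hπ in
/-- every point lies on a sheet -/
theorem exists_sheet2 (y : Y) : ∃ (γ : Γ) (a : P.I), π y ∈ (P.e a).source ∧
    P.e a (π y) ∈ ball (P.c a) (2 * P.r a) ∧ γ • σ a (P.e a (π y)) = y := by
  obtain ⟨a, ha1, ha2⟩ := P.cover (π y)
  have hr := P.r_pos a
  have h3 : P.e a (π y) ∈ ball (P.c a) (2 * P.r a) := ball_subset_ball (by linarith) ha2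
  have h4 : π (σ a (P.e a (π y))) = π y := by
    rw [hπ a _ (ball_subset_ball (by linarith) h3), (P.e a).left_inv ha1]
  obtain ⟨γ, hγ⟩ := (hG.orb _ _).1 h4
  exact ⟨γ, a, ha1, h3, hγ⟩

variable [T2Space X] [IsManifold 𝓘(ℂ, Cm n) ω X] (K : KD P Γ)
  (hK : ∀ a b z, z ∈ P.O a b → K.κ a b z • σ b (P.T a b z) = σ a z)
  (u : Γ → (mkCoc P K).I → Cm n → ℝ) {B : ℝ} (hu : LimFam (mkCoc P K) u B)

/-- the function on the covering space -/
def vOf (hs : ∀ y : Y, ∃ (γ : Γ) (a : P.I), π y ∈ (P.e a).source ∧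
    P.e a (π y) ∈ ball (P.c a) (2 * P.r a) ∧ γ • σ a (P.e a (π y)) = y)
    (u : Γ → (mkCoc P K).I → Cm n → ℝ) (y : Y) : ℝ :=
  u (hs y).choose (hs y).choose_spec.choose (P.e (hs y).choose_spec.choose (π y))

include hG hπ hK hu in
theorem vOf_eq (hs : ∀ y : Y, ∃ (γ : Γ) (a : P.I), π y ∈ (P.e a).source ∧
    P.e a (π y) ∈ ball (P.c a) (2 * P.r a) ∧ γ • σ a (P.e a (π y)) = y)
    (γ : Γ) (a : P.I) {z : Cm n} (hz : z ∈ ball (P.c a) (2 * P.r a)) :
    vOf (K := K) hs u (γ • σ a z) = u γ a z := by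
  have hsub : ∀ a, ball (P.c a) (2 * P.r a) ⊆ ball (P.c a) (4 * P.r a) := fun a =>
    ball_subset_ball (by linarith [P.r_pos a])
  unfold vOf
  set y : Y := γ • σ a z with hy
  set γ' := (hs y).choose with hγ'
  set b := (hs y).choose_spec.choose with hb
  obtain ⟨h1, h2, h3⟩ := (hs y).choose_spec.choose_spec
  rw [← hb] at h1 h2 h3
  rw [← hγ'] at h3
  have hpy : π y = (P.e a).symm z := by
    rw [← hπ a z (hsub a hz), hy]; exact ((hG.orb _ _).2 ⟨_, rfl⟩).symm
  have hO : z ∈ P.O a b := by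
    refine ⟨hsub a hz, ?_, ?_⟩
    · rw [← hpy]; exact h1
    · show P.e b ((P.e a).symm z) ∈ _
      rw [← hpy]; exact hsub b h2
  have hT : P.T a b z = P.e b (π y) := by
    show P.e b ((P.e a).symm z) = _
    rw [hpy]
  have h4 : γ * K.κ a b z = γ' := by
    refine smul_cancel (Γ := Γ) hG.free (y := σ b (P.e b (π y))) ?_
    rw [mul_smul, ← hT, hK a b z hO, hT, h3]
  have h5 := hu.compat γ a b z hO hz (by
    show P.T a b z ∈ ball (P.c b) (2 * P.r b)
    rw [hT]; exact h2)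
  have h6 : (mkCoc P K).κ a b z = K.κ a b z := rfl
  have h7 : (mkCoc P K).T a b z = P.T a b z := rfl
  rw [h6, h7, h4, hT] at h5
  exact h5.symm

include hG hσ hπ hK hu in
theorem vOf_phb (hs : ∀ y : Y, ∃ (γ : Γ) (a : P.I), π y ∈ (P.e a).source ∧
    P.e a (π y) ∈ ball (P.c a) (2 * P.r a) ∧ γ • σ a (P.e a (π y)) = y)
    {w : Chart n X → Cm n → Matrix (Fin n) (Fin n) ℂ} (hw : IsHermitian w) :
    ∃ B' : ℝ, IsPHB π w (vOf (K := K) hs u) B' := by
  obtain ⟨Bq, hBq, hq⟩ := exists_bds_pcs P hw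
  refine ⟨B ^ 2 * Bq, fun y e hAt => ?_⟩
  obtain ⟨γ, a, h1, h2, h3⟩ := hs y
  have hAt' : At (P.e a) (π y) := ⟨P.mem a, h1⟩
  set T : Cm n → Cm n := fun z => P.e a (e.symm z) with hT
  have hTz : T (e (π y)) = P.e a (π y) := by
    rw [hT]; simp only [hAt.left_inv]
  have hTc : ContDiffAt ℂ ω T (e (π y)) := transition hAt hAt'
  refine ⟨fun z => u γ a (T z), ?_, ?_, fun v => ?_⟩
  · have hev := sheet_ev2 hG hσ hπ (γ := γ) h2
    rw [h3] at hev
    have hsrc : ∀ᶠ y' in 𝓝 y, π y' ∈ e.source :=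
      hG.cov.continuous.continuousAt.eventually (e.open_source.mem_nhds hAt.2)
    filter_upwards [hev, hsrc] with y' h4 h5
    have h6 := vOf_eq hG hπ K hK u hu hs γ a h4.2.1
    rw [h4.2.2] at h6
    rw [h6, hT]
    simp only [e.left_inv h5]
  · have hev1 : ∀ᶠ z in 𝓝 (e (π y)), T z ∈ ball (P.c a) (2 * P.r a) := by
      refine hTc.continuousAt.eventually ?_
      show ∀ᶠ z in 𝓝 (T (e (π y))), z ∈ ball (P.c a) (2 * P.r a)
      rw [hTz]
      exact isOpen_ball.mem_nhds h2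
    filter_upwards [hev1, hAt.nhds_at hAt'] with z h4 h5
    have h6 : ContDiffAt ℂ ω T z := by
      have := transition h5.2.1 h5.2.2
      rwa [e.right_inv h5.1] at this
    refine ⟨?_, ?_⟩
    · have h7 : ContDiffAt ℝ ∞ T z := (h6.restrict_scalars ℝ).of_le le_top
      exact (hu.smooth γ a (T z) h4).comp z h7
    · have h8 := cHess_comp (f := u γ a) (τ := T) (z := z)
        ((hu.smooth γ a (T z) h4).of_le
          (WithTop.coe_le_coe.2 le_top : ((2 : ℕ∞) : WithTop ℕ∞) ≤ ((⊤ : ℕ∞) : WithTop ℕ∞))) h6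
      rw [h8, hu.hess γ a (T z) h4]
      simp
  · have hd : DifferentiableAt ℂ T (e (π y)) := hTc.differentiableAt (by simp)
    have hz2 : P.e a (π y) ∈ ball ((mkCoc P K).c a) (2 * (mkCoc P K).r a) := h2
    have h4 : fderiv ℝ (fun z => u γ a (T z)) (e (π y)) v =
        fderiv ℝ (u γ a) (P.e a (π y)) (fderiv ℂ T (e (π y)) v) := by
      have h5 : DifferentiableAt ℝ (u γ a) (T (e (π y))) := by
        rw [hTz]
        exact (hu.smooth γ a _ hz2).differentiableAt (by simp)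
      have h6 : DifferentiableAt ℝ T (e (π y)) := hd.restrictScalars ℝ
      rw [show (fun z => u γ a (T z)) = u γ a ∘ T from rfl, fderiv_comp _ h5 h6, hTz]
      show fderiv ℝ (u γ a) (P.e a (π y)) (fderiv ℝ T (e (π y)) v) = _
      rw [hd.fderiv_restrictScalars ℝ]
      rfl
    rw [h4, sum_eq_quad]
    have hch := hw.change e (P.e a) (π y) hAt hAt'
    rw [hch, quad_pull']
    have hJ : fderiv ℂ T (e (π y)) v = (jacM e (P.e a) (π y)).mulVec v := by
      funext p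
      rw [jmat_mulVec hd v p]
      rfl
    rw [← hJ]
    set v' : Cm n := fderiv ℂ T (e (π y)) v with hv'
    have hg := hu.grad γ a _ hz2
    have h5 : |fderiv ℝ (u γ a) (P.e a (π y)) v'| ≤ B * ‖v'‖ := by
      rw [← Real.norm_eq_abs]
      exact (ContinuousLinearMap.le_opNorm _ _).trans
        (mul_le_mul_of_nonneg_right hg (norm_nonneg _))
    have h6 : fderiv ℝ (u γ a) (P.e a (π y)) v' ^ 2 ≤ B ^ 2 * ‖v'‖ ^ 2 := by
      rw [← sq_abs, ← mul_pow]
      exact pow_le_pow_left₀ (abs_nonneg _) h5 2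
    have h7 := (hq a (P.e a (π y)) (ball_subset_closedBall
      (ball_subset_ball (by linarith [P.r_pos a]) h2))).1 v'
    calc fderiv ℝ (u γ a) (P.e a (π y)) v' ^ 2 ≤ B ^ 2 * ‖v'‖ ^ 2 := h6
      _ ≤ B ^ 2 * (Bq * (quad (w (P.e a) (P.e a (π y))) v').re) :=
        mul_le_mul_of_nonneg_left ((norm_sq_le v').trans h7) (sq_nonneg B)
      _ = _ := by ring

end

/-- **Block V15.** -/
theorem v15Stmt : V15Stmt := by
  intro n X _ _ _ _ _ _ w hw E Γ _ _ _ _ p hG
  obtain ⟨P⟩ := Vale.Agent.P284.H790.a1Stmt n X (trivL n X)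
  have hy : ∀ a : P.I, ∃ y : E, p y = (P.e a).symm (P.c a) := fun a => hG.surj _
  choose y hy using hy
  have hlift : ∀ a, ∃ σ : Cm n → E, ContinuousOn σ (ball (P.c a) (4 * P.r a)) ∧
      (∀ z ∈ ball (P.c a) (4 * P.r a), p (σ z) = (P.e a).symm z) ∧ σ (P.c a) = y a := fun a =>
    exists_lift_at hG.cov (by have := P.r_pos a; positivity)
      ((P.e a).continuousOn_symm.mono fun w hw => P.target hw) (y a) (hy a)
  choose σ hσ hπ hc using hlift
  let K : KD P Γ :=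
    { κ := kap σ Γ
      self := fun a z hz => kap_eq hG.free hG.orb hπ hz (by rw [P.T_self hz.1, one_smul])
      trans := fun a b d z hz h => kap_eq hG.free hG.orb hπ (P.trans_mem hz h) (by
        rw [mul_smul, ← P.T_T (d := d) hz, kap_spec hG.orb hπ h, kap_spec hG.orb hπ hz])
      loc := fun a b z hz => kap_loc hG.cov hG.cont hG.free hG.orb hσ hπ hz
      conn := fun Q hQ => kap_conn hG.cov hG.cont hG.free hG.orb hσ hπ Q hQ }
  have hK : ∀ a b z, z ∈ P.O a b → K.κ a b z • σ b (P.T a b z) = σ a z := fun a b z hz =>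
    kap_spec hG.orb hπ hz
  have hs := fun y : E => exists_sheet2 hG hπ y
  obtain ⟨PUc⟩ := Vale.Agent.P284.H894.a4 n X (trivL n X) P Γ K
  obtain ⟨KMc⟩ := exists_KM P K hw
  refine ⟨mkCoc P K, PUc, KMc, fg_of_coc (mkCoc P K), fun u B hu => ?_⟩
  obtain ⟨B', hB'⟩ := vOf_phb hG hσ hπ K hK u hu hs hw.toIsHermitian
  refine ⟨vOf (K := K) hs u, B', hB', ?_⟩
  by_contra hcon
  push Not at hcon
  obtain ⟨γ, a, z, hz, hne⟩ := hu.nonconst
  apply hne
  have h1 : ∀ z' ∈ ball (P.c a) (2 * P.r a), u γ a z' = u γ a z := fun z' hz' => by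
    rw [← vOf_eq hG hπ K hK u hu hs γ a hz', ← vOf_eq hG hπ K hK u hu hs γ a hz]
    exact hcon _ _
  have h2 : u γ a =ᶠ[𝓝 z] fun _ => u γ a z := by
    filter_upwards [isOpen_ball.mem_nhds hz] with z' hz' using h1 z' hz'
  rw [h2.fderiv_eq]
  simp

end Vale.Agent.P284.H639.V
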