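import Vale.Agent.P284.H894.G.Spec
import Vale.Agent.P284.H468.Mean
import Vale.Agent.P272.JN.Chain
import Vale.Agent.P272.GJ.Green

/-!
# P284, theorem K (helper639), row K7: relaxed upper limits of functions with `i∂∂̄ W_j ≥ -ε_j w`

Port of block G4 (helper468) to smooth functions which are plurisubharmonic up to an error `ε_j → 0`.
-/

open scoped Topology ComplexOrder
open Filter Set Metric MeasureTheory

noncomputable section

namespace Vale.Agent.P284.H639.K7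

open Vale.Agent.P272.K Vale.Agent.P272.GJ Vale.Agent.P284.H894 Vale.Agent.P284.H894.G
open Vale.Agent.P284.H468

/-- sub-mean inequality with an error for functions of one variable -/
theorem mean_err1 {g : ℂ → ℝ} {ρ c : ℝ} (hρ : 0 < ρ)
    (hg : ∀ t ∈ closedBall (0 : ℂ) ρ, ContDiffAt ℝ 2 g t)
    (hdd : ∀ t ∈ closedBall (0 : ℂ) ρ, -c ≤ ddb g t) :
    g 0 ≤ Real.circleAverage g 0 ρ + c * ρ ^ 2 := by
  set q : ℂ → ℝ := fun t => c * ‖t‖ ^ 2 with hq
  have hqc : ContDiff ℝ 2 q := contDiff_const.mul (contDiff_norm_sq ℝ)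
  have hddq : ∀ t, ddb q t = c := by
    intro t
    have h1 : ∀ v : ℂ, (fun w => fderiv ℝ q w v) = fun w => c * fderiv ℝ (fun w : ℂ => ‖w‖ ^ 2) w v := by
      intro v
      funext w
      rw [hq, fderiv_const_mul ((contDiff_norm_sq ℝ (n := 2)).differentiable (by norm_num) w)]
      rfl
    have h2 : ∀ v : ℂ, DifferentiableAt ℝ (fun w => fderiv ℝ (fun w : ℂ => ‖w‖ ^ 2) w v) t := by
      intro v
      exact ((contDiff_norm_sq ℝ (n := 2)).contDiffAt.fderiv_right (m := 1) (by norm_num)).clm_apply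
        contDiffAt_const |>.differentiableAt (by norm_num)
    have h3 := ddb_norm_sq t
    unfold ddb at h3 ⊢
    rw [h1, h1, fderiv_const_mul (h2 1), fderiv_const_mul (h2 Complex.I)]
    simp only [smul_apply, smul_eq_mul]
    linear_combination c * h3
  have h1 := green_jensen (φ := fun t => g t + q t) hρ fun z hz => (hg z hz).add hqc.contDiffAt
  have h2 : 0 ≤ ∫ z in ball (0 : ℂ) ρ, Gr ρ z * ddb (fun t => g t + q t) z := by
    refine setIntegral_nonneg measurableSet_ball fun z hz => mul_nonneg (Gr_nonneg hz) ?_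
    have hzc := ball_subset_closedBall hz
    rw [Vale.Agent.P272.JN.ddb_add (hg z hzc) hqc.contDiffAt, hddq]
    linarith [hdd z hzc]
  rw [h1] at h2
  have hci : CircleIntegrable g 0 ρ := by
    refine ContinuousOn.circleIntegrable hρ.le fun t ht => ?_
    exact (hg t (sphere_subset_closedBall ht)).continuousAt.continuousWithinAt
  have hcq : CircleIntegrable q 0 ρ := hqc.continuous.continuousOn.circleIntegrable hρ.le
  have h3 : Real.circleAverage (fun t => g t + q t) 0 ρ =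
      Real.circleAverage g 0 ρ + Real.circleAverage q 0 ρ := by
    have := Real.circleAverage_add hci hcq
    simpa [Pi.add_def] using this
  have h4 : Real.circleAverage q 0 ρ = c * ρ ^ 2 := by
    have h5 : Set.EqOn q (fun _ => c * ρ ^ 2) (sphere 0 |ρ|) := by
      intro t ht
      have h6 : ‖t‖ = |ρ| := by simpa using ht
      simp only [hq, h6, sq_abs]
    rw [Real.circleAverage_congr_sphere h5, Real.circleAverage_const]
  rw [h3, h4] at h2
  have h7 : q 0 = 0 := by simp [hq]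
  rw [h7] at h2
  linarith

variable {n : ℕ}

/-- bound of the quadratic form of a matrix -/
theorem quad_le {A : Matrix (Fin n) (Fin n) ℂ} {B D : ℝ} (ξ : Cm n) (hA : ∀ i j, ‖A i j‖ ≤ B)
    (hξ : ∀ i, ‖ξ i‖ ≤ D) (hD : 0 ≤ D) : (quad A ξ).re ≤ (n : ℝ) * n * B * D ^ 2 := by
  rw [quad_eq]
  refine (Complex.re_le_norm _).trans ?_
  simp only [dotProduct, Matrix.mulVec]
  refine (norm_sum_le _ _).trans ?_
  have h1 : ∀ i : Fin n, ‖star (fun i => cj (ξ i)) i * ∑ j, A i j * cj (ξ j)‖ ≤ n * B * D ^ 2 := by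
    intro i
    rw [norm_mul]
    have h2 : ‖star (fun i => cj (ξ i)) i‖ ≤ D := by
      simp only [Pi.star_apply, norm_star, cj, RCLike.norm_conj]
      exact hξ i
    have h3 : ‖∑ j, A i j * cj (ξ j)‖ ≤ n * (B * D) := by
      refine (norm_sum_le _ _).trans ?_
      refine (Finset.sum_le_card_nsmul _ _ (B * D) fun j _ => ?_).trans_eq ?_
      · rw [norm_mul]
        have h4 : ‖cj (ξ j)‖ ≤ D := by
          simp only [cj, RCLike.norm_conj]; exact hξ j
        exact mul_le_mul (hA i j) h4 (norm_nonneg _) ((norm_nonneg _).trans (hA i j))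
      · rw [Finset.card_univ, Fintype.card_fin, nsmul_eq_mul]
    calc _ ≤ D * (n * (B * D)) := mul_le_mul h2 h3 (norm_nonneg _) hD
      _ = _ := by ring
  refine (Finset.sum_le_card_nsmul _ _ _ fun i _ => h1 i).trans_eq ?_
  rw [Finset.card_univ, Fintype.card_fin, nsmul_eq_mul]
  ring


/-- sub-mean inequality on a translated holomorphic disc, with an error -/
theorem mean_err {S : Set (Cm n)} {W : Cm n → ℝ} {A : Cm n → Matrix (Fin n) (Fin n) ℂ} {ε B D : ℝ}
    (hε : 0 ≤ ε) (hD : 0 ≤ D) (hW : ∀ z ∈ S, ContDiffAt ℝ 2 W z)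
    (hpos : ∀ z ∈ S, (cHess W z + (ε : ℂ) • A z).PosSemidef)
    {ψ : ℂ → Cm n} {ρ : ℝ} (hρ : 0 < ρ) (hψ : AnalyticOnNhd ℂ ψ (closedBall 0 ρ))
    (hψS : ∀ t ∈ closedBall (0 : ℂ) ρ, ψ t ∈ S)
    (hB : ∀ t ∈ closedBall (0 : ℂ) ρ, ∀ i j, ‖A (ψ t) i j‖ ≤ B)
    (hψD : ∀ t ∈ closedBall (0 : ℂ) ρ, ∀ i, ‖deriv ψ t i‖ ≤ D) :
    W (ψ 0) ≤ Real.circleAverage (fun t => W (ψ t)) 0 ρ + ε * ((n : ℝ) * n * B * D ^ 2 * ρ ^ 2) := by
  have h := mean_err1 (g := fun t => W (ψ t)) (c := ε * ((n : ℝ) * n * B * D ^ 2)) hρ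
    (fun t ht => ?_) fun t ht => ?_
  · refine h.trans_eq ?_
    ring
  · have h1 : ContDiffAt ℝ 2 ψ t := ((hψ t ht).contDiffAt (n := 2)).restrict_scalars ℝ
    exact (hW _ (hψS t ht)).comp t h1
  · rw [Vale.Agent.P272.JN.ddb_comp_holo (hψ t ht) (hW _ (hψS t ht))]
    have h1 := (hpos _ (hψS t ht)).re_dotProduct_nonneg (fun i => cj (deriv ψ t i))
    rw [← quad_eq] at h1
    have h2 : quad (cHess W (ψ t) + (ε : ℂ) • A (ψ t)) (deriv ψ t) =
        quad (cHess W (ψ t)) (deriv ψ t) + (ε : ℂ) * quad (A (ψ t)) (deriv ψ t) := by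
      unfold quad
      rw [Finset.mul_sum, ← Finset.sum_add_distrib]
      refine Finset.sum_congr rfl fun i _ => ?_
      rw [Finset.mul_sum, ← Finset.sum_add_distrib]
      refine Finset.sum_congr rfl fun j _ => ?_
      simp only [Matrix.add_apply, Matrix.smul_apply, smul_eq_mul]
      ring
    rw [h2] at h1
    have h3 := quad_le (deriv ψ t) (hB t ht) (hψD t ht) hD
    have h4 : RCLike.re (quad (cHess W (ψ t)) (deriv ψ t) + (ε : ℂ) * quad (A (ψ t)) (deriv ψ t)) =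
        (quad (cHess W (ψ t)) (deriv ψ t)).re + ε * (quad (A (ψ t)) (deriv ψ t)).re := by
      simp
    rw [h4] at h1
    nlinarith [mul_le_mul_of_nonneg_left h3 hε]

open Classical in
/-- the functions `W_j`, zero outside of `S` -/
def cut {V : Type*} (S : Set V) (W : ℕ → V → ℝ) (j : ℕ) (z : V) : ℝ := if z ∈ S then W j z else 0

section
variable {V : Type*} {S : Set V} {W : ℕ → V → ℝ}

theorem cut_of_mem {j : ℕ} {z : V} (hz : z ∈ S) : cut S W j z = W j z := if_pos hz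

theorem cut_nonneg (h0 : ∀ j, ∀ z ∈ S, 0 ≤ W j z) (j : ℕ) (z : V) : 0 ≤ cut S W j z := by
  unfold cut
  split_ifs with h
  · exact h0 _ _ h
  · exact le_rfl

theorem cut_le_one (h1 : ∀ j, ∀ z ∈ S, W j z ≤ 1) (j : ℕ) (z : V) : cut S W j z ≤ 1 := by
  unfold cut
  split_ifs with h
  · exact h1 _ _ h
  · exact zero_le_one

end

/-- The relaxed upper limit satisfies the sub-mean inequality on holomorphic discs. -/
theorem rl_mean {S : Set (Cm n)} (hS : IsOpen S) {W : ℕ → Cm n → ℝ}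
    {A : Cm n → Matrix (Fin n) (Fin n) ℂ} {ε : ℕ → ℝ} (hA : ContinuousOn A S)
    (hε : ∀ j, 0 ≤ ε j) (hε0 : Tendsto ε atTop (𝓝 0))
    (h0 : ∀ j, ∀ z ∈ S, 0 ≤ W j z) (h1 : ∀ j, ∀ z ∈ S, W j z ≤ 1)
    (hW : ∀ j, ∀ z ∈ S, ContDiffAt ℝ 2 (W j) z)
    (hpos : ∀ j, ∀ z ∈ S, (cHess (W j) z + (ε j : ℂ) • A z).PosSemidef) (φ : ℂ → Cm n)
    (hφ : DifferentiableOn ℂ φ (ball 0 1)) (hφS : ∀ t ∈ ball (0 : ℂ) 1, φ t ∈ S) (ρ : ℝ)
    (hρ : ρ ∈ Ioo (0 : ℝ) 1) :
    rl (cut S W) (φ 0) ≤ Real.circleAverage (fun t => rl (cut S W) (φ t)) 0 ρ := by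
  have w0 := cut_nonneg h0
  have w1 := cut_le_one h1
  obtain ⟨j, w, hj, hw, hjw⟩ := exists_seq w0 (φ 0)
  have hρb : closedBall (0 : ℂ) ρ ⊆ ball 0 1 := closedBall_subset_ball hρ.2
  have hcφ : ContinuousOn φ (closedBall 0 ρ) := hφ.continuousOn.mono hρb
  have hφa : AnalyticOnNhd ℂ φ (closedBall 0 ρ) := (hφ.analyticOnNhd isOpen_ball).mono hρb
  have hKc : IsCompact (φ '' closedBall 0 ρ) := (isCompact_closedBall _ _).image_of_continuousOn hcφ
  -- the translated discs stay in a compact subset of `S`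
  obtain ⟨δ, hδ, hsub⟩ := hKc.exists_cthickening_subset_open hS (by
      rintro _ ⟨t, ht, rfl⟩; exact hφS t (hρb ht))
  have hδS : ∀ t ∈ closedBall (0 : ℂ) ρ, ∀ y : Cm n, ‖y‖ < δ →
      φ t + y ∈ cthickening δ (φ '' closedBall 0 ρ) := by
    intro t ht y hy
    refine thickening_subset_cthickening _ _ (mem_thickening_iff.2 ?_)
    exact ⟨φ t, mem_image_of_mem _ ht, by rw [dist_eq_norm, add_sub_cancel_left]; exact hy⟩
  have hKt : IsCompact (cthickening δ (φ '' closedBall 0 ρ)) := hKc.cthickening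
  obtain ⟨B, hB⟩ : ∃ B : ℝ, ∀ z ∈ cthickening δ (φ '' closedBall 0 ρ), ∀ i k, ‖A z i k‖ ≤ B := by
    have h2 : ∀ i k : Fin n, ∃ B : ℝ, ∀ z ∈ cthickening δ (φ '' closedBall 0 ρ), ‖A z i k‖ ≤ B := by
      intro i k
      refine hKt.exists_bound_of_continuousOn ?_
      have h3 : ContinuousOn A (cthickening δ (φ '' closedBall 0 ρ)) := hA.mono hsub
      intro z hz
      have h4 := h3 z hz
      exact ((continuous_apply k).comp (continuous_apply i)).continuousAt.comp_continuousWithinAt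
        (f := A) (g := fun M : Matrix (Fin n) (Fin n) ℂ => M i k) h4
    choose B0 hB0 using h2
    refine ⟨∑ i, ∑ k, |B0 i k|, fun z hz i k => (hB0 i k z hz).trans ((le_abs_self _).trans ?_)⟩
    refine le_trans ?_ (Finset.single_le_sum (f := fun i => ∑ k, |B0 i k|)
      (fun i _ => Finset.sum_nonneg fun k _ => abs_nonneg _) (Finset.mem_univ i))
    exact Finset.single_le_sum (f := fun k => |B0 i k|) (fun k _ => abs_nonneg _) (Finset.mem_univ k)
  obtain ⟨D, hD⟩ : ∃ D : ℝ, ∀ t ∈ closedBall (0 : ℂ) ρ, ‖deriv φ t‖ ≤ D := by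
    refine (isCompact_closedBall (0 : ℂ) ρ).exists_bound_of_continuousOn ?_
    exact fun t ht => (hφa.deriv t ht).continuousAt.continuousWithinAt
  have hD0 : 0 ≤ D := (norm_nonneg _).trans (hD 0 (mem_closedBall_self hρ.1.le))
  set E : ℝ := (n : ℝ) * n * B * D ^ 2 * ρ ^ 2 with hE
  have hev : ∀ᶠ k in atTop, ‖w k - φ 0‖ < δ := by
    have := (tendsto_iff_dist_tendsto_zero.1 hw).eventually (gt_mem_nhds hδ)
    simpa only [dist_eq_norm] using this
  have hmem : ∀ θ, circleMap 0 ρ θ ∈ closedBall (0 : ℂ) ρ := fun θ =>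
    sphere_subset_closedBall (circleMap_mem_sphere 0 hρ.1.le θ)
  set h : ℕ → ℂ → ℝ := fun k t => cut S W (j k) (φ t + (w k - φ 0)) with hh
  have key : ∀ k, ‖w k - φ 0‖ < δ →
      (Measurable fun θ => h k (circleMap 0 ρ θ)) ∧
      rl (cut S W) (φ 0) - (1 / (k + 1) + ε (j k) * E) ≤ Real.circleAverage (h k) 0 ρ := by
    intro k hk
    set y : Cm n := w k - φ 0 with hy
    set ψ : ℂ → Cm n := fun t => φ t + y with hψ
    have hψa : AnalyticOnNhd ℂ ψ (closedBall 0 ρ) := fun t ht => (hφa t ht).add analyticAt_const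
    have hψS : ∀ t ∈ closedBall (0 : ℂ) ρ, ψ t ∈ S := fun t ht => hsub (hδS t ht y hk)
    have hhG : ∀ t ∈ closedBall (0 : ℂ) ρ, h k t = W (j k) (ψ t) := fun t ht =>
      cut_of_mem (hψS t ht)
    have hWc : ContinuousOn (fun t => W (j k) (ψ t)) (closedBall 0 ρ) := fun t ht =>
      ((hW (j k) _ (hψS t ht)).continuousAt.comp (hψa t ht).continuousAt).continuousWithinAt
    refine ⟨?_, ?_⟩
    · have h3 : (fun θ => h k (circleMap 0 ρ θ)) = fun θ => W (j k) (ψ (circleMap 0 ρ θ)) := by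
        funext θ
        exact hhG _ (hmem θ)
      rw [h3]
      exact (hWc.comp_continuous (continuous_circleMap 0 ρ) hmem).measurable
    · have hdψ : ∀ t, deriv ψ t = deriv φ t := fun t => by
        rw [hψ, deriv_add_const]
      have h5 := mean_err (hε (j k)) hD0 (hW (j k)) (hpos (j k)) hρ.1 hψa hψS
        (fun t ht => hB _ (hδS t ht y hk)) fun t ht i => by
          rw [hdψ]; exact (norm_le_pi_norm _ i).trans (hD t ht)
      have h7 : ψ 0 = w k := by rw [hψ, hy]; simp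
      have h8 : w k ∈ S := by
        rw [← h7]; exact hψS 0 (mem_closedBall_self hρ.1.le)
      have h9 : Real.circleAverage (h k) 0 ρ = Real.circleAverage (fun t => W (j k) (ψ t)) 0 ρ :=
        Real.circleAverage_congr_sphere fun t ht => hhG t (by
          rw [abs_of_pos hρ.1] at ht; exact sphere_subset_closedBall ht)
      rw [h9]
      have h10 := hjw k
      rw [cut_of_mem h8] at h10
      rw [h7] at h5
      linarith
  obtain ⟨N, hN⟩ := eventually_atTop.1 hev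
  refine fatou (h := fun k => h (k + N))
    (ε := fun k => 1 / ((k + N : ℕ) + 1) + ε (j (k + N)) * E) (fun k =>
    (key _ (hN _ (Nat.le_add_left _ _))).1) (fun k t => w0 _ _) (fun k t => w1 _ _) ?_
    (fun t => rl_nonneg w0 w1 _) (fun t => rl_le_one w0 w1 _) ?_ ?_ ?_
  · refine UpperSemicontinuous.measurable ?_
    have hc : Continuous fun θ => φ (circleMap 0 ρ θ) :=
      hcφ.comp_continuous (continuous_circleMap 0 ρ) hmem
    intro θ
    exact UpperSemicontinuousAt.comp (f := rl (cut S W)) (rl_usc w0 w1 _) hc.continuousAt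
  · intro θ y hy
    have h2 := lt_of_rl_lt w1 hy
    have h3 : Tendsto (fun k => (j (k + N), φ (circleMap 0 ρ θ) + (w (k + N) - φ 0))) atTop
        (atTop ×ˢ 𝓝 (φ (circleMap 0 ρ θ))) := by
      refine Tendsto.prodMk (hj.comp (tendsto_add_atTop_nat N)) ?_
      have h4 : Tendsto (fun k => w (k + N)) atTop (𝓝 (φ 0)) := hw.comp (tendsto_add_atTop_nat N)
      have h5 := (tendsto_const_nhds (x := φ (circleMap 0 ρ θ))).add
        (h4.sub (tendsto_const_nhds (x := φ 0)))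
      simpa using h5
    filter_upwards [h3.eventually h2] with k hk
    exact hk.le
  · have h2 : Tendsto (fun k : ℕ => 1 / (((k + N : ℕ) : ℝ) + 1)) atTop (𝓝 0) :=
      (tendsto_one_div_add_atTop_nhds_zero_nat (𝕜 := ℝ)).comp (tendsto_add_atTop_nat N)
    have h3 : Tendsto (fun k : ℕ => ε (j (k + N)) * E) atTop (𝓝 (0 * E)) :=
      ((hε0.comp hj).comp (tendsto_add_atTop_nat N)).mul_const E
    have h4 := h2.add h3
    simpa using h4
  · exact Eventually.of_forall fun k => (key _ (hN _ (Nat.le_add_left _ _))).2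

section
variable {Γ : Type} [Group Γ] {C : Coc n Γ} {W : ℕ → Γ → C.I → Cm n → ℝ}

theorem change_le (h0 : ∀ j γ a, ∀ z ∈ C.V a, 0 ≤ W j γ a z) (h1 : ∀ j γ a, ∀ z ∈ C.V a, W j γ a z ≤ 1)
    (hch : ∀ j γ a b z, z ∈ C.O a b → z ∈ C.V a → C.T a b z ∈ C.V b →
      W j γ a z = W j (γ * C.κ a b z) b (C.T a b z)) {γ : Γ} {a b : C.I} {z : Cm n}
    (hz : z ∈ C.O a b) (hza : z ∈ C.V a) (hzb : C.T a b z ∈ C.V b) :
    rl (cut (C.V a) (fun j => W j γ a)) z ≤
      rl (cut (C.V b) (fun j => W j (γ * C.κ a b z) b)) (C.T a b z) := by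
  refine le_of_forall_gt fun x hx => ?_
  obtain ⟨y, hy1, hy2⟩ := exists_between hx
  have hWy := lt_of_rl_lt (cut_le_one fun j => h1 j _ b) hy1
  have hO : IsOpen (C.O a b) := C.O_open a b
  have hVo : ∀ b, IsOpen (C.V b) := fun b => isOpen_ball
  have hTc : ContinuousAt (C.T a b) z := ((C.T_holo a b).differentiableAt (hO.mem_nhds hz)).continuousAt
  have hT2 : Tendsto (fun q : ℕ × Cm n => (q.1, C.T a b q.2)) (atTop ×ˢ 𝓝 z)
      (atTop ×ˢ 𝓝 (C.T a b z)) := tendsto_fst.prodMk (hTc.tendsto.comp tendsto_snd)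
  refine lt_of_le_of_lt (rl_le_of (cut_nonneg fun j => h0 j _ a) (x := y) ?_) hy2
  have hev1 : ∀ᶠ q : ℕ × Cm n in atTop ×ˢ 𝓝 z, q.2 ∈ C.O a b ∧ q.2 ∈ C.V a ∧
      C.T a b q.2 ∈ C.V b ∧ C.κ a b q.2 = C.κ a b z := by
    have h0 : ∀ᶠ w in 𝓝 z, w ∈ C.O a b ∧ w ∈ C.V a ∧
        C.T a b w ∈ C.V b ∧ C.κ a b w = C.κ a b z := by
      filter_upwards [hO.mem_nhds hz, (hVo a).mem_nhds hza, hTc ((hVo b).mem_nhds hzb),
        C.κ_loc a b z hz] with w h1 h2 h3 h4
      exact ⟨h1, h2, h3, h4⟩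
    exact (tendsto_snd (f := atTop (α := ℕ)) (g := 𝓝 z)).eventually h0
  filter_upwards [hT2.eventually hWy, hev1] with q h1 h2
  obtain ⟨h21, h22, h23, h24⟩ := h2
  rw [cut_of_mem h23] at h1
  rw [cut_of_mem h22]
  have h5 := hch q.1 γ a b q.2 h21 h22 h23
  rw [h24] at h5
  rw [h5]
  exact h1.le

theorem change_eq (h0 : ∀ j γ a, ∀ z ∈ C.V a, 0 ≤ W j γ a z) (h1 : ∀ j γ a, ∀ z ∈ C.V a, W j γ a z ≤ 1)
    (hch : ∀ j γ a b z, z ∈ C.O a b → z ∈ C.V a → C.T a b z ∈ C.V b →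
      W j γ a z = W j (γ * C.κ a b z) b (C.T a b z)) {γ : Γ} {a b : C.I} {z : Cm n}
    (hz : z ∈ C.O a b) (hza : z ∈ C.V a) (hzb : C.T a b z ∈ C.V b) :
    rl (cut (C.V a) (fun j => W j γ a)) z =
      rl (cut (C.V b) (fun j => W j (γ * C.κ a b z) b)) (C.T a b z) := by
  refine le_antisymm (change_le h0 h1 hch hz hza hzb) ?_
  have h2 : C.T a b z ∈ C.O b a := C.T_mem a b z hz
  have hzaa : z ∈ C.O a a := C.trans_mem a b a z hz h2
  have h3 : C.T b a (C.T a b z) = z := by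
    rw [← C.trans_T a b a z hz h2, C.T_self a z hzaa]
  have h4 : C.κ a b z * C.κ b a (C.T a b z) = 1 := by
    rw [← C.trans_κ a b a z hz h2, C.κ_self a z hzaa]
  have h5 := change_le h0 h1 hch (γ := γ * C.κ a b z) h2 hzb (by rw [h3]; exact hza)
  rw [h3, mul_assoc, h4, mul_one] at h5
  exact h5

end

/-- **Row K7** (on the pieces): functions `W_j` on the covering, `0 ≤ W_j ≤ 1`, `i∂∂̄ W_j ≥ -ε_j w`,
`ε_j → 0`, have a plurisubharmonic relaxed upper limit. -/
theorem k7 {Γ : Type} [Group Γ] (C : Coc n Γ) (A : C.I → Cm n → Matrix (Fin n) (Fin n) ℂ)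
    (hA : ∀ a, ContinuousOn (A a) (C.V a)) (W : ℕ → Γ → C.I → Cm n → ℝ) (ε : ℕ → ℝ)
    (hε : ∀ j, 0 ≤ ε j) (hε0 : Tendsto ε atTop (𝓝 0))
    (h0 : ∀ j γ a, ∀ z ∈ C.V a, 0 ≤ W j γ a z) (h1 : ∀ j γ a, ∀ z ∈ C.V a, W j γ a z ≤ 1)
    (hW : ∀ j γ a, ∀ z ∈ C.V a, ContDiffAt ℝ 2 (W j γ a) z)
    (hpos : ∀ j γ a, ∀ z ∈ C.V a, (cHess (W j γ a) z + (ε j : ℂ) • A a z).PosSemidef)
    (hch : ∀ j γ a b z, z ∈ C.O a b → z ∈ C.V a → C.T a b z ∈ C.V b →
      W j γ a z = W j (γ * C.κ a b z) b (C.T a b z)) :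
    ∃ v : PshFam C,
      (∀ γ b (U : Set (Cm n)) (α : ℝ), IsOpen U → U ⊆ C.V b →
        (∀ j, ∀ w ∈ U, W j γ b w ≤ α) → ∀ w ∈ U, v.v γ b w ≤ α) ∧
      ∀ γ b (K : Set (Cm n)) (β : ℝ), IsCompact K → K ⊆ C.V b →
        (∀ j, ∃ w ∈ K, β ≤ W j γ b w) → ∃ w ∈ K, β ≤ v.v γ b w := by
  have hVo : ∀ b, IsOpen (C.V b) := fun b => isOpen_ball
  refine ⟨{ v := fun γ a => rl (cut (C.V a) (fun j => W j γ a))
            nonneg := fun γ a z => rl_nonneg (cut_nonneg fun j => h0 j _ a)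
              (cut_le_one fun j => h1 j _ a) z
            le_one := fun γ a z => rl_le_one (cut_nonneg fun j => h0 j _ a)
              (cut_le_one fun j => h1 j _ a) z
            change := fun γ a b z hz hza hzb => change_eq h0 h1 hch hz hza hzb
            usc := fun γ a z _ => rl_usc (cut_nonneg fun j => h0 j _ a)
              (cut_le_one fun j => h1 j _ a) z
            mean := fun γ a φ hφ hφV ρ hρ => rl_mean (hVo a) (hA a) hε hε0 (fun j => h0 j γ a)
              (fun j => h1 j γ a) (fun j => hW j γ a) (fun j => hpos j γ a) φ hφ hφV ρ hρ }, ?_, ?_⟩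
  · intro γ b U α hU hUV h w hw
    refine rl_le_of (cut_nonneg fun j => h0 j _ b) ?_
    filter_upwards [tendsto_snd.eventually (hU.mem_nhds hw)] with q hq
    rw [cut_of_mem (hUV hq)]
    exact h _ _ hq
  · intro γ b K β hK hKV h
    choose w hwK hw using h
    obtain ⟨w0, hw0, φ, hφ, hlim⟩ := hK.tendsto_subseq hwK
    refine ⟨w0, hw0, le_rl_of (cut_le_one fun j => h1 j _ b) ?_⟩
    have h2 : Tendsto (fun k => (φ k, w (φ k))) atTop (atTop ×ˢ 𝓝 w0) :=
      hφ.tendsto_atTop.prodMk hlim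
    refine h2.frequently (Eventually.of_forall fun k => ?_).frequently
    simp only
    rw [cut_of_mem (hKV (hwK _))]
    exact hw _

end Vale.Agent.P284.H639.K7
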