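import Vale.Agent.P284.H409.K.Spec
import Vale.Agent.P284.H639.K7

/-!
# P284, theorem K (helper639), rows K7 and K8
-/

open scoped Manifold ContDiff Topology ComplexOrder
open Filter Set Metric MeasureTheory

noncomputable section

namespace Vale.Agent.P284.H639.K7

open Vale.Agent.P272.K Vale.Agent.P284.H248 Vale.Agent.P284.H894 Vale.Agent.P284.H894.G
  Vale.Agent.P284.H894.V Vale.Agent.P284.H409.K

theorem V_sub {n : ℕ} {Γ : Type} [Group Γ] (C : Coc n Γ) (a : C.I) : C.V a ⊆ C.Ω a :=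
  ball_subset_ball (by linarith [C.r_pos a])

/-- **Row K7.** -/
theorem k7Stmt : K7Stmt := by
  intro n Γ _ C K w ε hε hw
  refine k7 C K.w (fun a => ?_) w (fun j => |ε j|) (fun j => abs_nonneg _) (by
    have := hε.abs
    simpa using this)
    (fun j γ a z hz => (hw j).nonneg γ a z (V_sub C a hz))
    (fun j γ a z hz => (hw j).le_one γ a z (V_sub C a hz))
    (fun j γ a z hz => ((hw j).smooth γ a z (V_sub C a hz)).of_le (by norm_cast))
    (fun j γ a z hz => ?_)
    (fun j γ a b z hz _ _ => (hw j).compat γ a b z hz)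
  · refine continuousOn_pi.2 fun i => continuousOn_pi.2 fun k => fun z hz => ?_
    exact ((K.ku a).smooth z (V_sub C a hz) i k).continuousAt.continuousWithinAt
  · have h1 := (hw j).hess γ a z (V_sub C a hz)
    have h2 : (K.w a z).PosSemidef := ((K.ku a).pos z (V_sub C a hz)).posSemidef
    have h3 : (((|ε j| - ε j : ℝ) : ℂ) • K.w a z).PosSemidef := by
      refine h2.smul ?_
      rw [Complex.zero_le_real]
      linarith [le_abs_self (ε j)]
    have h4 := h1.add h3
    have h5 : cHess (w j γ a) z + (ε j : ℂ) • K.w a z + ((|ε j| - ε j : ℝ) : ℂ) • K.w a z =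
        cHess (w j γ a) z + ((|ε j| : ℝ) : ℂ) • K.w a z := by
      rw [add_assoc, ← add_smul]
      congr 2
      push_cast
      ring
    rw [h5] at h4
    exact h4

section
variable {n : ℕ} {X : Type} [TopologicalSpace X] [ChartedSpace (Cm n) X]
  {E Γ : Type} [TopologicalSpace E] [Group Γ] [MulAction Γ E] {p : E → X} {C : Coc n Γ}
  (S : Vale.Agent.P284.H35.A9.Shs p C) (v : PshFam C)

theorem W_subV {Γ : Type} [Group Γ] (C : Coc n Γ) (b : C.I) : C.W b ⊆ C.V b :=
  ball_subset_ball (by linarith [C.r_pos b])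

/-- the function on the covering space -/
theorem exists_uE : ∃ u : E → ℝ, (∀ y, 0 ≤ u y ∧ u y ≤ 1) ∧
    ∀ γ a, ∀ z ∈ C.V a, u (γ • S.σ a z) = v.v γ a z := by
  choose g b z' hz' hy using S.cover
  refine ⟨fun y => v.v (g y) (b y) (z' y), fun y => ⟨v.nonneg _ _ _, v.le_one _ _ _⟩,
    fun γ a z hz => ?_⟩
  set y : E := γ • S.σ a z with hyd
  have h1 := hz' y
  have h2 := hy y
  obtain ⟨h31, h32, h33⟩ := S.rel γ (g y) a (b y) z (z' y) (V_sub C a hz)
    (V_sub C (b y) (W_subV C _ h1)) (by rw [h2])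
  have h4 := v.change γ a (b y) z h31 hz (by rw [h32]; exact W_subV C _ h1)
  show v.v (g y) (b y) (z' y) = _
  rw [h4, h32, h33]

include S in
theorem psh_of_pieces (hG : IsGalois Γ p) (hp : Continuous p) {u : E → ℝ}
    (hu : ∀ γ a, ∀ z ∈ C.V a, u (γ • S.σ a z) = v.v γ a z) : IsPsh (n := n) p u := by
  have hpp : ∀ (k : Γ) (y : E), p (k • y) = p y := fun k y => ((hG.orb _ _).2 ⟨k, rfl⟩).symm
  -- near a point of a sheet
  have near : ∀ (γ : Γ) (a : C.I), ∀ z ∈ C.V a, At (S.e a) (p (γ • S.σ a z)) ∧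
      S.e a (p (γ • S.σ a z)) = z ∧ ContinuousAt (fun y => S.e a (p y)) (γ • S.σ a z) := by
    intro γ a z hz
    have h1 := S.src a z (V_sub C a hz)
    rw [hpp]
    refine ⟨h1.1, h1.2, ?_⟩
    refine ContinuousAt.comp ?_ hp.continuousAt
    rw [hpp]
    exact (S.e a).continuousAt h1.1.2
  refine ⟨fun y => ?_, fun φ hφ => ?_⟩
  · obtain ⟨γ, a, z, hz, rfl⟩ := S.cover y
    have hzV := W_subV C a hz
    obtain ⟨-, hval, hcont⟩ := near γ a z hzV
    intro c hc
    rw [hu γ a z hzV] at hc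
    have hev := S.near γ a z (V_sub C a hzV)
    have h4 : ∀ᶠ z' in 𝓝 (S.e a (p (γ • S.σ a z))), v.v γ a z' < c ∧ z' ∈ C.V a := by
      rw [hval]
      exact (v.usc γ a _ hzV c hc).and (isOpen_ball.mem_nhds hzV)
    filter_upwards [hev, hcont.eventually h4] with y' h6 h7
    rw [← h6.2, hu γ a _ h7.2]
    exact h7.1
  · obtain ⟨γ, a, z, hz, hy⟩ := S.cover (φ 0)
    have hzV := W_subV C a hz
    obtain ⟨-, hval, hcont⟩ := near γ a z hzV
    have hev : ∀ᶠ y in 𝓝 (γ • S.σ a z), At (S.e a) (p y) ∧ S.e a (p y) ∈ C.V a ∧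
        γ • S.σ a (S.e a (p y)) = y := by
      have h4 : ∀ᶠ z' in 𝓝 (S.e a (p (γ • S.σ a z))), z' ∈ C.V a := by
        rw [hval]
        exact isOpen_ball.mem_nhds hzV
      filter_upwards [S.near γ a z (V_sub C a hzV), hcont.eventually h4] with y' h6 h7
      refine ⟨?_, h7, h6.2⟩
      have h8 := (S.src a _ h6.1).1
      rw [← hpp γ, h6.2] at h8
      exact h8
    rw [hy] at hev hcont hval
    have hφ0 : ContinuousAt φ 0 := hφ.cont.continuousAt (ball_mem_nhds _ one_pos)
    obtain ⟨ε, hε, hball⟩ := Metric.eventually_nhds_iff_ball.1 (hφ0.eventually hev)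
    set κ : ℝ := min ε 1 with hκdef
    have hκ : 0 < κ := lt_min hε one_pos
    have hin : ∀ t ∈ ball (0 : ℂ) 1, t * κ ∈ ball (0 : ℂ) ε ∧ t * κ ∈ ball (0 : ℂ) 1 := by
      intro t ht
      rw [mem_ball_zero_iff] at ht
      have h5 : ‖t * (κ : ℂ)‖ < κ := by
        rw [norm_mul, Complex.norm_real, Real.norm_of_nonneg hκ.le]
        exact (mul_lt_iff_lt_one_left hκ).2 ht
      rw [mem_ball_zero_iff, mem_ball_zero_iff]
      exact ⟨h5.trans_le (min_le_left _ _), h5.trans_le (min_le_right _ _)⟩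
    set ψ : ℂ → Cm n := fun t => S.e a (p (φ (t * κ))) with hψ
    have hd : DifferentiableOn ℂ ψ (ball 0 1) := by
      intro t ht
      have h5 := hφ.holo (t * κ) (hin t ht).2 (S.e a) (hball _ (hin t ht).1).1
      have h6 : DifferentiableAt ℂ (fun t : ℂ => t * (κ : ℂ)) t :=
        differentiableAt_id.mul_const _
      exact (DifferentiableAt.comp t h5 h6).differentiableWithinAt
    have hm := v.mean γ a ψ hd fun t ht => (hball _ (hin t ht).1).2.1
    refine ⟨κ, hκ, fun ρ hρ => ?_⟩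
    have hρκ : 0 < ρ / κ := div_pos hρ.1 hκ
    have hρκ1 : ρ / κ < 1 := (div_lt_one hκ).2 hρ.2
    rw [Vale.Agent.P284.H427.circleAverage_scale _ _ hκ.ne']
    have h7 := hm (ρ / κ) ⟨hρκ, hρκ1⟩
    have h8 : ψ 0 = z := by
      rw [hψ]; simp only [zero_mul]; exact hval
    rw [h8] at h7
    rw [← hy, hu γ a z hzV]
    refine h7.trans_eq (Real.circleAverage_congr_sphere fun t ht => ?_)
    have ht1 : t ∈ ball (0 : ℂ) 1 := by
      rw [mem_sphere_zero_iff_norm, abs_of_pos hρκ] at ht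
      rw [mem_ball_zero_iff, ht]
      exact hρκ1
    have h9 := hball _ (hin t ht1).1
    have e2 := hu γ a _ h9.2.1
    rw [h9.2.2] at e2
    simp only [zero_add]
    rw [e2]

end

/-- **Row K8.** -/
theorem k8Stmt : K8Stmt := by
  intro n X _ _ _ _ _ _ E Γ _ _ _ _ p hG C S v
  obtain ⟨u, h1, h2⟩ := exists_uE S v
  exact ⟨u, psh_of_pieces S v hG hG.cov.continuous h2, h1, h2⟩

end Vale.Agent.P284.H639.K7
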