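import Vale.Agent.P284.H894.V.Spec
import Vale.Agent.P272.K.C2.Mat

/-!
# P284, theorem V, block V5: the global identities
-/

open scoped Manifold ContDiff Topology Pointwise ComplexConjugate ComplexOrder
open Filter Set Metric MeasureTheory

noncomputable section

namespace Vale.Agent.P284.H639.V

open Vale.Agent.P272.K Vale.Agent.P272.K.C2 Vale.Agent.P284.H248 Vale.Agent.P284.H894
  Vale.Agent.P284.H894.V

/-! ### Local operators -/

section loc
variable {n : ℕ} {U : Set (Cm n)} {w : Cm n → Matrix (Fin n) (Fin n) ℂ} {f g h k : Cm n → ℝ}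
  {z : Cm n}

theorem two_le : (2 : WithTop ℕ∞) ≤ ∞ :=
  (WithTop.coe_le_coe.2 le_top : ((2 : ℕ∞) : WithTop ℕ∞) ≤ ((⊤ : ℕ∞) : WithTop ℕ∞))

theorem KU_mono (hw : KU U w) {V : Set (Cm n)} (hV : IsOpen V) (h : V ⊆ U) : KU V w :=
  ⟨hV, fun z hz => hw.smooth z (h hz), fun z hz => hw.pos z (h hz), fun z hz => hw.closed z (h hz)⟩

theorem KU_mc (hw : KU U w) (hz : z ∈ U) : MC ∞ w z := fun i j => hw.smooth z hz i j

theorem KU_det (hw : KU U w) (hz : z ∈ U) : (w z).det ≠ 0 := (hw.pos z hz).det_pos.ne'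

theorem KU_inv (hw : KU U w) (hz : z ∈ U) : MC ∞ (fun y => (w y)⁻¹) z :=
  (KU_mc hw hz).inv (KU_det hw hz)

theorem re_smooth {F : Cm n → ℂ} (hF : ContDiffAt ℝ ∞ F z) :
    ContDiffAt ℝ ∞ (fun y => (F y).re) z :=
  Complex.reCLM.contDiff.contDiffAt.comp z hF

theorem mc_cHess (hf : ContDiffAt ℝ ∞ f z) : MC ∞ (cHess f) z :=
  fun i j => contDiffAt_cHess (m := ∞) hf (by norm_num) i j

theorem smooth_lap (hw : KU U w) (hz : z ∈ U) (hf : ContDiffAt ℝ ∞ f z) :
    ContDiffAt ℝ ∞ (lap w f) z :=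
  re_smooth ((KU_inv hw hz).mul (mc_cHess hf)).trace

theorem smooth_hh (hw : KU U w) (hz : z ∈ U) (hf : ContDiffAt ℝ ∞ f z)
    (hh' : ContDiffAt ℝ ∞ h z) : ContDiffAt ℝ ∞ (hh w f h) z :=
  re_smooth ((((KU_inv hw hz).mul (mc_cHess hf))).mul ((KU_inv hw hz).mul (mc_cHess hh'))).trace

theorem smooth_gr (hw : KU U w) (hz : z ∈ U) (hf : ContDiffAt ℝ ∞ f z)
    (hh' : ContDiffAt ℝ ∞ h z) : ContDiffAt ℝ ∞ (gr w f h) z := by
  refine re_smooth (ContDiffAt.sum fun j _ => ContDiffAt.sum fun k _ => ?_)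
  exact ((KU_inv hw hz k j).mul (contDiffAt_dz j (contDiffAt_ofReal hf) (by norm_num))).mul
    (contDiffAt_dzb k (contDiffAt_ofReal hh') (by norm_num))

theorem smooth_vol (hw : KU U w) (hz : z ∈ U) : ContDiffAt ℝ ∞ (vol w) z :=
  re_smooth (KU_mc hw hz).det

theorem ofReal_ev (e : f =ᶠ[𝓝 z] g) : (fun y => (f y : ℂ)) =ᶠ[𝓝 z] fun y => (g y : ℂ) := by
  filter_upwards [e] with y hy
  rw [hy]

theorem lap_congr (e : f =ᶠ[𝓝 z] g) : lap w f z = lap w g z := by
  rw [lap, lap, C2.cHess_congr e]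

theorem hh_congr (e : f =ᶠ[𝓝 z] g) (e' : h =ᶠ[𝓝 z] k) : hh w f h z = hh w g k z := by
  rw [hh, hh, C2.cHess_congr e, C2.cHess_congr e']

theorem gr_congr (e : f =ᶠ[𝓝 z] g) (e' : h =ᶠ[𝓝 z] k) : gr w f h z = gr w g k z := by
  simp only [gr]
  congr 1
  refine Finset.sum_congr rfl fun i _ => Finset.sum_congr rfl fun j _ => ?_
  rw [dz_congr i (ofReal_ev e), dzb_congr j (ofReal_ev e')]

theorem lap_zero : lap w (fun _ => (0 : ℝ)) z = 0 := by
  simp [lap, C2.cHess_const]

theorem hh_zero : hh w (fun _ => (0 : ℝ)) h z = 0 := by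
  simp [hh, C2.cHess_const]

theorem gr_zero : gr w (fun _ => (0 : ℝ)) h z = 0 := by
  have : ∀ j : Fin n, dz j (fun _ : Cm n => ((0 : ℝ) : ℂ)) z = 0 := fun j => dz_const j _
  simp only [gr, this]
  simp

theorem lap_eq_zero (e : f =ᶠ[𝓝 z] fun _ => 0) : lap w f z = 0 := by
  rw [lap_congr e, lap_zero]

theorem hh_eq_zero (e : f =ᶠ[𝓝 z] fun _ => 0) : hh w f h z = 0 := by
  rw [hh_congr e (EventuallyEq.refl _ h), hh_zero]

theorem gr_eq_zero (e : f =ᶠ[𝓝 z] fun _ => 0) : gr w f h z = 0 := by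
  rw [gr_congr e (EventuallyEq.refl _ h), gr_zero]

variable {ι : Type*}

theorem cHess_sum (s : Finset ι) {F : ι → Cm n → ℝ} (hF : ∀ b ∈ s, ContDiffAt ℝ ∞ (F b) z) :
    cHess (fun y => ∑ b ∈ s, F b y) z = ∑ b ∈ s, cHess (F b) z := by
  classical
  induction s using Finset.induction_on with
  | empty => simpa using C2.cHess_const (z := z) (0 : ℝ)
  | insert a s ha ih =>
    simp only [Finset.sum_insert ha]
    rw [C2.cHess_add ((hF a (Finset.mem_insert_self a s)).of_le two_le)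
      ((ContDiffAt.sum fun b hb => hF b (Finset.mem_insert_of_mem hb)).of_le two_le),
      ih fun b hb => hF b (Finset.mem_insert_of_mem hb)]

theorem lap_sum (s : Finset ι) {F : ι → Cm n → ℝ} (hF : ∀ b ∈ s, ContDiffAt ℝ ∞ (F b) z) :
    lap w (fun y => ∑ b ∈ s, F b y) z = ∑ b ∈ s, lap w (F b) z := by
  simp only [lap, cHess_sum s hF, Matrix.mul_sum, Matrix.trace_sum, Complex.re_sum]

theorem hh_sum (s : Finset ι) {F : ι → Cm n → ℝ} (hF : ∀ b ∈ s, ContDiffAt ℝ ∞ (F b) z) :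
    hh w (fun y => ∑ b ∈ s, F b y) h z = ∑ b ∈ s, hh w (F b) h z := by
  simp only [hh, cHess_sum s hF, Matrix.mul_sum, Matrix.sum_mul, Matrix.trace_sum, Complex.re_sum]

theorem gr_sum (s : Finset ι) {F : ι → Cm n → ℝ} (hF : ∀ b ∈ s, ContDiffAt ℝ ∞ (F b) z) :
    gr w (fun y => ∑ b ∈ s, F b y) h z = ∑ b ∈ s, gr w (F b) h z := by
  have e : ∀ j : Fin n, dz j (fun y => ((∑ b ∈ s, F b y : ℝ) : ℂ)) z =
      ∑ b ∈ s, dz j (fun y => (F b y : ℂ)) z := by
    intro j
    rw [← dz_sum j s (fun b hb => differentiableAt_ofReal ((hF b hb).differentiableAt (by norm_num)))]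
    congr 1
    ext y
    push_cast
    rfl
  simp only [gr, e]
  rw [← Complex.re_sum]
  congr 1
  simp only [Finset.mul_sum, Finset.sum_mul]
  rw [Finset.sum_comm]
  have : ∀ x : Fin n, ∑ x_1 : Fin n, ∑ i ∈ s, (w z)⁻¹ x_1 x * dz x (fun y => (F i y : ℂ)) z *
      dzb x_1 (fun y => (h y : ℂ)) z = ∑ i ∈ s, ∑ x_1 : Fin n, (w z)⁻¹ x_1 x *
      dz x (fun y => (F i y : ℂ)) z * dzb x_1 (fun y => (h y : ℂ)) z := fun x => Finset.sum_comm
  rw [Finset.sum_comm]
  simp only [this]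
  rw [Finset.sum_comm]

end loc


/-! ### Families -/

section glob
variable {n : ℕ} {Γ : Type} [Group Γ] {C : Coc n Γ} {P : PU C} {K : KM C}
  {f h : Γ → C.I → Cm n → ℝ}

theorem isOpen_Ω (C : Coc n Γ) (a : C.I) : IsOpen (C.Ω a) := isOpen_ball

theorem V_sub_Ω (C : Coc n Γ) (a : C.I) : C.V a ⊆ C.Ω a :=
  ball_subset_ball (by have := C.r_pos a; linarith)

theorem O_sub_Ω (C : Coc n Γ) {a b : C.I} {z : Cm n} (hz : z ∈ C.O a b) : z ∈ C.Ω a :=
  C.O_sub a b hz

theorem T_mem_Ω (C : Coc n Γ) {a b : C.I} {z : Cm n} (hz : z ∈ C.O a b) : C.T a b z ∈ C.Ω b :=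
  C.O_sub b a (C.T_mem a b z hz)

theorem mem_O_self (C : Coc n Γ) {a : C.I} {z : Cm n} (hz : z ∈ C.Ω a) : z ∈ C.O a a := by
  rw [C.O_self a]; exact hz

/-- compatibility near a point -/
theorem compat_ev (hf : IsTst C f) (γ : Γ) {a b : C.I} {z : Cm n} (hz : z ∈ C.O a b) :
    ∀ᶠ y in 𝓝 z, f γ a y = f (γ * C.κ a b z) b (C.T a b y) := by
  filter_upwards [(C.O_open a b).mem_nhds hz, C.κ_loc a b z hz] with y hy hk
  rw [hf.compat γ a b y hy, hk]

theorem trans_all (hp : VPStmt) (K : KM C) (hf : IsTst C f) (hh' : IsTst C h) (γ : Γ) {a b : C.I}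
    {z : Cm n} (hz : z ∈ C.O a b) :
    lap (K.w a) (f γ a) z = lap (K.w b) (f (γ * C.κ a b z) b) (C.T a b z) ∧
      gr (K.w a) (f γ a) (h γ a) z =
        gr (K.w b) (f (γ * C.κ a b z) b) (h (γ * C.κ a b z) b) (C.T a b z) ∧
      hh (K.w a) (f γ a) (h γ a) z =
        hh (K.w b) (f (γ * C.κ a b z) b) (h (γ * C.κ a b z) b) (C.T a b z) := by
  obtain ⟨h1, h2, h3, -⟩ := hp.trans (K.w a) (K.w b) (f γ a) (h γ a) (f (γ * C.κ a b z) b)
    (h (γ * C.κ a b z) b) (C.T a b) z
    (by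
      filter_upwards [(C.O_open a b).mem_nhds hz] with y hy
      exact (C.T_holo a b).differentiableAt ((C.O_open a b).mem_nhds hy))
    ((K.ku a).pos z (O_sub_Ω C hz)) ((K.ku b).pos _ (T_mem_Ω C hz)) (K.change a b z hz)
    (hf.smooth _ b _ (T_mem_Ω C hz)) (hh'.smooth _ b _ (T_mem_Ω C hz)) (compat_ev hf γ hz)
    (compat_ev hh' γ hz)
  exact ⟨h1, h2, h3⟩

/-- an expression which vanishes where `f` vanishes locally has finite support -/
theorem fin_of (hf : IsTst C f) {G : Γ → C.I → Cm n → ℝ}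
    (hG : ∀ γ a, ∀ z ∈ C.V a, f γ a =ᶠ[𝓝 z] (fun _ => 0) → G γ a z = 0) :
    {γ : Γ | ∃ a, ∃ z ∈ C.V a, G γ a z ≠ 0}.Finite := by
  refine hf.fin.subset ?_
  rintro γ ⟨a, z, hz, hne⟩
  by_contra hγ
  simp only [mem_ofPred_eq, not_exists, not_and, not_not] at hγ
  refine hne (hG γ a z hz ?_)
  filter_upwards [isOpen_ball.mem_nhds hz] with y hy using hγ a y hy

theorem fam_lin {G H : Γ → C.I → Cm n → ℝ} (hG : Fam C G) (hH : Fam C H) (r s : ℝ) :
    Fam C (fun γ a z => r * G γ a z + s * H γ a z) where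
  cont γ a := (continuousOn_const.mul (hG.cont γ a)).add (continuousOn_const.mul (hH.cont γ a))
  compat γ a b z hz := by rw [hG.compat γ a b z hz, hH.compat γ a b z hz]
  fin := by
    refine (hG.fin.union hH.fin).subset ?_
    rintro γ ⟨a, z, hz, hne⟩
    by_contra hγ
    simp only [mem_union, mem_ofPred_eq, not_or, not_exists, not_and, not_not] at hγ
    exact hne (by rw [hγ.1 a z hz, hγ.2 a z hz]; simp)

theorem Fam_zero : Fam C (fun _ _ _ => (0 : ℝ)) where
  cont γ a := continuousOn_const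
  compat γ a b z hz := rfl
  fin := by simp

theorem Fam_sum {ι : Type*} (s : Finset ι) {G : ι → Γ → C.I → Cm n → ℝ}
    (hG : ∀ b ∈ s, Fam C (G b)) : Fam C (fun γ a z => ∑ b ∈ s, G b γ a z) := by
  classical
  induction s using Finset.induction_on with
  | empty => simpa using Fam_zero
  | insert b s hb ih =>
    have := fam_lin (hG b (Finset.mem_insert_self b s))
      (ih fun c hc => hG c (Finset.mem_insert_of_mem hc)) 1 1
    simpa only [Finset.sum_insert hb, one_mul] using this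

theorem Int_congr (P : PU C) (K : KM C) {G H : Γ → C.I → Cm n → ℝ}
    (e : ∀ γ a, ∀ z ∈ C.V a, G γ a z = H γ a z) : Int P K G = Int P K H := by
  unfold Vale.Agent.P284.H894.V.Int
  congr 1
  ext γ
  refine Finset.sum_congr rfl fun a _ => setIntegral_congr_fun measurableSet_ball fun z hz => ?_
  simp only [e γ a z hz]

theorem Int_zero (P : PU C) (K : KM C) : Int P K (fun _ _ _ => (0 : ℝ)) = 0 := by
  simp [Vale.Agent.P284.H894.V.Int]

theorem Int_sum (h3 : V3Stmt) {ι : Type*} (s : Finset ι) {G : ι → Γ → C.I → Cm n → ℝ}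
    (hG : ∀ b ∈ s, Fam C (G b)) :
    Int P K (fun γ a z => ∑ b ∈ s, G b γ a z) = ∑ b ∈ s, Int P K (G b) := by
  classical
  induction s using Finset.induction_on with
  | empty => simpa using Int_zero P K
  | insert b s hb ih =>
    have h1 := h3.lin C P K (G b) (fun γ a z => ∑ b ∈ s, G b γ a z) 1 1
      (hG b (Finset.mem_insert_self b s)) (Fam_sum s fun c hc => hG c (Finset.mem_insert_of_mem hc))
    rw [ih fun c hc => hG c (Finset.mem_insert_of_mem hc)] at h1
    simp only [one_mul] at h1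
    simp only [Finset.sum_insert hb]
    exact h1

/-! ### `fam` -/

theorem isTst_mul (hf : IsTst C f) (hh' : IsTst C h) : IsTst C (fun γ a z => f γ a z * h γ a z) where
  smooth γ a z hz := (hf.smooth γ a z hz).mul (hh'.smooth γ a z hz)
  compat γ a b z hz := by rw [hf.compat γ a b z hz, hh'.compat γ a b z hz]
  fin := fin_of hf fun γ a z _ e => by rw [e.self_of_nhds, zero_mul]
  out γ a z hz := by rw [hf.out γ a z hz, zero_mul]

theorem isTst_fam (hf : IsTst C f) : Fam C f where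
  cont γ a z hz := (hf.smooth γ a z hz).continuousAt.continuousWithinAt
  compat := hf.compat
  fin := hf.fin

theorem Lap_ev (K : KM C) (γ : Γ) {a : C.I} {z : Cm n} (hz : z ∈ C.Ω a) :
    Lap K f γ a =ᶠ[𝓝 z] lap (K.w a) (f γ a) := by
  filter_upwards [(isOpen_Ω C a).mem_nhds hz] with y hy
  exact indicator_of_mem hy _

theorem Lap_mem (K : KM C) (γ : Γ) {a : C.I} {z : Cm n} (hz : z ∈ C.Ω a) :
    Lap K f γ a z = lap (K.w a) (f γ a) z := indicator_of_mem hz _

theorem isTst_Lap (hp : VPStmt) (K : KM C) (hf : IsTst C f) : IsTst C (Lap K f) where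
  smooth γ a z hz := (smooth_lap (K.ku a) hz (hf.smooth γ a z hz)).congr_of_eventuallyEq (Lap_ev K γ hz)
  compat γ a b z hz := by
    rw [Lap_mem K γ (O_sub_Ω C hz), Lap_mem K _ (T_mem_Ω C hz)]
    exact (trans_all hp K hf hf γ hz).1
  fin := fin_of hf fun γ a z hz e => by rw [Lap_mem K γ (V_sub_Ω C a hz), lap_eq_zero e]
  out γ a z hz := indicator_of_notMem hz _

theorem fam_Gr (hp : VPStmt) (K : KM C) (hf : IsTst C f) (hh' : IsTst C h) : Fam C (Gr K f h) where
  cont γ a z hz := (smooth_gr (K.ku a) hz (hf.smooth γ a z hz)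
    (hh'.smooth γ a z hz)).continuousAt.continuousWithinAt
  compat γ _ _ _ hz := (trans_all hp K hf hh' γ hz).2.1
  fin := fin_of hf fun _ _ _ _ e => gr_eq_zero e

theorem fam_Hh (hp : VPStmt) (K : KM C) (hf : IsTst C f) (hh' : IsTst C h) : Fam C (Hh K f h) where
  cont γ a z hz := (smooth_hh (K.ku a) hz (hf.smooth γ a z hz)
    (hh'.smooth γ a z hz)).continuousAt.continuousWithinAt
  compat γ _ _ _ hz := (trans_all hp K hf hh' γ hz).2.2
  fin := fin_of hf fun _ _ _ _ e => hh_eq_zero e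

/-! ### Cut-off by the partition of unity -/

/-- the part of `f` in the ball number `b` -/
def cut (P : PU C) (b : C.I) (f : Γ → C.I → Cm n → ℝ) (γ : Γ) (a : C.I) (z : Cm n) : ℝ :=
  P.χ b a z * f γ a z

theorem isTst_cut (P : PU C) (b : C.I) (hf : IsTst C f) : IsTst C (cut P b f) where
  smooth γ a z hz := (P.smooth b a z hz).mul (hf.smooth γ a z hz)
  compat γ a d z hz := by
    simp only [cut]
    rw [P.compat b a d z hz, hf.compat γ a d z hz]
  fin := fin_of hf fun γ a z _ e => by simp only [cut]; rw [e.self_of_nhds, mul_zero]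
  out γ a z hz := by simp only [cut]; rw [hf.out γ a z hz, mul_zero]

/-- away from the ball number `b` the cut function is locally zero -/
theorem cut_ev (P : PU C) (b : C.I) (f : Γ → C.I → Cm n → ℝ) (γ : Γ) {a : C.I} {z : Cm n}
    (hz : z ∈ C.Ω a) (hn : ¬ (z ∈ C.O a b ∧ C.T a b z ∈ P.K b)) :
    cut P b f γ a =ᶠ[𝓝 z] fun _ => 0 := by
  filter_upwards [C.closed a b (P.K b) (P.compactK b) ((P.K_sub b).trans (V_sub_Ω C b)) z hz hn,
    (isOpen_Ω C a).mem_nhds hz] with y hy hy'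
  have : P.χ b a y = 0 := by
    by_contra h0
    exact hy (P.supp b a y hy' h0)
  simp only [cut, this, zero_mul]

theorem cut_sum (P : PU C) (f : Γ → C.I → Cm n → ℝ) (γ : Γ) {a : C.I} {z : Cm n} (hz : z ∈ C.Ω a) :
    f γ a =ᶠ[𝓝 z] fun y => ∑ b, cut P b f γ a y := by
  filter_upwards [(isOpen_Ω C a).mem_nhds hz] with y hy
  simp only [cut]
  rw [← Finset.sum_mul, P.sum_one a y hy, one_mul]

theorem cut_supp (P : PU C) (b : C.I) (hf : IsTst C f) (γ : Γ) {z : Cm n}
    (hz : cut P b f γ b z ≠ 0) : z ∈ P.K b := by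
  have h1 : z ∈ C.Ω b := by
    by_contra hn
    exact hz ((isTst_cut P b hf).out γ b z hn)
  have h2 : P.χ b b z ≠ 0 := by
    intro h0
    apply hz
    simp only [cut, h0, zero_mul]
  have h3 := (P.supp b b z h1 h2).2
  rwa [C.T_self b z (mem_O_self C h1)] at h3

theorem TU_cut (P : PU C) (b : C.I) (hf : IsTst C f) (γ : Γ) : TU (C.V b) (cut P b f γ b) := by
  have hs : tsupport (cut P b f γ b) ⊆ P.K b :=
    closure_minimal (fun z hz => cut_supp P b hf γ hz) (P.compactK b).isClosed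
  refine ⟨?_, (P.compactK b).of_isClosed_subset (isClosed_tsupport _) hs, hs.trans (P.K_sub b)⟩
  rw [contDiff_iff_contDiffAt]
  intro z
  by_cases hz : z ∈ P.K b
  · exact (isTst_cut P b hf).smooth γ b z (V_sub_Ω C b (P.K_sub b hz))
  · have : cut P b f γ b =ᶠ[𝓝 z] fun _ => 0 := by
      filter_upwards [(P.compactK b).isClosed.isOpen_compl.mem_nhds hz] with y hy
      by_contra h0
      exact hy (cut_supp P b hf γ h0)
    exact contDiffAt_const.congr_of_eventuallyEq this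

theorem KU_V (K : KM C) (b : C.I) : KU (C.V b) (K.w b) :=
  KU_mono (K.ku b) isOpen_ball (V_sub_Ω C b)

/-! ### Integration by parts -/

theorem ibp_cut (h1 : V1Stmt) (hp : VPStmt) (h3 : V3Stmt) (P : PU C) (K : KM C)
    (hf : IsTst C f) (hh' : IsTst C h) (b : C.I) :
    Int P K (fun γ a z => Lap K (cut P b f) γ a z * h γ a z) = -Int P K (Gr K (cut P b f) h) := by
  have hc := isTst_cut P b hf
  rw [h3.piece C P K (fun γ a z => Lap K (cut P b f) γ a z * h γ a z) b (P.K b)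
      (isTst_fam (isTst_mul (isTst_Lap hp K hc) hh')) (P.compactK b) (P.K_sub b) ?_,
    h3.piece C P K (Gr K (cut P b f) h) b (P.K b) (fam_Gr hp K hc hh') (P.compactK b)
      (P.K_sub b) ?_, ← tsum_neg]
  · congr 1
    ext γ
    have h2 := (h1 n (C.V b) (K.w b) (KU_V K b) (cut P b f γ b) (h γ b) (TU_cut P b hf γ)
      (fun z hz => hh'.smooth γ b z (V_sub_Ω C b hz))).1
    rw [← show (∫ z in C.V b, Gr K (cut P b f) h γ b z * vol (K.w b) z) =
      ∫ z in C.V b, gr (K.w b) (cut P b f γ b) (h γ b) z * vol (K.w b) z from rfl] at h2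
    rw [← h2]
    refine setIntegral_congr_fun measurableSet_ball fun z hz => ?_
    simp only [Lap_mem K γ (V_sub_Ω C b hz)]
  · intro γ a z hz hne
    by_contra hn
    exact hne (gr_eq_zero (cut_ev P b f γ hz hn))
  · intro γ a z hz hne
    by_contra hn
    apply hne
    rw [Lap_mem K γ hz, lap_eq_zero (cut_ev P b f γ hz hn), zero_mul]

theorem ibp (h1 : V1Stmt) (hp : VPStmt) (h3 : V3Stmt) (P : PU C) (K : KM C)
    (hf : IsTst C f) (hh' : IsTst C h) :
    Int P K (fun γ a z => Lap K f γ a z * h γ a z) = -Int P K (Gr K f h) := by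
  have s1 : Int P K (fun γ a z => Lap K f γ a z * h γ a z) =
      ∑ b, Int P K (fun γ a z => Lap K (cut P b f) γ a z * h γ a z) := by
    rw [← Int_sum h3 Finset.univ fun b _ =>
      isTst_fam (isTst_mul (isTst_Lap hp K (isTst_cut P b hf)) hh')]
    refine Int_congr P K fun γ a z hz => ?_
    have hz' := V_sub_Ω C a hz
    rw [← Finset.sum_mul]
    congr 1
    simp only [Lap_mem K γ hz']
    rw [lap_congr (cut_sum P f γ hz'),
      lap_sum Finset.univ fun b _ => (isTst_cut P b hf).smooth γ a z hz']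
  have s2 : Int P K (Gr K f h) = ∑ b, Int P K (Gr K (cut P b f) h) := by
    rw [← Int_sum h3 Finset.univ fun b _ => fam_Gr hp K (isTst_cut P b hf) hh']
    refine Int_congr P K fun γ a z hz => ?_
    have hz' := V_sub_Ω C a hz
    simp only [Gr]
    rw [gr_congr (cut_sum P f γ hz') (EventuallyEq.refl _ _),
      gr_sum Finset.univ fun b _ => (isTst_cut P b hf).smooth γ a z hz']
  rw [s1, s2, ← Finset.sum_neg_distrib]
  exact Finset.sum_congr rfl fun b _ => ibp_cut h1 hp h3 P K hf hh' b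

/-! ### The Kähler identity -/

theorem kahler_cut (h2 : V2Stmt) (hp : VPStmt) (h3 : V3Stmt) (P : PU C) (K : KM C)
    (hf : IsTst C f) (hh' : IsTst C h) (b : C.I) :
    Int P K (fun γ a z => Lap K (cut P b f) γ a z * Lap K h γ a z) =
      Int P K (Hh K (cut P b f) h) := by
  have hc := isTst_cut P b hf
  have F1 : Fam C (fun γ a z => Lap K (cut P b f) γ a z * Lap K h γ a z) :=
    isTst_fam (isTst_mul (isTst_Lap hp K hc) (isTst_Lap hp K hh'))
  have F2 := fam_Hh hp K hc hh'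
  have h4 := h3.lin C P K _ _ 1 (-1) F1 F2
  have h5 : Int P K (fun γ a z => 1 * (Lap K (cut P b f) γ a z * Lap K h γ a z) +
      -1 * Hh K (cut P b f) h γ a z) = 0 := by
    rw [h3.piece C P K _ b (P.K b) (fam_lin F1 F2 1 (-1)) (P.compactK b) (P.K_sub b) ?_]
    · have : ∀ γ, ∫ z in C.V b, (1 * (Lap K (cut P b f) γ b z * Lap K h γ b z) +
          -1 * Hh K (cut P b f) h γ b z) * vol (K.w b) z = 0 := by
        intro γ
        rw [← h2 n (C.V b) (K.w b) (KU_V K b) (cut P b f γ b) (h γ b) (TU_cut P b hf γ)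
          (fun z hz => hh'.smooth γ b z (V_sub_Ω C b hz))]
        refine setIntegral_congr_fun measurableSet_ball fun z hz => ?_
        simp only [Lap_mem K γ (V_sub_Ω C b hz), Hh]
        ring
      simp only [this, tsum_zero]
    · intro γ a z hz hne
      by_contra hn
      apply hne
      have e := cut_ev P b f γ hz hn
      rw [Lap_mem K γ hz, lap_eq_zero e]
      simp only [Hh]
      rw [hh_eq_zero e]
      simp
  rw [h5] at h4
  linarith

theorem kahler (h2 : V2Stmt) (hp : VPStmt) (h3 : V3Stmt) (P : PU C) (K : KM C)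
    (hf : IsTst C f) (hh' : IsTst C h) :
    Int P K (fun γ a z => Lap K f γ a z * Lap K h γ a z) = Int P K (Hh K f h) := by
  have s1 : Int P K (fun γ a z => Lap K f γ a z * Lap K h γ a z) =
      ∑ b, Int P K (fun γ a z => Lap K (cut P b f) γ a z * Lap K h γ a z) := by
    rw [← Int_sum h3 Finset.univ fun b _ =>
      isTst_fam (isTst_mul (isTst_Lap hp K (isTst_cut P b hf)) (isTst_Lap hp K hh'))]
    refine Int_congr P K fun γ a z hz => ?_
    have hz' := V_sub_Ω C a hz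
    rw [← Finset.sum_mul]
    congr 1
    simp only [Lap_mem K γ hz']
    rw [lap_congr (cut_sum P f γ hz'),
      lap_sum Finset.univ fun b _ => (isTst_cut P b hf).smooth γ a z hz']
  have s2 : Int P K (Hh K f h) = ∑ b, Int P K (Hh K (cut P b f) h) := by
    rw [← Int_sum h3 Finset.univ fun b _ => fam_Hh hp K (isTst_cut P b hf) hh']
    refine Int_congr P K fun γ a z hz => ?_
    have hz' := V_sub_Ω C a hz
    simp only [Hh]
    rw [hh_congr (cut_sum P f γ hz') (EventuallyEq.refl _ _),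
      hh_sum Finset.univ fun b _ => (isTst_cut P b hf).smooth γ a z hz']
  rw [s1, s2]
  exact Finset.sum_congr rfl fun b _ => kahler_cut h2 hp h3 P K hf hh' b

end glob

/-- **V5** -/
theorem v5Stmt : V5Stmt := fun h1 h2 hp h3 =>
  { fam := fun _ K _ _ hf hh' => ⟨isTst_fam (isTst_mul hf hh'), fam_Gr hp K hf hh',
      fam_Hh hp K hf hh', isTst_Lap hp K hf, isTst_mul hf hh'⟩
    ibp := fun _ P K _ _ hf hh' => ibp h1 hp h3 P K hf hh'
    kahler := fun _ P K _ _ hf hh' => kahler h2 hp h3 P K hf hh' }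

end Vale.Agent.P284.H639.V
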