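import Vale.Agent.P284.H66.GDiv
import Vale.Agent.P284.H409.SpecA

/-!
# P284, theorem A (helper639): twisted functions on the base, integration by parts

`σ` a unitary character, `s` a smooth function on the covering with `s (g y) = σ g * s y`.
-/

open scoped Manifold ContDiff Topology Pointwise ComplexConjugate ComplexOrder Matrix
open Filter Set Metric MeasureTheory

noncomputable section

namespace Vale.Agent.P284.H639.Tw

open Vale.Agent.P272.K Vale.Agent.P272.K.C2 Vale.Agent.P284.H248 Vale.Agent.P284.H894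
  Vale.Agent.P284.H894.V Vale.Agent.P284.H639.V Vale.Agent.P284.H66 Vale.Agent.P284.H913.V
  Vale.Agent.P284.H66.S7
open Vale.Agent.P284.H409.A (lapC Tw Psi Pot IbpStmt)

section loc
variable {n : ℕ}

theorem re_sm {s : Cm n → ℂ} {z : Cm n} (h : ContDiffAt ℝ ∞ s z) :
    ContDiffAt ℝ ∞ (fun y => (s y).re) z := Complex.reCLM.contDiff.contDiffAt.comp z h

theorem im_sm {s : Cm n → ℂ} {z : Cm n} (h : ContDiffAt ℝ ∞ s z) :
    ContDiffAt ℝ ∞ (fun y => (s y).im) z := Complex.imCLM.contDiff.contDiffAt.comp z h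

theorem two_le' : (2 : WithTop ℕ∞) ≤ ∞ := H730.V.two_le

/-- `lap` is linear on smooth functions -/
theorem lap_comb (w : Cm n → Matrix (Fin n) (Fin n) ℂ) {f h : Cm n → ℝ} {z : Cm n} (a b : ℝ)
    (hf : ContDiffAt ℝ ∞ f z) (hh : ContDiffAt ℝ ∞ h z) :
    lap w (fun y => a * f y + b * h y) z = a * lap w f z + b * lap w h z := by
  have h1 : cHess (fun y => a * f y + b * h y) z = (a : ℂ) • cHess f z + (b : ℂ) • cHess h z := by
    rw [C2.cHess_add (u := fun y => a * f y) (v := fun y => b * h y)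
      ((contDiffAt_const.mul hf).of_le two_le') ((contDiffAt_const.mul hh).of_le two_le'),
      C2.cHess_const_mul a (hf.of_le two_le'), C2.cHess_const_mul b (hh.of_le two_le')]
  rw [lap, h1, Matrix.mul_add, Matrix.mul_smul, Matrix.mul_smul, Matrix.trace_add,
    Matrix.trace_smul, Matrix.trace_smul, Complex.add_re, smul_eq_mul, smul_eq_mul,
    Complex.re_ofReal_mul, Complex.re_ofReal_mul]
  rfl

theorem lap_congr (w : Cm n → Matrix (Fin n) (Fin n) ℂ) {f h : Cm n → ℝ} {z : Cm n}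
    (e : f =ᶠ[𝓝 z] h) : lap w f z = lap w h z := by
  rw [lap, lap, C2.cHess_congr e]

theorem lapC_congr (w : Cm n → Matrix (Fin n) (Fin n) ℂ) {s t : Cm n → ℂ} {z : Cm n}
    (e : s =ᶠ[𝓝 z] t) : lapC w s z = lapC w t z := by
  have h1 : (fun y => (s y).re) =ᶠ[𝓝 z] fun y => (t y).re := e.mono fun y hy => by
    simp only [hy]
  have h2 : (fun y => (s y).im) =ᶠ[𝓝 z] fun y => (t y).im := e.mono fun y hy => by
    simp only [hy]
  rw [lapC, lapC, lap_congr w h1, lap_congr w h2]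

theorem lapC_const_mul (w : Cm n → Matrix (Fin n) (Fin n) ℂ) {s : Cm n → ℂ} {z : Cm n} (c : ℂ)
    (hs : ContDiffAt ℝ ∞ s z) : lapC w (fun y => c * s y) z = c * lapC w s z := by
  have h1 : (fun y => (c * s y).re) = fun y => c.re * (s y).re + (-c.im) * (s y).im := by
    funext y; rw [Complex.mul_re]; ring
  have h2 : (fun y => (c * s y).im) = fun y => c.im * (s y).re + c.re * (s y).im := by
    funext y; rw [Complex.mul_im]; ring
  rw [lapC, h1, h2, lap_comb w _ _ (re_sm hs) (im_sm hs), lap_comb w _ _ (re_sm hs) (im_sm hs),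
    lapC]
  apply Complex.ext <;> simp <;> ring

theorem lapC_add (w : Cm n → Matrix (Fin n) (Fin n) ℂ) {s t : Cm n → ℂ} {z : Cm n}
    (hs : ContDiffAt ℝ ∞ s z) (ht : ContDiffAt ℝ ∞ t z) :
    lapC w (fun y => s y + t y) z = lapC w s z + lapC w t z := by
  have h1 : (fun y => (s y + t y).re) = fun y => 1 * (s y).re + 1 * (t y).re := by
    funext y; rw [Complex.add_re]; ring
  have h2 : (fun y => (s y + t y).im) = fun y => 1 * (s y).im + 1 * (t y).im := by
    funext y; rw [Complex.add_im]; ring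
  rw [lapC, h1, h2, lap_comb w _ _ (re_sm hs) (re_sm ht), lap_comb w _ _ (im_sm hs) (im_sm ht),
    lapC, lapC]
  push_cast
  ring

theorem lapC_smooth {U : Set (Cm n)} {w : Cm n → Matrix (Fin n) (Fin n) ℂ} (hw : KU U w)
    {s : Cm n → ℂ} {z : Cm n} (hz : z ∈ U) (hs : ContDiffAt ℝ ∞ s z) :
    ContDiffAt ℝ ∞ (lapC w s) z := by
  have h : ∀ {f : Cm n → ℝ}, ContDiffAt ℝ ∞ f z → ContDiffAt ℝ ∞ (lap w f) z := fun hf =>
    smooth_lap hw hz hf
  exact (C2.contDiffAt_ofReal (h (re_sm hs))).add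
    (contDiffAt_const.mul (C2.contDiffAt_ofReal (h (im_sm hs))))

/-- the vector `(∂_j f)` is linear in `f` -/
theorem dd_comb {f h : Cm n → ℝ} {z : Cm n} (a b : ℝ) (hf : DifferentiableAt ℝ f z)
    (hh : DifferentiableAt ℝ h z) : H730.V.dd (fun y => a * f y + b * h y) z =
      (a : ℂ) • H730.V.dd f z + (b : ℂ) • H730.V.dd h z := by
  ext j
  simp only [H730.V.dd, Pi.add_apply, Pi.smul_apply, smul_eq_mul]
  have h1 : (fun y => ((a * f y + b * h y : ℝ) : ℂ)) = fun y => (a : ℂ) * (f y : ℂ) +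
      (b : ℂ) * (h y : ℂ) := by
    funext y; push_cast; rfl
  have hf' := C2.differentiableAt_ofReal hf
  have hh' := C2.differentiableAt_ofReal hh
  rw [h1, Vale.Agent.P272.K.dz_add (hf'.const_mul _) (hh'.const_mul _),
    Vale.Agent.P272.K.dz_const_mul _ hf', Vale.Agent.P272.K.dz_const_mul _ hh']

theorem dd_congr {f h : Cm n → ℝ} {z : Cm n} (e : f =ᶠ[𝓝 z] h) : H730.V.dd f z = H730.V.dd h z := by
  ext j
  exact Vale.Agent.P272.K.dz_congr (e.mono fun y hy => by simp only [hy])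

theorem star_mul (J : Matrix (Fin n) (Fin n) ℂ) (x : Fin n → ℂ) :
    star (Jᵀ *ᵥ x) = Jᴴ *ᵥ star x := by
  ext l
  simp [Matrix.mulVec, dotProduct]

end loc

section glob
variable {n : ℕ} {Γ : Type} [Group Γ] {C : Coc n Γ}

theorem BD_congr {F G : C.I → Cm n → ℝ} (hF : BD C F) (h : ∀ a, ∀ z ∈ C.Ω a, F a z = G a z) :
    BD C G where
  cont a := (hF.cont a).congr fun z hz => (h a z hz).symm
  compat a b z hz hza hzb := by
    rw [← h a z (V_sub_Ω C a hza), ← h b _ (V_sub_Ω C b hzb)]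
    exact hF.compat a b z hz hza hzb

theorem BD_comb {F G : C.I → Cm n → ℝ} (hF : BD C F) (hG : BD C G) (r t : ℝ) :
    BD C (fun a z => r * F a z + t * G a z) where
  cont a := (continuousOn_const.mul (hF.cont a)).add (continuousOn_const.mul (hG.cont a))
  compat a b z hz hza hzb := by
    simp only [hF.compat a b z hz hza hzb, hG.compat a b z hz hza hzb]

theorem BInt_comb (P : PU C) (K : KM C) {F G : C.I → Cm n → ℝ} (hF : BD C F) (hG : BD C G)
    (r t : ℝ) : BInt P K (fun a z => r * F a z + t * G a z) = r * BInt P K F + t * BInt P K G := by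
  unfold BInt
  rw [Finset.mul_sum, Finset.mul_sum, ← Finset.sum_add_distrib]
  refine Finset.sum_congr rfl fun a _ => ?_
  rw [← integral_const_mul, ← integral_const_mul,
    ← integral_add ((hF.int_chi P K a a).const_mul r) ((hG.int_chi P K a a).const_mul t)]
  refine setIntegral_congr_fun measurableSet_ball fun z _ => ?_
  ring

theorem BInt_add (P : PU C) (K : KM C) {F G : C.I → Cm n → ℝ} (hF : BD C F) (hG : BD C G) :
    BInt P K (fun a z => F a z + G a z) = BInt P K F + BInt P K G := by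
  have := BInt_comb P K hF hG 1 1
  simpa using this

theorem BInt_mono (P : PU C) (K : KM C) {F G : C.I → Cm n → ℝ} (hF : BD C F) (hG : BD C G)
    (h : ∀ a, ∀ z ∈ C.V a, F a z ≤ G a z) : BInt P K F ≤ BInt P K G := by
  unfold BInt
  refine Finset.sum_le_sum fun a _ => ?_
  refine setIntegral_mono_on (hF.int_chi P K a a) (hG.int_chi P K a a) measurableSet_ball
    fun z hz => ?_
  have h1 := h a z hz
  have h2 := P.nonneg a a z
  have h3 := vol_nn K (V_sub_Ω C a hz)
  gcongr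

theorem BInt_nonneg (P : PU C) (K : KM C) {F : C.I → Cm n → ℝ}
    (h : ∀ a, ∀ z ∈ C.V a, 0 ≤ F a z) : 0 ≤ BInt P K F := by
  unfold BInt
  refine Finset.sum_nonneg fun a _ => setIntegral_nonneg measurableSet_ball fun z hz => ?_
  have h1 := h a z hz
  have h2 := P.nonneg a a z
  have h3 := vol_nn K (V_sub_Ω C a hz)
  positivity

/-- Sections twisted by the character `σ`: smooth functions `s` on the covering with
`s (g y) = σ g * s y`. -/
structure UT (C : Coc n Γ) (σ : Γ → ℂ) (s : Γ → C.I → Cm n → ℂ) : Prop where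
  smooth : ∀ γ a, ∀ z ∈ C.Ω a, ContDiffAt ℝ ∞ (s γ a) z
  compat : ∀ γ a b, ∀ z ∈ C.O a b, s γ a z = s (γ * C.κ a b z) b (C.T a b z)
  equiv : ∀ g γ a, ∀ z ∈ C.Ω a, s (g * γ) a z = σ g * s γ a z

variable {σ : Γ → ℂ} {s v : Γ → C.I → Cm n → ℂ}

theorem UT.compat_ev (hs : UT C σ s) (γ : Γ) {a b : C.I} {z : Cm n} (hz : z ∈ C.O a b) :
    ∀ᶠ y in 𝓝 z, s γ a y = s (γ * C.κ a b z) b (C.T a b y) := by
  filter_upwards [(C.O_open a b).mem_nhds hz, C.κ_loc a b z hz] with y hy hk
  rw [hs.compat γ a b y hy, hk]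

theorem UT.one_ev (hs : UT C σ s) {a b : C.I} {z : Cm n} (hz : z ∈ C.O a b) :
    ∀ᶠ y in 𝓝 z, s 1 a y = σ (C.κ a b z) * s 1 b (C.T a b y) := by
  filter_upwards [hs.compat_ev 1 hz, (C.O_open a b).mem_nhds hz] with y hy hyO
  have h1 := hs.equiv (C.κ a b z) 1 b (C.T a b y) (T_mem_Ω C hyO)
  rw [mul_one] at h1
  rw [hy, one_mul, h1]

theorem UT.add (hs : UT C σ s) (hv : UT C σ v) : UT C σ (fun γ a z => s γ a z + v γ a z) where
  smooth γ a z hz := (hs.smooth γ a z hz).add (hv.smooth γ a z hz)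
  compat γ a b z hz := by rw [hs.compat γ a b z hz, hv.compat γ a b z hz]
  equiv g γ a z hz := by rw [hs.equiv g γ a z hz, hv.equiv g γ a z hz]; ring

theorem UT.const_mul (hs : UT C σ s) (c : ℂ) : UT C σ (fun γ a z => c * s γ a z) where
  smooth γ a z hz := contDiffAt_const.mul (hs.smooth γ a z hz)
  compat γ a b z hz := by rw [hs.compat γ a b z hz]
  equiv g γ a z hz := by rw [hs.equiv g γ a z hz]; ring

theorem UT.zero : UT C σ (fun _ _ _ => (0 : ℂ)) where
  smooth γ a z hz := contDiffAt_const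
  compat γ a b z hz := rfl
  equiv g γ a z hz := by ring

/-- multiplication by a function of the base -/
theorem UT.mul_base (hs : UT C σ s) {q : C.I → Cm n → ℝ}
    (hq : ∀ a, ∀ z ∈ C.Ω a, ContDiffAt ℝ ∞ (q a) z)
    (hqc : ∀ a b, ∀ z ∈ C.O a b, q a z = q b (C.T a b z)) :
    UT C σ (fun γ a z => (q a z : ℂ) * s γ a z) where
  smooth γ a z hz := (C2.contDiffAt_ofReal (hq a z hz)).mul (hs.smooth γ a z hz)
  compat γ a b z hz := by rw [hs.compat γ a b z hz, hqc a b z hz]
  equiv g γ a z hz := by rw [hs.equiv g γ a z hz]; ring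

/-- the Laplacian of a twisted section -/
theorem lapC_compat (K : KM C) (hs : UT C σ s) (γ : Γ) {a b : C.I} {z : Cm n} (hz : z ∈ C.O a b) :
    lapC (K.w a) (s γ a) z = lapC (K.w b) (s (γ * C.κ a b z) b) (C.T a b z) := by
  have hTz := T_mem_Ω C hz
  have h1 := hs.compat_ev γ hz
  have hsm := hs.smooth (γ * C.κ a b z) b (C.T a b z) hTz
  have h2 := (H730.V.vpStmt.trans (K.w a) (K.w b) (fun y => (s γ a y).re)
    (fun y => (s γ a y).im) (fun y => (s (γ * C.κ a b z) b y).re)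
    (fun y => (s (γ * C.κ a b z) b y).im) (C.T a b) z (T_ev C hz)
    ((K.ku a).pos z (O_sub_Ω C hz)) ((K.ku b).pos _ hTz) (K.change a b z hz) (re_sm hsm)
    (im_sm hsm) (h1.mono fun y hy => by simp only [hy]) (h1.mono fun y hy => by simp only [hy])).1
  have h3 := (H730.V.vpStmt.trans (K.w a) (K.w b) (fun y => (s γ a y).im)
    (fun y => (s γ a y).im) (fun y => (s (γ * C.κ a b z) b y).im)
    (fun y => (s (γ * C.κ a b z) b y).im) (C.T a b) z (T_ev C hz)
    ((K.ku a).pos z (O_sub_Ω C hz)) ((K.ku b).pos _ hTz) (K.change a b z hz) (im_sm hsm)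
    (im_sm hsm) (h1.mono fun y hy => by simp only [hy]) (h1.mono fun y hy => by simp only [hy])).1
  rw [lapC, lapC, h2, h3]

theorem UT.lapC (K : KM C) (hs : UT C σ s) : UT C σ (fun γ a => lapC (K.w a) (s γ a)) where
  smooth γ a z hz := lapC_smooth (K.ku a) hz (hs.smooth γ a z hz)
  compat γ a b z hz := lapC_compat K hs γ hz
  equiv g γ a z hz := by
    rw [← lapC_const_mul (K.w a) (σ g) (hs.smooth γ a z hz)]
    refine lapC_congr _ ?_
    filter_upwards [(isOpen_Ω C a).mem_nhds hz] with y hy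
    exact hs.equiv g γ a y hy

/-- the real inner product of two sections is a function of the base -/
theorem BD_ip (hσ : ∀ g, ‖σ g‖ = 1) (hs : UT C σ s) (hv : UT C σ v) :
    BD C (fun a z => (s 1 a z * conj (v 1 a z)).re) where
  cont a z hz := by
    have h1 : ContinuousAt (s 1 a) z := (hs.smooth 1 a z hz).continuousAt
    have h2 : ContinuousAt (v 1 a) z := (hv.smooth 1 a z hz).continuousAt
    exact (Complex.continuous_re.continuousAt.comp
      (h1.mul (Complex.continuous_conj.continuousAt.comp h2))).continuousWithinAt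
  compat a b z hz _ _ := by
    rw [(hs.one_ev hz).self_of_nhds, (hv.one_ev hz).self_of_nhds]
    have h1 : σ (C.κ a b z) * conj (σ (C.κ a b z)) = 1 := by
      rw [Complex.mul_conj, Complex.normSq_eq_norm_sq, hσ]
      norm_num
    rw [map_mul]
    congr 1
    calc σ (C.κ a b z) * s 1 b (C.T a b z) * (conj (σ (C.κ a b z)) * conj (v 1 b (C.T a b z)))
        = (σ (C.κ a b z) * conj (σ (C.κ a b z))) * (s 1 b (C.T a b z) *
          conj (v 1 b (C.T a b z))) := by ring
      _ = _ := by rw [h1, one_mul]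

/-! ### Integration by parts -/

/-- the `(0,1)`-form `Re v · ∂̄ Re s + Im v · ∂̄ Im s` -/
def al (s v : Γ → C.I → Cm n → ℂ) (a : C.I) (z : Cm n) : Fin n → ℂ :=
  ((v 1 a z).re : ℂ) • star (H730.V.dd (fun y => (s 1 a y).re) z) +
    ((v 1 a z).im : ℂ) • star (H730.V.dd (fun y => (s 1 a y).im) z)

theorem dd_change {a b : C.I} {z : Cm n} (hz : z ∈ C.O a b) (hs : UT C σ s) :
    H730.V.dd (fun y => (s 1 a y).re) z = (jac C a b z)ᵀ *ᵥ
      ((((σ (C.κ a b z)).re : ℝ) : ℂ) • H730.V.dd (fun y => (s 1 b y).re) (C.T a b z) +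
        (((-(σ (C.κ a b z)).im : ℝ) : ℂ)) • H730.V.dd (fun y => (s 1 b y).im) (C.T a b z)) ∧
    H730.V.dd (fun y => (s 1 a y).im) z = (jac C a b z)ᵀ *ᵥ
      ((((σ (C.κ a b z)).im : ℝ) : ℂ) • H730.V.dd (fun y => (s 1 b y).re) (C.T a b z) +
        (((σ (C.κ a b z)).re : ℝ) : ℂ) • H730.V.dd (fun y => (s 1 b y).im) (C.T a b z)) := by
  have hTz := T_mem_Ω C hz
  have hsm := hs.smooth 1 b (C.T a b z) hTz
  have h1 : DifferentiableAt ℝ (fun y => (s 1 b y).re) (C.T a b z) :=
    (re_sm hsm).differentiableAt (by simp)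
  have h2 : DifferentiableAt ℝ (fun y => (s 1 b y).im) (C.T a b z) :=
    (im_sm hsm).differentiableAt (by simp)
  have hT : DifferentiableAt ℂ (C.T a b) z := (T_ev C hz).self_of_nhds
  constructor
  · rw [← dd_comb _ _ h1 h2]
    refine H730.V.dd_comp (T := C.T a b) hT ((h1.const_mul _).add (h2.const_mul _)) ?_
    filter_upwards [hs.one_ev hz] with y hy
    simp only [hy, Complex.mul_re]
    ring
  · rw [← dd_comb _ _ h1 h2]
    refine H730.V.dd_comp (T := C.T a b) hT ((h1.const_mul _).add (h2.const_mul _)) ?_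
    filter_upwards [hs.one_ev hz] with y hy
    simp only [hy, Complex.mul_im]
    ring

theorem dd_sm {f : Cm n → ℝ} {z : Cm n} (hf : ContDiffAt ℝ ∞ f z) (l : Fin n) :
    ContDiffAt ℝ ∞ (fun y => H730.V.dd f y l) z :=
  contDiffAt_dz (m := ∞) l (C2.contDiffAt_ofReal hf) (by norm_num)

theorem al_CF (hσ : ∀ g, ‖σ g‖ = 1) (hs : UT C σ s) (hv : UT C σ v) : CF C (al s v) where
  smooth a z hz l := by
    have h1 := re_sm (hs.smooth 1 a z hz)
    have h2 := im_sm (hs.smooth 1 a z hz)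
    have h3 := re_sm (hv.smooth 1 a z hz)
    have h4 := im_sm (hv.smooth 1 a z hz)
    exact ((C2.contDiffAt_ofReal h3).mul (C2.contDiffAt_conj (dd_sm h1 l))).add
      ((C2.contDiffAt_ofReal h4).mul (C2.contDiffAt_conj (dd_sm h2 l)))
  change a d z hz := by
    obtain ⟨h1, h2⟩ := dd_change hz hs
    have hv1 := (hv.one_ev hz).self_of_nhds
    have hn : (σ (C.κ a d z)).re ^ 2 + (σ (C.κ a d z)).im ^ 2 = 1 := by
      have := hσ (C.κ a d z)
      have h3 : ‖σ (C.κ a d z)‖ ^ 2 = 1 := by rw [this]; norm_num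
      rw [← Complex.normSq_eq_norm_sq, Complex.normSq_apply] at h3
      linarith
    rw [al, h1, h2, hv1, star_mul, star_mul, ← Matrix.mulVec_smul, ← Matrix.mulVec_smul,
      ← Matrix.mulVec_add, al]
    congr 1
    ext l
    have hn' : ((σ (C.κ a d z)).re : ℂ) ^ 2 + ((σ (C.κ a d z)).im : ℂ) ^ 2 = 1 := by
      exact_mod_cast hn
    simp only [Pi.add_apply, Pi.smul_apply, Pi.star_apply, smul_eq_mul, star_add, star_mul',
      Complex.mul_re, Complex.mul_im, RCLike.star_def, Complex.conj_ofReal]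
    push_cast
    linear_combination (((v 1 d (C.T a d z)).re : ℂ) *
      conj (H730.V.dd (fun y => (s 1 d y).re) (C.T a d z) l) + ((v 1 d (C.T a d z)).im : ℂ) *
      conj (H730.V.dd (fun y => (s 1 d y).im) (C.T a d z) l)) * hn'

theorem pd_al (hs : UT C σ s) (hv : UT C σ v) {a : C.I} {z : Cm n} (hz : z ∈ C.Ω a)
    (r l : Fin n) : pd (al s v a) z r l =
      (dz r (fun y => ((v 1 a y).re : ℂ)) z * dzb l (fun y => ((s 1 a y).re : ℂ)) z +
        ((v 1 a z).re : ℂ) * cHess (fun y => (s 1 a y).re) z r l) +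
      (dz r (fun y => ((v 1 a y).im : ℂ)) z * dzb l (fun y => ((s 1 a y).im : ℂ)) z +
        ((v 1 a z).im : ℂ) * cHess (fun y => (s 1 a y).im) z r l) := by
  have h1 := re_sm (hs.smooth 1 a z hz)
  have h2 := im_sm (hs.smooth 1 a z hz)
  have h3 := re_sm (hv.smooth 1 a z hz)
  have h4 := im_sm (hv.smooth 1 a z hz)
  have e : (fun y => al s v a y l) = fun y =>
      ((v 1 a y).re : ℂ) * dzb l (fun y => ((s 1 a y).re : ℂ)) y +
      ((v 1 a y).im : ℂ) * dzb l (fun y => ((s 1 a y).im : ℂ)) y := by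
    funext y
    simp only [al, Pi.add_apply, Pi.smul_apply, smul_eq_mul, Pi.star_apply, RCLike.star_def]
    rw [H730.V.dzb_dd, H730.V.dzb_dd]
  have d1 : ∀ {f : Cm n → ℝ}, ContDiffAt ℝ ∞ f z → DifferentiableAt ℝ (fun y => (f y : ℂ)) z :=
    fun hf => (C2.contDiffAt_ofReal hf).differentiableAt (by simp)
  have d2 : ∀ {f : Cm n → ℝ}, ContDiffAt ℝ ∞ f z →
      DifferentiableAt ℝ (dzb l fun y => (f y : ℂ)) z :=
    fun hf => C2.differentiableAt_dzb l ((C2.contDiffAt_ofReal hf).of_le two_le')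
  rw [pd, Matrix.of_apply, e, Vale.Agent.P272.K.dz_add ((d1 h3).fun_mul (d2 h1))
    ((d1 h4).fun_mul (d2 h2)), Vale.Agent.P272.K.dz_mul (d1 h3) (d2 h1),
    Vale.Agent.P272.K.dz_mul (d1 h4) (d2 h2)]
  rfl

theorem det_vol (K : KM C) {a : C.I} {z : Cm n} (hz : z ∈ C.Ω a) :
    (K.w a z).det = (vol (K.w a) z : ℂ) := by
  have h := ((K.ku a).pos z hz).det_pos
  apply Complex.ext
  · simp [vol]
  · have := (Complex.pos_iff.1 h).2
    simp [← this]

theorem dens_self (K : KM C) (α : C.I → Cm n → Fin n → ℂ) {a : C.I} {z : Cm n}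
    (hz : z ∈ C.Ω a) : dens K K.w α a z = ((K.w a z)⁻¹ * pd (α a) z).trace.re := by
  have hd := det_vol K hz
  have hv := vol_ne K hz
  have h0 : (K.w a z).det ≠ 0 := by rw [hd]; exact_mod_cast hv
  have h1 : (K.w a z).adjugate = (vol (K.w a) z : ℂ) • (K.w a z)⁻¹ := by
    rw [Matrix.inv_def, Ring.inverse_eq_inv', smul_smul, hd, mul_inv_cancel₀ (by rw [← hd]; exact h0),
      one_smul]
  rw [dens, h1, Matrix.smul_mul, Matrix.trace_smul, smul_eq_mul, Complex.re_ofReal_mul,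
    mul_div_cancel_left₀ _ hv]

theorem dens_al (K : KM C) (hs : UT C σ s) (hv : UT C σ v) {a : C.I} {z : Cm n}
    (hz : z ∈ C.Ω a) : dens K K.w (al s v) a z =
      (gr (K.w a) (fun y => (s 1 a y).re) (fun y => (v 1 a y).re) z +
        gr (K.w a) (fun y => (s 1 a y).im) (fun y => (v 1 a y).im) z) +
      (lapC (K.w a) (s 1 a) z * conj (v 1 a z)).re := by
  have hpos := (K.ku a).pos z hz
  rw [H730.V.vpStmt.symm (K.w a) (fun y => (s 1 a y).re) (fun y => (v 1 a y).re) z hpos,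
    H730.V.vpStmt.symm (K.w a) (fun y => (s 1 a y).im) (fun y => (v 1 a y).im) z hpos,
    dens_self K _ hz]
  have h5 : (lapC (K.w a) (s 1 a) z * conj (v 1 a z)).re =
      lap (K.w a) (fun y => (s 1 a y).re) z * (v 1 a z).re +
      lap (K.w a) (fun y => (s 1 a y).im) z * (v 1 a z).im := by
    simp [lapC]
  have h6 : ((K.w a z)⁻¹ * pd (al s v a) z).trace =
      (∑ j, ∑ k, (K.w a z)⁻¹ k j * dz j (fun y => ((v 1 a y).re : ℂ)) z *
        dzb k (fun y => ((s 1 a y).re : ℂ)) z) +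
      (∑ j, ∑ k, (K.w a z)⁻¹ k j * dz j (fun y => ((v 1 a y).im : ℂ)) z *
        dzb k (fun y => ((s 1 a y).im : ℂ)) z) +
      (((v 1 a z).re : ℂ) * ((K.w a z)⁻¹ * cHess (fun y => (s 1 a y).re) z).trace +
        ((v 1 a z).im : ℂ) * ((K.w a z)⁻¹ * cHess (fun y => (s 1 a y).im) z).trace) := by
    simp only [Matrix.trace, Matrix.diag_apply, Matrix.mul_apply, pd_al hs hv hz, Finset.mul_sum]
    rw [Finset.sum_comm (f := fun j k => (K.w a z)⁻¹ k j * dz j (fun y => ((v 1 a y).re : ℂ)) z *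
        dzb k (fun y => ((s 1 a y).re : ℂ)) z),
      Finset.sum_comm (f := fun j k => (K.w a z)⁻¹ k j * dz j (fun y => ((v 1 a y).im : ℂ)) z *
        dzb k (fun y => ((s 1 a y).im : ℂ)) z)]
    simp only [← Finset.sum_add_distrib]
    refine Finset.sum_congr rfl fun k _ => Finset.sum_congr rfl fun j _ => ?_
    ring
  rw [h5, h6, Complex.add_re, Complex.add_re, Complex.add_re, Complex.re_ofReal_mul,
    Complex.re_ofReal_mul]
  simp only [gr, lap]
  ring

theorem BD_gr (K : KM C) (hσ : ∀ g, ‖σ g‖ = 1) (hs : UT C σ s) (hv : UT C σ v) :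
    BD C (fun a z => gr (K.w a) (fun y => (s 1 a y).re) (fun y => (v 1 a y).re) z +
        gr (K.w a) (fun y => (s 1 a y).im) (fun y => (v 1 a y).im) z) := by
  have hb : CB C K.w := ⟨fun a z hz i j => (K.ku a).smooth z hz i j,
    fun a z hz i k l => ((K.ku a).closed z hz k l i).symm ▸ rfl, K.change⟩
  refine BD_congr (BD_comb (dens_BD K hb (al_CF hσ hs hv)) (BD_ip hσ (hs.lapC K) hv) 1 (-1))
    fun a z hz => ?_
  rw [dens_al K hs hv hz]
  ring

/-- **integration by parts** -/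
theorem ut_ibp (P : PU C) (K : KM C) (hσ : ∀ g, ‖σ g‖ = 1) (hs : UT C σ s) (hv : UT C σ v) :
    BInt P K (fun a z => (lapC (K.w a) (s 1 a) z * conj (v 1 a z)).re) =
      -BInt P K (fun a z => gr (K.w a) (fun y => (s 1 a y).re) (fun y => (v 1 a y).re) z +
        gr (K.w a) (fun y => (s 1 a y).im) (fun y => (v 1 a y).im) z) := by
  have hb : CB C K.w := ⟨fun a z hz i j => (K.ku a).smooth z hz i j,
    fun a z hz i k l => ((K.ku a).closed z hz k l i).symm ▸ rfl, K.change⟩
  have h1 := glob_div P K hb (al_CF hσ hs hv)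
  rw [BInt_congr P K fun a z hz => dens_al K hs hv (V_sub_Ω C a hz),
    BInt_add P K (BD_gr K hσ hs hv) (BD_ip hσ (hs.lapC K) hv)] at h1
  linarith

theorem UT.of_tw (h : Tw C σ 0 s) : UT C σ s :=
  ⟨h.smooth, h.compat, fun g γ a z hz => by rw [h.equi g γ a z hz, Pi.zero_apply, add_zero]⟩

theorem UT.tw (h : UT C σ s) : Tw C σ 0 s :=
  ⟨h.smooth, h.compat, fun g γ a z hz => by rw [h.equiv g γ a z hz, Pi.zero_apply, add_zero]⟩

/-- **A3** -/
theorem ibpStmt : IbpStmt := fun _ _ _ _ P K _ hσ _ _ hs hv =>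
  ut_ibp P K hσ (UT.of_tw hs) (UT.of_tw hv)

end glob

end Vale.Agent.P284.H639.Tw
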