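import Vale.Agent.P284.H639.T6S
import Vale.Agent.P284.H5.Poin

/-!
# P284, theorem T, row T4F (helper639): Poincaré inequality in a finite-dimensional representation
-/

open scoped Manifold ContDiff Topology Pointwise ComplexConjugate ComplexOrder InnerProductSpace
open Filter Set Metric MeasureTheory

noncomputable section

namespace Vale.Agent.P284.H639.T4F

open Vale.Agent.P272.K Vale.Agent.P284.H248 Vale.Agent.P284.H894 Vale.Agent.P284.H894.V
  Vale.Agent.P284.H913.V Vale.Agent.P284.H287.T Vale.Agent.P284.H409.T Vale.Agent.P284.H359.V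
  Vale.Agent.P284.H639.T6 Vale.Agent.P284.H639.Tw Vale.Agent.P284.H639.V Vale.Agent.P284.H958
  Vale.Agent.P284.H66 Vale.Agent.P284.H66.S7

section loc
variable {n : ℕ} {H : Type} [NormedAddCommGroup H] [InnerProductSpace ℝ H]
variable {w : Cm n → Matrix (Fin n) (Fin n) ℂ} {z : Cm n}

/-- the scalar gradient form in real coordinates -/
theorem gr_cw {f h : Cm n → ℝ} (hf : DifferentiableAt ℝ f z) (hh : DifferentiableAt ℝ h z) :
    gr w f h z = ∑ a, ∑ b, cw w z a b * (fderiv ℝ f z (ev a) * fderiv ℝ h z (ev b)) := by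
  rw [sum_split]
  unfold gr
  rw [Complex.re_sum]
  refine Finset.sum_congr rfl fun j _ => ?_
  rw [Complex.re_sum]
  refine Finset.sum_congr rfl fun k _ => ?_
  rw [dz_coe hf, dzb_coe hh, form]
  simp only [cw, Vale.Agent.P284.H359.Fr.pd]
  ring

theorem fderiv_inner {u : Cm n → H} (hu : DifferentiableAt ℝ u z) (η : H) (x : Cm n) :
    fderiv ℝ (fun y => ⟪u y, η⟫_ℝ) z x = ⟪fderiv ℝ u z x, η⟫_ℝ := by
  have h := hu.hasFDerivAt.inner ℝ (hasFDerivAt_const η z)
  rw [h.fderiv]
  simp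

theorem diff_inner {u : Cm n → H} (hu : DifferentiableAt ℝ u z) (η : H) :
    DifferentiableAt ℝ (fun y => ⟪u y, η⟫_ℝ) z :=
  hu.inner ℝ (differentiableAt_const η)

theorem cd_inner {u : Cm n → H} (hu : ContDiffAt ℝ ∞ u z) (η : H) :
    ContDiffAt ℝ ∞ (fun y => ⟪u y, η⟫_ℝ) z :=
  hu.inner ℝ contDiffAt_const

theorem grH_basis {ι : Type} [Fintype ι] (e : OrthonormalBasis ι ℝ H) {u v : Cm n → H}
    (hu : DifferentiableAt ℝ u z) (hv : DifferentiableAt ℝ v z) :
    grH w u v z = ∑ i, gr w (fun y => ⟪u y, e i⟫_ℝ) (fun y => ⟪v y, e i⟫_ℝ) z := by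
  have h1 : ∀ i, gr w (fun y => ⟪u y, e i⟫_ℝ) (fun y => ⟪v y, e i⟫_ℝ) z =
      ∑ a, ∑ b, cw w z a b * (⟪dH u z a, e i⟫_ℝ * ⟪dH v z b, e i⟫_ℝ) := by
    intro i
    rw [gr_cw (diff_inner hu _) (diff_inner hv _)]
    refine Finset.sum_congr rfl fun a _ => Finset.sum_congr rfl fun b _ => ?_
    rw [fderiv_inner hu, fderiv_inner hv]
    rfl
  simp only [h1]
  rw [Finset.sum_comm]
  unfold grH
  refine Finset.sum_congr rfl fun a _ => ?_
  rw [Finset.sum_comm]
  refine Finset.sum_congr rfl fun b _ => ?_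
  rw [← Finset.mul_sum]
  congr 1
  rw [← e.sum_inner_mul_inner]
  refine Finset.sum_congr rfl fun i _ => ?_
  rw [real_inner_comm (dH v z b)]

theorem grH_nonneg' [FiniteDimensional ℝ H] (hw : (w z).PosDef) {u : Cm n → H}
    (hu : DifferentiableAt ℝ u z) : 0 ≤ grH w u u z := by
  rw [grH_basis (stdOrthonormalBasis ℝ H) hu hu]
  exact Finset.sum_nonneg fun i _ => (H730.V.vpStmt.nonneg w _ z hw).1

theorem gr_le_grH [FiniteDimensional ℝ H] {ι : Type} [Fintype ι] (e : OrthonormalBasis ι ℝ H)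
    (hw : (w z).PosDef) {u : Cm n → H}
    (hu : DifferentiableAt ℝ u z) (i : ι) :
    gr w (fun y => ⟪u y, e i⟫_ℝ) (fun y => ⟪u y, e i⟫_ℝ) z ≤ grH w u u z := by
  rw [grH_basis e hu hu]
  exact Finset.single_le_sum (f := fun i => gr w (fun y => ⟪u y, e i⟫_ℝ) (fun y => ⟪u y, e i⟫_ℝ) z)
    (fun i _ => (H730.V.vpStmt.nonneg w _ z hw).1) (Finset.mem_univ i)

end loc

section glob
variable {n : ℕ} {Γ : Type} [Group Γ] {C : Coc n Γ}
variable {H : Type} [NormedAddCommGroup H] [InnerProductSpace ℝ H] [FiniteDimensional ℝ H]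

omit [FiniteDimensional ℝ H] in
theorem ev_one (π : Γ →* (H ≃ₗᵢ[ℝ] H)) {u : Γ → C.I → Cm n → H} (hu : Sec C π 0 u) {a b : C.I}
    {z : Cm n} (hz : z ∈ C.O a b) :
    ∀ᶠ y in 𝓝 z, u 1 a y = π (C.κ a b z) (u 1 b (C.T a b y)) := by
  filter_upwards [(C.O_open a b).mem_nhds hz, C.κ_loc a b z hz] with y hy hk
  rw [one_ev π hu hy, hk]

/-- the energy density is a function on the base -/
theorem BD_grH (K : KM C) (π : Γ →* (H ≃ₗᵢ[ℝ] H)) {u : Γ → C.I → Cm n → H} (hu : Sec C π 0 u) :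
    BD C (fun a z => grH (K.w a) (u 1 a) (u 1 a) z) where
  cont a := grH_cont K (fun z hz => hu.smooth 1 a z hz) (fun z hz => hu.smooth 1 a z hz)
  compat a b z hz _ _ := by
    have hzΩ := O_sub_Ω C hz
    have hTz := T_mem_Ω C hz
    have hd : DifferentiableAt ℝ (u 1 a) z := (hu.smooth 1 a z hzΩ).differentiableAt (by norm_num)
    have hd' : DifferentiableAt ℝ (u 1 b) (C.T a b z) :=
      (hu.smooth 1 b _ hTz).differentiableAt (by norm_num)
    set e := stdOrthonormalBasis ℝ H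
    set e' := e.map (π (C.κ a b z)).symm with he'
    rw [grH_basis e hd hd, grH_basis e' hd' hd']
    refine Finset.sum_congr rfl fun i _ => ?_
    have hs := cd_inner (hu.smooth 1 b _ hTz) (e' i)
    have hev : ∀ᶠ y in 𝓝 z, ⟪u 1 a y, e i⟫_ℝ = ⟪u 1 b (C.T a b y), e' i⟫_ℝ := by
      filter_upwards [ev_one π hu hz] with y hy
      rw [hy, he', OrthonormalBasis.map_apply]
      have h3 := LinearIsometryEquiv.inner_map_map (π (C.κ a b z)) (u 1 b (C.T a b y))
        ((π (C.κ a b z)).symm (e i))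
      rw [LinearIsometryEquiv.apply_symm_apply] at h3
      exact h3
    exact (H730.V.vpStmt.trans (K.w a) (K.w b) _ _ _ _ (C.T a b) z (T_ev C hz)
      ((K.ku a).pos z hzΩ) ((K.ku b).pos _ hTz) (K.change a b z hz) hs hs hev hev).2.1

end glob

/-- **T4F** -/
theorem t4FStmt : T4FStmt := by
  intro n Γ _ C P K H _ _ _ π h hS horth hB hE
  classical
  have hpos : ∀ a, ∀ z ∈ C.Ω a, (K.w a z).PosDef := fun a => (K.ku a).pos
  have hVΩ : ∀ a, C.V a ⊆ C.Ω a := fun a => Vale.Agent.P284.H913.V.V_sub C a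
  set e := stdOrthonormalBasis ℝ H with he
  set R : ℕ → Fin (Module.finrank ℝ H) → C.I → Cm n → ℝ := fun j i a z => ⟪h j 1 a z, e i⟫_ℝ with hR
  have hsR : ∀ j i a, ∀ z ∈ C.Ω a, ContDiffAt ℝ ∞ (R j i a) z := fun j i a z hz =>
    cd_inner ((hS j).smooth 1 a z hz) _
  have hcR : ∀ j i a, ContinuousOn (R j i a) (C.Ω a) := fun j i a z hz =>
    (hsR j i a z hz).continuousAt.continuousWithinAt
  have hdh : ∀ j a, ∀ z ∈ C.Ω a, DifferentiableAt ℝ (h j 1 a) z := fun j a z hz =>
    ((hS j).smooth 1 a z hz).differentiableAt (by norm_num)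
  set G : ℕ → C.I → Cm n → ℝ := fun j a z => grH (K.w a) (h j 1 a) (h j 1 a) z with hG
  have hGB : ∀ j, BD C (G j) := fun j => BD_grH K π (hS j)
  have hG0 : ∀ j a, ∀ z ∈ C.Ω a, 0 ≤ G j a z := fun j a z hz =>
    grH_nonneg' (hpos a z hz) (hdh j a z hz)
  have hLam : ∀ a : C.I, 0 < K.Lam := fun a => K.lam_pos.trans_le (Lam_ge K a)
  have hloc : ∀ {F : C.I → Cm n → ℝ}, BD C F → (∀ a, ∀ z ∈ C.Ω a, 0 ≤ F a z) → ∀ a,
      ∫ z in C.V a, F a z ≤ BInt P K F / K.lam := by
    intro F hF h0 a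
    rw [le_div_iff₀ K.lam_pos, mul_comm]
    exact (int_vol_ge K a (hF.cont a) (h0 a)).trans (hF.le P K h0 a)
  have hD1 : ∀ j i a, ∫ z in C.V a, D1 (R j i a) z ≤ K.Lam * (BInt P K (G j) / K.lam) := by
    intro j i a
    have h1 : ∫ z in C.V a, D1 (R j i a) z ≤ ∫ z in C.V a, K.Lam * G j a z := by
      refine integral_mono_of_nonneg (Eventually.of_forall fun z => D1_nonneg _ _) ?_ ?_
      · exact (integrableOn_cball (((hGB j).cont a).mono (C.cV_sub a))).const_mul _
      · refine (ae_restrict_iff' measurableSet_ball).2 (Eventually.of_forall fun z hz => ?_)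
        have hz' := C.V_sub a hz
        exact ((H730.V.vpStmt.ell (K.w a) (R j i a) z K.lam K.Lam (hpos a z hz') K.lam_pos
          (K.low a z hz') (K.up a z hz')).1).trans (mul_le_mul_of_nonneg_left
            (gr_le_grH e (hpos a z hz') (hdh j a z hz') i) (hLam a).le)
    rw [integral_const_mul] at h1
    exact h1.trans (mul_le_mul_of_nonneg_left (hloc (hGB j) (hG0 j) a) (hLam a).le)
  choose A hA0 hA using fun a : C.I =>
    H958.poinc Vale.Agent.P284.H513.V.v11Stmt n (C.r a) (C.r_pos a)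
  choose m hm using fun (j : ℕ) (i : Fin (Module.finrank ℝ H)) (a : C.I) =>
    hA a (C.c a) (R j i a) fun z hz => hsR j i a z (C.cV_sub a hz)
  set D : ℕ → Fin (Module.finrank ℝ H) → C.I → ℝ := fun j i a =>
    ∫ z in ball (C.c a) (2 * C.r a), (R j i a z - m j i a) ^ 2 with hD
  have hDlim : ∀ a, Tendsto (fun j => A a * (K.Lam * (BInt P K (G j) / K.lam))) atTop (𝓝 0) := by
    intro a
    have := ((hE.div_const K.lam).const_mul K.Lam).const_mul (A a)
    simpa using this
  have hDt : ∀ i a, Tendsto (fun j => D j i a) atTop (𝓝 0) := fun i a =>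
    squeeze_zero (fun j => integral_nonneg fun z => sq_nonneg _)
      (fun j => (hm j i a).trans (mul_le_mul_of_nonneg_left (hD1 j i a) (hA0 a))) (hDlim a)
  -- the means in `H`
  set M : ℕ → C.I → H := fun j a => ∑ i, m j i a • e i with hM
  have hMe : ∀ j a i, ⟪M j a, e i⟫_ℝ = m j i a := by
    intro j a i
    rw [hM]
    simp only [sum_inner, inner_smul_left, e.inner_eq_ite]
    simp
  have hnsq : ∀ x : H, ‖x‖ ^ 2 = ∑ i, ⟪x, e i⟫_ℝ ^ 2 := by
    intro x
    have h1 := e.sum_sq_norm_inner_left x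
    rw [← h1]
    refine Finset.sum_congr rfl fun i _ => ?_
    rw [Real.norm_eq_abs, sq_abs]
  have hc2 : ∀ a, closedBall (C.c a) (2 * C.r a) ⊆ C.Ω a := fun a =>
    (cball2_sub_V C a).trans (C.V_sub a)
  have hch : ∀ j a, ContinuousOn (h j 1 a) (C.Ω a) := fun j a z hz =>
    ((hS j).smooth 1 a z hz).continuousAt.continuousWithinAt
  set DD : ℕ → C.I → ℝ := fun j a => ∑ i, D j i a with hDD
  have hDDt : ∀ a, Tendsto (fun j => DD j a) atTop (𝓝 0) := by
    intro a
    have := tendsto_finsetSum (Finset.univ : Finset (Fin (Module.finrank ℝ H)))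
      fun i _ => hDt i a
    simpa using this
  have hiR : ∀ j i a t, IntegrableOn (fun z => (R j i a z - t) ^ 2) (ball (C.c a) (2 * C.r a)) :=
    fun j i a t => integrableOn_cball ((((hcR j i a).mono (hc2 a)).sub continuousOn_const).pow 2)
  have hDDeq : ∀ j a, ∫ z in ball (C.c a) (2 * C.r a), ‖h j 1 a z - M j a‖ ^ 2 = DD j a := by
    intro j a
    rw [hDD]
    simp only [hD]
    rw [← integral_finsetSum _ fun i _ => hiR j i a (m j i a)]
    refine integral_congr_ae (Eventually.of_forall fun z => ?_)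
    show ‖h j 1 a z - M j a‖ ^ 2 = _
    rw [hnsq]
    refine Finset.sum_congr rfl fun i _ => ?_
    rw [inner_sub_left, hMe]
  -- neighbours
  have hstep : ∀ a b z, z ∈ C.O a b → z ∈ ball (C.c a) (2 * C.r a) →
      C.T a b z ∈ ball (C.c b) (2 * C.r b) →
      Tendsto (fun j => ‖M j a - π (C.κ a b z) (M j b)‖ ^ 2) atTop (𝓝 0) := by
    intro a b z hz h1 h2
    obtain ⟨A', hA'0, hA'⟩ := overlap C a b z hz h1 h2
    have hlim : Tendsto (fun j => ∑ i, A' * (D j i a + DD j b)) atTop (𝓝 0) := by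
      have := tendsto_finsetSum (Finset.univ : Finset (Fin (Module.finrank ℝ H)))
        fun i _ => ((hDt i a).add (hDDt b)).const_mul A'
      simpa using this
    refine squeeze_zero (fun j => sq_nonneg _) (fun j => ?_) hlim
    rw [hnsq]
    refine Finset.sum_le_sum fun i _ => ?_
    rw [inner_sub_left, hMe]
    refine (hA' (R j i a) (fun y => ⟪π (C.κ a b z) (h j 1 b y), e i⟫_ℝ) _ _
      ((hcR j i a).mono (hc2 a)) ?_ fun y hy hκ => ?_).trans ?_
    · exact (((π (C.κ a b z)).continuous.comp_continuousOn ((hch j b).mono (hc2 b))).inner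
        (𝕜 := ℝ) continuousOn_const)
    · simp only [hR]
      rw [one_ev π (hS j) hy, hκ]
    · refine mul_le_mul_of_nonneg_left (add_le_add le_rfl ?_) hA'0
      rw [← hDDeq]
      refine integral_mono_of_nonneg (Eventually.of_forall fun y => sq_nonneg _) ?_
        (Eventually.of_forall fun y => ?_)
      · exact integrableOn_cball ((((hch j b).mono (hc2 b)).sub continuousOn_const).norm.pow 2)
      · show (⟪π (C.κ a b z) (h j 1 b y), e i⟫_ℝ - ⟪π (C.κ a b z) (M j b), e i⟫_ℝ) ^ 2 ≤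
          ‖h j 1 b y - M j b‖ ^ 2
        rw [← inner_sub_left, ← map_sub]
        have h3 := abs_real_inner_le_norm (π (C.κ a b z) (h j 1 b y - M j b)) (e i)
        rw [e.norm_eq_one, mul_one, LinearIsometryEquiv.norm_map] at h3
        rw [← sq_abs]
        exact pow_le_pow_left₀ (abs_nonneg _) h3 2
  -- boundedness of the means
  obtain ⟨B, hB⟩ := hB
  have hNB : ∀ j, BD C (fun a z => ‖h j 1 a z‖ ^ 2) := fun j => BD_nsq π (hS j)
  have hvp : ∀ a : C.I, 0 < (volume (ball (C.c a) (2 * C.r a))).toReal := fun a =>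
    ENNReal.toReal_pos (measure_ball_pos volume _ (by linarith [C.r_pos a])).ne'
      measure_ball_lt_top.ne
  have hiN : ∀ j a (x : H), IntegrableOn (fun z => ‖h j 1 a z - x‖ ^ 2)
      (ball (C.c a) (2 * C.r a)) := fun j a x =>
    integrableOn_cball ((((hch j a).mono (hc2 a)).sub continuousOn_const).norm.pow 2)
  have hiN0 : ∀ j a, IntegrableOn (fun z => ‖h j 1 a z‖ ^ 2)
      (ball (C.c a) (2 * C.r a)) := fun j a => by simpa using hiN j a 0
  have hMb : ∀ a, ∃ Q : ℝ, ∀ j, ‖M j a‖ ≤ Q := by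
    intro a
    obtain ⟨Q, hQ⟩ := (hDDt a).bddAbove_range
    have hQ' : ∀ j, DD j a ≤ Q := fun j => hQ ⟨j, rfl⟩
    refine ⟨Real.sqrt ((2 * (B / K.lam) + 2 * Q) / (volume (ball (C.c a) (2 * C.r a))).toReal),
      fun j => ?_⟩
    refine Real.le_sqrt_of_sq_le ?_
    rw [le_div_iff₀ (hvp a), mul_comm]
    have h5 : ∫ z in ball (C.c a) (2 * C.r a), ‖M j a‖ ^ 2 ≤
        ∫ z in ball (C.c a) (2 * C.r a), (2 * ‖h j 1 a z‖ ^ 2 + 2 * ‖h j 1 a z - M j a‖ ^ 2) := by
      refine setIntegral_mono_on (integrableOn_const measure_ball_lt_top.ne)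
        (((hiN0 j a).const_mul 2).add ((hiN j a (M j a)).const_mul 2)) measurableSet_ball
        fun z _ => ?_
      have h6 : ‖M j a‖ ≤ ‖h j 1 a z‖ + ‖h j 1 a z - M j a‖ := by
        have := norm_sub_le (h j 1 a z) (h j 1 a z - M j a)
        rwa [sub_sub_cancel] at this
      nlinarith [sq_nonneg (‖h j 1 a z‖ - ‖h j 1 a z - M j a‖), norm_nonneg (M j a),
        norm_nonneg (h j 1 a z), norm_nonneg (h j 1 a z - M j a)]
    rw [integral_add ((hiN0 j a).const_mul 2) ((hiN j a (M j a)).const_mul 2),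
      integral_const_mul, integral_const_mul, setIntegral_const, measureReal_def, smul_eq_mul,
      hDDeq] at h5
    refine h5.trans ?_
    have h7 : ∫ z in ball (C.c a) (2 * C.r a), ‖h j 1 a z‖ ^ 2 ≤ B / K.lam := by
      refine le_trans ?_ ((hloc (hNB j) (fun a z _ => sq_nonneg _) a).trans
        (div_le_div_of_nonneg_right (hB j) K.lam_pos.le))
      exact setIntegral_mono_set (intV ((hNB j).cont a))
        (Eventually.of_forall fun z => sq_nonneg _) (LE.le.eventuallyLE (ball2_sub_V C a))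
    linarith [hQ' j]
  choose Q hQ using hMb
  -- subsequences
  refine tendsto_of_subseq_tendsto fun ns hns => ?_
  have hbdd : ∀ k, (fun a => M (ns k) a) ∈ closedBall (0 : C.I → H) (∑ a, |Q a|) := by
    intro k
    rw [mem_closedBall_zero_iff]
    refine (pi_norm_le_iff_of_nonneg (Finset.sum_nonneg fun a _ => abs_nonneg _)).2 fun a => ?_
    exact (hQ a (ns k)).trans ((le_abs_self _).trans
      (Finset.single_le_sum (f := fun a => |Q a|) (fun a _ => abs_nonneg _) (Finset.mem_univ a)))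
  have : ProperSpace (C.I → H) := FiniteDimensional.proper ℝ (C.I → H)
  obtain ⟨ms, -, φ, hφ, hlim⟩ := (isCompact_closedBall (0 : C.I → H) (∑ a, |Q a|)).tendsto_subseq
    hbdd
  refine ⟨φ, ?_⟩
  set J : ℕ → ℕ := fun k => ns (φ k) with hJ
  have hJt : Tendsto J atTop atTop := hns.comp hφ.tendsto_atTop
  have hMl : ∀ a, Tendsto (fun k => M (J k) a) atTop (𝓝 (ms a)) := fun a =>
    (tendsto_pi_nhds.1 hlim) a
  have hnb : ∀ a b z, z ∈ C.O a b → z ∈ ball (C.c a) (2 * C.r a) →
      C.T a b z ∈ ball (C.c b) (2 * C.r b) → ms a = π (C.κ a b z) (ms b) := by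
    intro a b z hz h1 h2
    have h3 : Tendsto (fun k => ‖M (J k) a - π (C.κ a b z) (M (J k) b)‖ ^ 2) atTop
        (𝓝 (‖ms a - π (C.κ a b z) (ms b)‖ ^ 2)) :=
      (((hMl a).sub (((π (C.κ a b z)).continuous.tendsto _).comp (hMl b))).norm.pow 2)
    have h4 := tendsto_nhds_unique h3 ((hstep a b z hz h1 h2).comp hJt)
    have h5 : ‖ms a - π (C.κ a b z) (ms b)‖ = 0 := by
      simpa using h4
    exact sub_eq_zero.1 (norm_eq_zero.1 h5)
  obtain ⟨a₀⟩ := C.ne
  have hinv : ∀ γ a, π γ (ms a) = ms a₀ := by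
    intro γ a
    refine v12Stmt n Γ C (fun γ a => π γ (ms a) = ms a₀) (fun γ a b z hz h1 h2 hQ => ?_)
      1 a₀ γ a (by simp)
    have h3 : π γ (π (C.κ a b z) (ms b)) = ms a₀ := by
      rw [← hnb a b z hz h1 h2]
      exact hQ
    rw [map_mul]
    exact h3
  set w := ms a₀ with hw
  have hmsw : ∀ a, ms a = w := fun a => by simpa using hinv 1 a
  have hwinv : ∀ g, π g w = w := fun g => by
    have := hinv g a₀
    rwa [← hw] at this
  -- the difference
  have hSw : ∀ j, Sec C π 0 (fun γ a z => h j γ a z - w) := fun j =>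
    { smooth := fun γ a z hz => ((hS j).smooth γ a z hz).sub contDiffAt_const
      compat := fun γ a b z hz => by rw [(hS j).compat γ a b z hz]
      equi := fun g γ a z hz => by
        rw [(hS j).equi g γ a z hz, map_sub, hwinv]
        simp }
  have hNw : ∀ j, BD C (fun a z => ‖h j 1 a z - w‖ ^ 2) := fun j => BD_nsq π (hSw j)
  have hkey : ∀ j, BInt P K (fun a z => ‖h j 1 a z‖ ^ 2) ≤
      BInt P K (fun a z => ‖h j 1 a z - w‖ ^ 2) := by
    intro j
    have hcw : Sec C π 0 (fun (_ : Γ) (_ : C.I) (_ : Cm n) => w) :=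
      { smooth := fun γ a z hz => contDiffAt_const
        compat := fun γ a b z hz => rfl
        equi := fun g γ a z hz => by simp [hwinv] }
    have h1 := BInt_comb P K (hNB j) (BD_inner π (hS j) hcw) 1 (-2)
    have h2 : BD C (fun a z => 1 * ‖h j 1 a z‖ ^ 2 + -2 * ⟪h j 1 a z, w⟫_ℝ) :=
      BD_comb (hNB j) (BD_inner π (hS j) hcw) 1 (-2)
    have h3 := BInt_add P K h2 (BD_const (C := C) (‖w‖ ^ 2))
    rw [h1, horth j w hwinv, BInt_const P K (‖w‖ ^ 2)] at h3
    have h4 : BInt P K (fun a z => ‖h j 1 a z - w‖ ^ 2) =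
        BInt P K (fun a z => 1 * ‖h j 1 a z‖ ^ 2 + -2 * ⟪h j 1 a z, w⟫_ℝ + ‖w‖ ^ 2) := by
      refine BInt_congr P K fun a z _ => ?_
      rw [norm_sub_sq_real]
      ring
    rw [h4, h3]
    have h5 := mul_nonneg (sq_nonneg ‖w‖) (BInt_one_pos P K).le
    linarith
  have hfin : Tendsto (fun k => ∑ a, K.Lam * (2 * DD (J k) a + 2 *
      ((volume (ball (C.c a) (2 * C.r a))).toReal * ‖M (J k) a - w‖ ^ 2))) atTop (𝓝 0) := by
    have h1 : ∀ a, Tendsto (fun k => ‖M (J k) a - w‖ ^ 2) atTop (𝓝 0) := by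
      intro a
      have h2 := ((hMl a).sub_const w).norm.pow 2
      rw [hmsw a, sub_self, norm_zero] at h2
      simpa using h2
    have := tendsto_finsetSum (Finset.univ : Finset C.I) fun a _ =>
      ((((hDDt a).comp hJt).const_mul 2).add (((h1 a).const_mul
        (volume (ball (C.c a) (2 * C.r a))).toReal).const_mul 2)).const_mul K.Lam
    simpa using this
  refine squeeze_zero (fun k => BInt_nonneg P K fun a z _ => sq_nonneg _) (fun k => ?_) hfin
  refine (hkey (J k)).trans (((hNw (J k)).ge P K fun a z _ => sq_nonneg _).trans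
    (Finset.sum_le_sum fun a _ => ?_))
  have hW2 : C.W a ⊆ ball (C.c a) (2 * C.r a) := ball_subset_ball (by linarith [C.r_pos a])
  calc ∫ z in C.W a, ‖h (J k) 1 a z - w‖ ^ 2 * vol (K.w a) z
      ≤ ∫ z in C.W a, K.Lam * ‖h (J k) 1 a z - w‖ ^ 2 := by
        refine setIntegral_mono_on (((hNw (J k)).int_vol K a).mono_set (W_sub C a))
          (((hiN (J k) a w).mono_set hW2).const_mul _) measurableSet_ball fun z hz => ?_
        rw [mul_comm]
        exact mul_le_mul_of_nonneg_right (K.vol_up a z (hVΩ a (W_sub C a hz))) (sq_nonneg _)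
    _ = K.Lam * ∫ z in C.W a, ‖h (J k) 1 a z - w‖ ^ 2 := integral_const_mul _ _
    _ ≤ K.Lam * ∫ z in ball (C.c a) (2 * C.r a), ‖h (J k) 1 a z - w‖ ^ 2 := by
        refine mul_le_mul_of_nonneg_left ?_ (hLam a).le
        exact setIntegral_mono_set (hiN (J k) a w) (Eventually.of_forall fun z => sq_nonneg _)
          (LE.le.eventuallyLE hW2)
    _ ≤ _ := by
        refine mul_le_mul_of_nonneg_left ?_ (hLam a).le
        have h5 : ∫ z in ball (C.c a) (2 * C.r a), ‖h (J k) 1 a z - w‖ ^ 2 ≤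
            ∫ z in ball (C.c a) (2 * C.r a), (2 * ‖h (J k) 1 a z - M (J k) a‖ ^ 2 +
              2 * ‖M (J k) a - w‖ ^ 2) := by
          refine setIntegral_mono_on (hiN (J k) a w)
            (((hiN (J k) a _).const_mul 2).add (integrableOn_const measure_ball_lt_top.ne))
            measurableSet_ball fun z _ => ?_
          have h6 : ‖h (J k) 1 a z - w‖ ≤ ‖h (J k) 1 a z - M (J k) a‖ + ‖M (J k) a - w‖ :=
            norm_sub_le_norm_sub_add_norm_sub _ _ _
          nlinarith [sq_nonneg (‖h (J k) 1 a z - M (J k) a‖ - ‖M (J k) a - w‖),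
            norm_nonneg (h (J k) 1 a z - w), norm_nonneg (h (J k) 1 a z - M (J k) a),
            norm_nonneg (M (J k) a - w)]
        rw [integral_add ((hiN (J k) a _).const_mul 2) (integrableOn_const measure_ball_lt_top.ne),
          integral_const_mul, setIntegral_const, measureReal_def, smul_eq_mul, hDDeq] at h5
        refine h5.trans (le_of_eq ?_)
        ring

end Vale.Agent.P284.H639.T4F
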