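import Vale.Agent.P284.H639.T6
import Vale.Agent.P284.H409.T.Spec

/-! # P284, theorem T, rows T6 and T6U (helper639) -/

open scoped Manifold ContDiff Topology Pointwise ComplexConjugate ComplexOrder InnerProductSpace
open Filter Set Metric MeasureTheory

noncomputable section

namespace Vale.Agent.P284.H639.T6

open Vale.Agent.P272.K Vale.Agent.P284.H248 Vale.Agent.P284.H894 Vale.Agent.P284.H894.V
  Vale.Agent.P284.H913.V Vale.Agent.P284.H287.T Vale.Agent.P284.H409.T

/-- **T6** -/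
theorem t6Stmt : T6Stmt := by
  intro n Γ _ C P K
  obtain ⟨A, hA, h⟩ := fx_energy P K
  have h1 := BInt_one_pos P K
  refine ⟨1 / 4 * BInt P K (fun _ _ => 1), A + 1, 1 / 2, by positivity, by linarith, by norm_num, ?_⟩
  intro H _ _ _ π ξ ε hξ hε hε1 hs
  refine ⟨fx P π ξ, fx_sec P π ξ, ?_, ?_⟩
  · refine le_trans ?_ (fx_L2 P K π (by rw [hξ]; linarith) hs).1
    refine mul_le_mul_of_nonneg_right ?_ h1.le
    rw [hξ]
    nlinarith
  · exact (h H π ξ ε hs).trans (mul_le_mul_of_nonneg_right (by linarith) (sq_nonneg ε))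

/-- **T6U** -/
theorem t6UStmt : T6UStmt := by
  intro n Γ _ C P H _ _ π b hb
  exact ⟨av P b, u0_sec P π b hb⟩

end Vale.Agent.P284.H639.T6
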