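import Vale.Agent.P284.H894.SpecSub
import Mathlib.Analysis.Complex.Schwarz
import Mathlib.Algebra.Order.Chebyshev
import Mathlib.Analysis.Complex.CauchyIntegral

/-! # P284, block D3: finite nets, contraction, connectedness (helper639) -/

open scoped Manifold ContDiff Topology ComplexConjugate ComplexOrder
open Filter Set Metric Asymptotics

noncomputable section

namespace Vale.Agent.P284.H639

open Vale.Agent.P272.K Vale.Agent.P284.H248 Vale.Agent.P272.KOD Vale.Agent.P284.H894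

variable {n : ℕ} {Γ : Type} [Group Γ]

theorem isOpen_V (C : Coc n Γ) (a : C.I) : IsOpen (C.V a) := isOpen_ball

theorem W_sub_V (C : Coc n Γ) (a : C.I) : C.W a ⊆ C.V a := by
  intro z hz
  have hr := C.r_pos a
  simp only [Coc.W, Coc.V, mem_ball] at hz ⊢
  linarith

theorem V_sub_Ω (C : Coc n Γ) (a : C.I) : C.V a ⊆ ball (C.c a) (4 * C.r a) := by
  intro z hz
  have hr := C.r_pos a
  simp only [Coc.V, mem_ball] at hz ⊢
  linarith

/-- A section over the diagonal pieces. -/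
structure Dia (C : Coc n Γ) (m : ℕ) where
  f : Γ → C.I → Cm n → Cm n → ℂ
  holo : ∀ γ a, DifferentiableOn ℂ (fun p : Cm n × Cm n => f γ a p.1 p.2) (C.V a ×ˢ C.V a)
  change : ∀ γ a b z, z ∈ C.O a b → z ∈ C.V a → C.T a b z ∈ C.V b →
    ∀ᶠ w in 𝓝 z, f γ a z w =
      C.g a b z ^ m * C.g a b w ^ m * f (γ * C.κ a b z) b (C.T a b z) (C.T a b w)
  R : Γ → ℝ
  R_nonneg : ∀ γ, 0 ≤ R γ
  R_sum : Summable fun γ => R γ ^ 2
  bound : ∀ γ a, ∀ z ∈ C.V a, ∀ w ∈ C.V a, ‖f γ a z w‖ ≤ R γ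

variable {C : Coc n Γ} {m : ℕ}

theorem lead_change (h0 : D0Stmt) (D : Dia C m) {q : ℕ} (hv : ∀ γ a, Van q (C.V a) (D.f γ a))
    (γ : Γ) (a b : C.I) (z : Cm n) (hz : z ∈ C.O a b) (hzV : z ∈ C.V a)
    (hTV : C.T a b z ∈ C.V b) (v : Cm n) :
    Lead q (D.f γ a) z v = C.g a b z ^ (2 * m) *
      Lead q (D.f (γ * C.κ a b z) b) (C.T a b z) (fderiv ℂ (C.T a b) z v) := by
  have hO : C.O a b ∈ 𝓝 z := (C.O_open a b).mem_nhds hz
  have := h0.change (isOpen_V C a) (isOpen_V C b) (D.holo γ a) (hv γ a)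
    (D.holo (γ * C.κ a b z) b) (hv _ b) (C.T a b) (fun w => C.g a b w ^ m) z hzV hTV
    ((C.T_holo a b).differentiableAt hO)
    (((C.g_holo a b).differentiableAt hO).continuousAt.pow m)
    (D.change γ a b z hz hzV hTV) v
  rw [this]
  ring

theorem trans_bound (h0 : D0Stmt) (D : Dia C m) {q : ℕ} (hv : ∀ γ a, Van q (C.V a) (D.f γ a))
    (a : C.I) (z : Cm n) (hz : z ∈ C.V a) :
    ∃ k ∈ C.N, ∃ b, ∃ z' ∈ C.W b, ∀ v : Cm n, ∃ v' : Cm n, ‖v'‖ ≤ C.M * ‖v‖ ∧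
      ∀ γ, ‖Lead q (D.f γ a) z v‖ ≤ C.M ^ (2 * m) * ‖Lead q (D.f (γ * k) b) z' v'‖ := by
  obtain ⟨b, hzb, hTb⟩ := C.cover a z (V_sub_Ω C a hz)
  have hTV : C.T a b z ∈ ball (C.c b) (3 * C.r b) := W_sub_V C b hTb
  refine ⟨C.κ a b z, C.κ_mem a b z hzb hz hTV, b, C.T a b z, hTb, fun v =>
    ⟨fderiv ℂ (C.T a b) z v, ?_, fun γ => ?_⟩⟩
  · exact (ContinuousLinearMap.le_opNorm _ _).trans
      (mul_le_mul_of_nonneg_right (C.T_le a b z hzb hz hTV) (norm_nonneg _))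
  · rw [lead_change h0 D hv γ a b z hzb hz hTV v, norm_mul, norm_pow]
    exact mul_le_mul_of_nonneg_right
      (pow_le_pow_left₀ (norm_nonneg _) (C.g_le a b z hzb hz hTV) _) (norm_nonneg _)

/-- homogeneous bound from the bound on the unit ball -/
theorem homog_bound {q : ℕ} {V : Set (Cm n)} {f : Cm n → Cm n → ℂ} (h0 : D0Stmt) (hV : IsOpen V)
    (hf : DifferentiableOn ℂ (fun p : Cm n × Cm n => f p.1 p.2) (V ×ˢ V)) (hv : Van q V f)
    {z : Cm n} (hz : z ∈ V) {B : ℝ} (hB : ∀ v : Cm n, ‖v‖ ≤ 1 → ‖Lead q f z v‖ ≤ B)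
    {s : ℝ} (hs : 0 < s) {v : Cm n} (hvs : ‖v‖ ≤ s) : ‖Lead q f z v‖ ≤ s ^ q * B := by
  have h1 : v = (s : ℂ) • (((s : ℂ)⁻¹) • v) := by
    rw [smul_smul, mul_inv_cancel₀ (by exact_mod_cast hs.ne'), one_smul]
  have h2 : ‖((s : ℂ)⁻¹) • v‖ ≤ 1 := by
    rw [norm_smul, norm_inv, Complex.norm_real, Real.norm_of_nonneg hs.le]
    calc s⁻¹ * ‖v‖ ≤ s⁻¹ * s := mul_le_mul_of_nonneg_left hvs (inv_nonneg.2 hs.le)
      _ = 1 := inv_mul_cancel₀ hs.ne'
  rw [h1, h0.homog hV hf hv z hz, norm_mul, norm_pow, Complex.norm_real,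
    Real.norm_of_nonneg hs.le]
  exact mul_le_mul_of_nonneg_left (hB _ h2) (pow_nonneg hs.le _)

/-- One variable: Schwarz. -/
theorem schwarz {g : ℂ → ℂ} {T B : ℝ} (hT : 1 < T) (hg : DifferentiableOn ℂ g (ball 0 T))
    (hB : ∀ t ∈ ball (0 : ℂ) T, ‖g t‖ ≤ B) (h1 : g 1 = 0) : ‖g 0‖ ≤ 2 * B / T := by
  have hT0 : 0 < T := by linarith
  have hmaps : MapsTo g (ball 0 T) (closedBall (g 0) (2 * B)) := by
    intro t ht
    rw [mem_closedBall, dist_eq_norm]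
    calc ‖g t - g 0‖ ≤ ‖g t‖ + ‖g 0‖ := norm_sub_le _ _
      _ ≤ B + B := add_le_add (hB t ht) (hB 0 (mem_ball_self hT0))
      _ = 2 * B := by ring
  have h := Complex.dist_le_div_mul_dist_of_mapsTo_ball hg hmaps
    (show (1 : ℂ) ∈ ball (0 : ℂ) T by simpa using hT)
  rw [h1, dist_zero_left] at h
  simpa using h

/-- The contraction. -/
theorem contract (h0 : D0Stmt) (D : Dia C m) {q N : ℕ} (hq : q ≤ N)
    (hv : ∀ γ a, Van q (C.V a) (D.f γ a)) {T δ : ℝ}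
    (hT : 4 * C.M ^ (2 * m) * (2 * C.M) ^ N + 1 < T)
    (hδ1 : T * δ ≤ 1) (hδr : ∀ a, T * δ ≤ C.r a) (P : C.I → Set (Cm n)) (E : Set (Cm n))
    (hP : ∀ a, ∀ z ∈ C.W a, ∃ p ∈ P a, dist z p < δ)
    (hE : ∀ v : Cm n, ‖v‖ ≤ 1 → ∃ e ∈ E, dist v e < δ)
    (hz : ∀ γ a, ∀ p ∈ P a, ∀ e ∈ E, Lead q (D.f γ a) p e = 0) {B : ℝ} (hB0 : 0 ≤ B)
    (hB : ∀ γ a, ∀ z ∈ C.W a, ∀ v : Cm n, ‖v‖ ≤ 1 → ‖Lead q (D.f γ a) z v‖ ≤ B) :
    ∀ γ a, ∀ z ∈ C.W a, ∀ v : Cm n, ‖v‖ ≤ 1 → ‖Lead q (D.f γ a) z v‖ ≤ B / 2 := by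
  intro γ a z hzW v hv1
  have hM := C.M_one
  have hM0 : 0 < C.M := by linarith
  have h2M : 0 < 2 * C.M := by linarith
  have hT1 : 1 < T := by
    have : 0 ≤ 4 * C.M ^ (2 * m) * (2 * C.M) ^ N := by positivity
    linarith
  have hT0 : 0 < T := by linarith
  obtain ⟨p, hp, hzp⟩ := hP a z hzW
  obtain ⟨e, he, hve⟩ := hE v hv1
  set B' : ℝ := C.M ^ (2 * m) * ((2 * C.M) ^ q * B) with hB'
  -- bound on `V a`
  have hVb : ∀ y ∈ C.V a, ∀ u : Cm n, ‖u‖ ≤ 2 → ‖Lead q (D.f γ a) y u‖ ≤ B' := by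
    intro y hy u hu
    obtain ⟨k, -, b, z', hz', h⟩ := trans_bound h0 D hv a y hy
    obtain ⟨u', hu', h'⟩ := h u
    refine (h' γ).trans (mul_le_mul_of_nonneg_left ?_ (pow_nonneg hM0.le _))
    refine homog_bound h0 (isOpen_V C b) (D.holo _ b) (hv _ b) (W_sub_V C b hz')
      (hB _ b z' hz') h2M (hu'.trans ?_)
    nlinarith
  set y : ℂ → Cm n × Cm n := fun t => (z + t • (p - z), v + t • (e - v)) with hy
  have hyd : Differentiable ℂ y := by
    intro t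
    exact ((differentiableAt_const _).add (differentiableAt_id.smul_const _)).prodMk
      ((differentiableAt_const _).add (differentiableAt_id.smul_const _))
  have hy1 : ∀ t ∈ ball (0 : ℂ) T, (y t).1 ∈ C.V a := by
    intro t ht
    have htT : ‖t‖ < T := by simpa using ht
    have hr := C.r_pos a
    have h1 : ‖t • (p - z)‖ ≤ T * δ := by
      rw [norm_smul]
      refine mul_le_mul htT.le ?_ (norm_nonneg _) hT0.le
      rw [← dist_eq_norm, dist_comm]; exact hzp.le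
    have h2 : dist z (C.c a) < C.r a := hzW
    show dist (z + t • (p - z)) (C.c a) < 3 * C.r a
    calc dist (z + t • (p - z)) (C.c a) ≤ dist (z + t • (p - z)) z + dist z (C.c a) :=
          dist_triangle _ _ _
      _ = ‖t • (p - z)‖ + dist z (C.c a) := by rw [dist_eq_norm, add_sub_cancel_left]
      _ < C.r a + C.r a + C.r a := by linarith [hδr a]
      _ = 3 * C.r a := by ring
  have hy2 : ∀ t ∈ ball (0 : ℂ) T, ‖(y t).2‖ ≤ 2 := by
    intro t ht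
    have htT : ‖t‖ < T := by simpa using ht
    have h1 : ‖t • (e - v)‖ ≤ T * δ := by
      rw [norm_smul]
      refine mul_le_mul htT.le ?_ (norm_nonneg _) hT0.le
      rw [← dist_eq_norm, dist_comm]; exact hve.le
    calc ‖v + t • (e - v)‖ ≤ ‖v‖ + ‖t • (e - v)‖ := norm_add_le _ _
      _ ≤ 1 + 1 := add_le_add hv1 (h1.trans hδ1)
      _ = 2 := by norm_num
  have hg : DifferentiableOn ℂ (fun t => Lead q (D.f γ a) (y t).1 (y t).2) (ball 0 T) := by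
    have := h0.holo (isOpen_V C a) (D.holo γ a) (hv γ a)
    exact this.comp hyd.differentiableOn fun t ht => ⟨hy1 t ht, mem_univ _⟩
  have h1 : Lead q (D.f γ a) (y 1).1 (y 1).2 = 0 := by
    have : y 1 = (p, e) := by simp [hy]
    rw [this]; exact hz γ a p hp e he
  have h := schwarz hT1 hg (fun t ht => hVb _ (hy1 t ht) _ (hy2 t ht)) h1
  have hy0 : y 0 = (z, v) := by simp [hy]
  simp only [hy0] at h
  refine h.trans ?_
  rw [div_le_iff₀ hT0]
  have hpow : (2 * C.M) ^ q ≤ (2 * C.M) ^ N := pow_le_pow_right₀ (by linarith) hq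
  have h3 : C.M ^ (2 * m) * ((2 * C.M) ^ q * B) ≤ C.M ^ (2 * m) * ((2 * C.M) ^ N * B) :=
    mul_le_mul_of_nonneg_left (mul_le_mul_of_nonneg_right hpow hB0) (pow_nonneg hM0.le _)
  have h4 : (4 * C.M ^ (2 * m) * (2 * C.M) ^ N) * B ≤ T * B :=
    mul_le_mul_of_nonneg_right (by linarith) hB0
  rw [hB']
  nlinarith

/-- the constant of the a priori bound -/
def cst (C : Coc n Γ) (q : ℕ) : ℝ := ∑ b, 1 / (2 * C.r b) ^ q

theorem cst_nonneg (C : Coc n Γ) (q : ℕ) : 0 ≤ cst C q :=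
  Finset.sum_nonneg fun b _ => by have := C.r_pos b; positivity

theorem le_cst (C : Coc n Γ) (q : ℕ) (b : C.I) : 1 / (2 * C.r b) ^ q ≤ cst C q :=
  Finset.single_le_sum (f := fun b => 1 / (2 * C.r b) ^ q)
    (fun b _ => by have := C.r_pos b; positivity) (Finset.mem_univ b)

theorem bound_W (h0 : D0Stmt) (D : Dia C m) {q : ℕ} (hv : ∀ γ a, Van q (C.V a) (D.f γ a))
    (γ : Γ) (b : C.I) (z : Cm n) (hz : z ∈ C.W b) (v : Cm n) :
    ‖Lead q (D.f γ b) z v‖ ≤ D.R γ * cst C q * ‖v‖ ^ q := by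
  have hr := C.r_pos b
  have hsub : ball z (2 * C.r b) ⊆ C.V b := by
    intro w hw
    have h1 : dist w z < 2 * C.r b := hw
    have h2 : dist z (C.c b) < C.r b := hz
    show dist w (C.c b) < 3 * C.r b
    linarith [dist_triangle w z (C.c b)]
  refine (h0.bound (isOpen_V C b) (D.holo γ b) (hv γ b) z (2 * C.r b) (D.R γ) (by linarith) hsub
    (fun w hw => D.bound γ b z (W_sub_V C b hz) w (hsub hw)) v).trans ?_
  refine mul_le_mul_of_nonneg_right ?_ (pow_nonneg (norm_nonneg _) _)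
  rw [div_eq_mul_one_div]
  exact mul_le_mul_of_nonneg_left (le_cst C q b) (D.R_nonneg γ)

theorem R_bdd (D : Dia C m) : ∃ B : ℝ, 0 ≤ B ∧ ∀ γ, D.R γ ≤ B := by
  refine ⟨Real.sqrt (∑' γ, D.R γ ^ 2), Real.sqrt_nonneg _, fun γ => ?_⟩
  apply Real.le_sqrt_of_sq_le
  exact D.R_sum.le_tsum γ fun _ _ => sq_nonneg _

/-- All leading terms of order `q ≤ N` vanish if they vanish at the points of the net. -/
theorem lead_zero (h0 : D0Stmt) (D : Dia C m) {q N : ℕ} (hq : q ≤ N)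
    (hv : ∀ γ a, Van q (C.V a) (D.f γ a)) {T δ : ℝ}
    (hT : 4 * C.M ^ (2 * m) * (2 * C.M) ^ N + 1 < T)
    (hδ1 : T * δ ≤ 1) (hδr : ∀ a, T * δ ≤ C.r a) (P : C.I → Set (Cm n)) (E : Set (Cm n))
    (hP : ∀ a, ∀ z ∈ C.W a, ∃ p ∈ P a, dist z p < δ)
    (hE : ∀ v : Cm n, ‖v‖ ≤ 1 → ∃ e ∈ E, dist v e < δ)
    (hz : ∀ γ a, ∀ p ∈ P a, ∀ e ∈ E, Lead q (D.f γ a) p e = 0) :
    ∀ γ a, ∀ z ∈ C.V a, ∀ v : Cm n, Lead q (D.f γ a) z v = 0 := by
  obtain ⟨B, hB0, hB⟩ := R_bdd D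
  have hc := cst_nonneg C q
  have hit : ∀ j : ℕ, ∀ γ a, ∀ z ∈ C.W a, ∀ v : Cm n, ‖v‖ ≤ 1 →
      ‖Lead q (D.f γ a) z v‖ ≤ (B * cst C q) / 2 ^ j := by
    intro j
    induction j with
    | zero =>
      intro γ a z hz' v hv1
      refine (bound_W h0 D hv γ a z hz' v).trans ?_
      rw [pow_zero, div_one]
      have h1 : ‖v‖ ^ q ≤ 1 := pow_le_one₀ (norm_nonneg _) hv1
      have h2 : D.R γ * cst C q ≤ B * cst C q := mul_le_mul_of_nonneg_right (hB γ) hc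
      have h3 : 0 ≤ D.R γ * cst C q := mul_nonneg (D.R_nonneg γ) hc
      nlinarith
    | succ j ih =>
      have := contract h0 D hq hv hT hδ1 hδr P E hP hE hz
        (div_nonneg (mul_nonneg hB0 hc) (by positivity)) ih
      intro γ a z hz' v hv1
      refine (this γ a z hz' v hv1).trans (le_of_eq ?_)
      rw [pow_succ, div_div]
  have hW : ∀ γ a, ∀ z ∈ C.W a, ∀ v : Cm n, ‖v‖ ≤ 1 → ‖Lead q (D.f γ a) z v‖ ≤ 0 := by
    intro γ a z hz' v hv1
    have hlim : Tendsto (fun j : ℕ => (B * cst C q) / 2 ^ j) atTop (𝓝 0) := by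
      have := (tendsto_pow_atTop_nhds_zero_of_lt_one (r := (1 / 2 : ℝ)) (by norm_num)
        (by norm_num)).const_mul (B * cst C q)
      simpa [div_eq_mul_inv] using this
    exact ge_of_tendsto' hlim fun j => hit j γ a z hz' v hv1
  intro γ a z hz' v
  obtain ⟨k, -, b, z', hz'', h⟩ := trans_bound h0 D hv a z hz'
  obtain ⟨v', -, h'⟩ := h v
  have h2 : ‖Lead q (D.f (γ * k) b) z' v'‖ ≤ (‖v'‖ + 1) ^ q * 0 :=
    homog_bound h0 (isOpen_V C b) (D.holo _ b) (hv _ b) (W_sub_V C b hz'')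
      (hW _ b z' hz'') (by positivity) (by linarith)
  rw [mul_zero] at h2
  have h3 : ‖Lead q (D.f (γ * k) b) z' v'‖ = 0 := le_antisymm h2 (norm_nonneg _)
  have h4 := h' γ
  rw [h3, mul_zero] at h4
  exact norm_le_zero_iff.1 h4

theorem van_zero (D : Dia C m) (γ : Γ) (a : C.I) : Van 0 (C.V a) (D.f γ a) := by
  intro z hz v
  simp only [pow_zero]
  rw [isBigO_one_iff]
  refine ⟨D.R γ, ?_⟩
  rw [eventually_map]
  have hc : ContinuousAt (fun t : ℂ => z + t • v) 0 := by fun_prop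
  have hmem : C.V a ∈ 𝓝 ((fun t : ℂ => z + t • v) 0) := by
    simpa using (isOpen_V C a).mem_nhds hz
  filter_upwards [hc.preimage_mem_nhds hmem] with t ht
  exact D.bound γ a z hz _ ht

theorem van_le (h0 : D0Stmt) (D : Dia C m) {N : ℕ} {T δ : ℝ}
    (hT : 4 * C.M ^ (2 * m) * (2 * C.M) ^ N + 1 < T)
    (hδ1 : T * δ ≤ 1) (hδr : ∀ a, T * δ ≤ C.r a) (P : C.I → Set (Cm n)) (E : Set (Cm n))
    (hPV : ∀ a, P a ⊆ C.V a)
    (hP : ∀ a, ∀ z ∈ C.W a, ∃ p ∈ P a, dist z p < δ)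
    (hE : ∀ v : Cm n, ‖v‖ ≤ 1 → ∃ e ∈ E, dist v e < δ)
    (hz : ∀ k < N, ∀ γ a, ∀ p ∈ P a, ∀ e ∈ E,
      iteratedDeriv k (fun t : ℂ => D.f γ a p (p + t • e)) 0 = 0) :
    ∀ q ≤ N, ∀ γ a, Van q (C.V a) (D.f γ a) := by
  intro q
  induction q with
  | zero => intro _ γ a; exact van_zero D γ a
  | succ q ih =>
    intro hq γ a
    have hv := ih (by omega)
    refine h0.succ (isOpen_V C a) (D.holo γ a) (hv γ a) ?_
    refine lead_zero h0 D (by omega : q ≤ N) hv hT hδ1 hδr P E hP hE ?_ γ a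
    intro γ a p hp e he
    have := h0.coef (isOpen_V C a) (D.holo γ a) (hv γ a) p (hPV a hp) e
    rw [hz q (by omega) γ a p hp e he] at this
    rcases mul_eq_zero.1 this.symm with h | h
    · exact absurd h (by exact_mod_cast q.factorial_ne_zero)
    · exact h

/-- The leading terms of order `q` form a section over the covering. -/
def mkTF (h0 : D0Stmt) (D : Dia C m) {q : ℕ} (hv : ∀ γ a, Van q (C.V a) (D.f γ a)) :
    TF C q (2 * m) where
  τ γ a z v := Lead q (D.f γ a) z v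
  holo γ a := h0.holo (isOpen_V C a) (D.holo γ a) (hv γ a)
  homog γ a z hz t v := h0.homog (isOpen_V C a) (D.holo γ a) (hv γ a) z hz t v
  change γ a b z hz hzV hTV v := lead_change h0 D hv γ a b z hz hzV hTV v

theorem mkTF_good (h0 : D0Stmt) (D : Dia C m) {q : ℕ} (hv : ∀ γ a, Van q (C.V a) (D.f γ a))
    (hne : ∃ γ a, ∃ z ∈ C.V a, ∃ v, Lead q (D.f γ a) z v ≠ 0) : (mkTF h0 D hv).Good := by
  have hM := C.M_one
  have hM0 : 0 < C.M := by linarith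
  have hc := cst_nonneg C q
  set A : ℝ := C.M ^ (2 * m) * (cst C q * C.M ^ q) with hA
  have hA0 : 0 ≤ A := by positivity
  refine ⟨⟨fun γ => A * ∑ k ∈ C.N, D.R (γ * k), fun γ => mul_nonneg hA0
    (Finset.sum_nonneg fun _ _ => D.R_nonneg _), ?_, ?_⟩, hne⟩
  · have h1 : Summable fun γ => A ^ 2 * ((C.N.card : ℝ) * ∑ k ∈ C.N, D.R (γ * k) ^ 2) := by
      apply Summable.mul_left
      apply Summable.mul_left
      apply summable_sum
      intro k _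
      exact (Equiv.mulRight k).summable_iff.2 D.R_sum
    refine Summable.of_nonneg_of_le (fun γ => sq_nonneg _) (fun γ => ?_) h1
    rw [mul_pow]
    exact mul_le_mul_of_nonneg_left (sq_sum_le_card_mul_sum_sq) (sq_nonneg _)
  · intro γ a z hz v
    show ‖Lead q (D.f γ a) z v‖ ≤ _
    obtain ⟨k, hk, b, z', hz', h⟩ := trans_bound h0 D hv a z hz
    obtain ⟨v', hv', h'⟩ := h v
    refine (h' γ).trans ?_
    have h1 : ‖Lead q (D.f (γ * k) b) z' v'‖ ≤ D.R (γ * k) * cst C q * (C.M * ‖v‖) ^ q :=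
      (bound_W h0 D hv _ b z' hz' v').trans (mul_le_mul_of_nonneg_left
        (pow_le_pow_left₀ (norm_nonneg _) hv' q) (mul_nonneg (D.R_nonneg _) hc))
    have h2 : D.R (γ * k) ≤ ∑ k ∈ C.N, D.R (γ * k) :=
      Finset.single_le_sum (f := fun k => D.R (γ * k)) (fun _ _ => D.R_nonneg _) hk
    calc C.M ^ (2 * m) * ‖Lead q (D.f (γ * k) b) z' v'‖
        ≤ C.M ^ (2 * m) * (D.R (γ * k) * cst C q * (C.M * ‖v‖) ^ q) :=
          mul_le_mul_of_nonneg_left h1 (pow_nonneg hM0.le _)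
      _ = A * D.R (γ * k) * ‖v‖ ^ q := by rw [hA, mul_pow]; ring
      _ ≤ A * (∑ k ∈ C.N, D.R (γ * k)) * ‖v‖ ^ q :=
          mul_le_mul_of_nonneg_right (mul_le_mul_of_nonneg_left h2 hA0)
            (pow_nonneg (norm_nonneg _) _)

end Vale.Agent.P284.H639
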