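import Vale.Agent.P284.H639.D3

/-! # P284, block D3: assembly (helper639) -/

open scoped Manifold ContDiff Topology ComplexConjugate ComplexOrder
open Filter Set Metric Asymptotics

noncomputable section

namespace Vale.Agent.P284.H639

open Vale.Agent.P272.K Vale.Agent.P284.H248 Vale.Agent.P272.KOD Vale.Agent.P284.H894

variable {n : ℕ} {Γ : Type} [Group Γ] {C : Coc n Γ} {m : ℕ}

/-- identity theorem on a convex open set, along lines -/
theorem eqOn_zero_of_eventually {V : Set (Cm n)} (hV : IsOpen V) (hc : Convex ℝ V)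
    {f : Cm n → ℂ} (hf : DifferentiableOn ℂ f V) {y : Cm n} (hy : y ∈ V)
    (h : ∀ᶠ w in 𝓝 y, f w = 0) : ∀ w ∈ V, f w = 0 := by
  intro w hw
  set l : ℂ → Cm n := fun t => y + t • (w - y) with hl
  have hld : Differentiable ℂ l := fun t =>
    (differentiableAt_const _).add (differentiableAt_id.smul_const _)
  set U : Set ℂ := l ⁻¹' V with hU
  have hUo : IsOpen U := hV.preimage hld.continuous
  have hUc : Convex ℝ U := by
    intro s hs t ht a b ha hb hab
    show y + (a • s + b • t) • (w - y) ∈ V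
    have : y + (a • s + b • t) • (w - y) = a • l s + b • l t := by
      have hb' : b = 1 - a := by linarith
      subst hb'
      ext i
      simp only [hl, Pi.add_apply, Pi.smul_apply, Pi.sub_apply, Complex.real_smul, smul_eq_mul,
        Complex.ofReal_sub, Complex.ofReal_one]
      ring
    rw [this]
    exact hc hs ht ha hb hab
  have hg : DifferentiableOn ℂ (fun t => f (l t)) U :=
    hf.comp hld.differentiableOn fun t ht => ht
  have h0 : (0 : ℂ) ∈ U := by simp [hU, hl, hy]
  have h1 : (1 : ℂ) ∈ U := by simp [hU, hl, hw]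
  have hev : (fun t => f (l t)) =ᶠ[𝓝 0] 0 := by
    have hl0 : l 0 = y := by simp [hl]
    have := hld.continuous.continuousAt (x := (0 : ℂ))
    rw [ContinuousAt, hl0] at this
    exact this.eventually h
  have := (hg.analyticOnNhd hUo).eqOn_zero_of_preconnected_of_eventuallyEq_zero
    hUc.isPreconnected h0 hev h1
  simpa [hl] using this

/-- **D3** -/
theorem d3 : D3Stmt := by
  intro hC h0 h1 h2 n Γ _ _ C m s ρ hs hp N
  classical
  have hM := C.M_one
  have hM0 : 0 < C.M := by linarith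
  -- nets
  set T : ℝ := 4 * C.M ^ (2 * m) * (2 * C.M) ^ N + 2 with hT
  have hT0 : 0 < T := by positivity
  obtain ⟨r0, hr0, hr1, hrr⟩ : ∃ r0 : ℝ, 0 < r0 ∧ r0 ≤ 1 ∧ ∀ a, r0 ≤ C.r a := by
    obtain ⟨a0, -, ha0⟩ := Finset.exists_min_image Finset.univ C.r Finset.univ_nonempty
    refine ⟨min (C.r a0) 1, lt_min (C.r_pos a0) one_pos, min_le_right _ _, fun a =>
      (min_le_left _ _).trans (ha0 a (Finset.mem_univ a))⟩
  set δ : ℝ := r0 / T with hδ
  have hδ0 : 0 < δ := div_pos hr0 hT0
  have hTδ : T * δ = r0 := by rw [hδ]; field_simp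
  have hnet : ∀ (c : Cm n) (r : ℝ), ∃ P : Set (Cm n), P ⊆ closedBall c r ∧ P.Finite ∧
      ∀ z ∈ closedBall c r, ∃ p ∈ P, dist z p < δ := by
    intro c r
    obtain ⟨P, hP, hPf, hPc⟩ := (isCompact_closedBall c r).finite_cover_balls hδ0
    refine ⟨P, hP, hPf, fun z hz => ?_⟩
    have := hPc hz
    simp only [mem_iUnion, mem_ball, exists_prop] at this
    exact this
  choose P0 hP0s hP0f hP0c using hnet
  set P : C.I → Set (Cm n) := fun a => P0 (C.c a) (C.r a) with hPdef
  set E : Set (Cm n) := P0 0 1 with hEdef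
  have hPV : ∀ a, P a ⊆ C.V a := by
    intro a z hz
    have h := hP0s _ _ hz
    have hr := C.r_pos a
    rw [mem_closedBall] at h
    show dist z (C.c a) < 3 * C.r a
    linarith
  have hPc : ∀ a, ∀ z ∈ C.W a, ∃ p ∈ P a, dist z p < δ := fun a z hz =>
    hP0c _ _ z (ball_subset_closedBall hz)
  have hEc : ∀ v : Cm n, ‖v‖ ≤ 1 → ∃ e ∈ E, dist v e < δ := fun v hv =>
    hP0c _ _ v (by simpa using hv)
  -- the conditions
  set K : Set (C.I × Cm n × Cm n × ℕ) := {x | x.2.1 ∈ P x.1 ∧ x.2.2.1 ∈ E ∧ x.2.2.2 < N} with hK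
  have hKf : K.Finite := by
    have hsub : K ⊆ ((univ : Set C.I) ×ˢ ((⋃ a, P a) ×ˢ (E ×ˢ Iio N))) := by
      rintro ⟨a, p, e, k⟩ ⟨h1, h2, h3⟩
      exact ⟨mem_univ _, mem_iUnion.2 ⟨a, h1⟩, h2, h3⟩
    refine Set.Finite.subset ?_ hsub
    exact finite_univ.prod ((finite_iUnion fun a => hP0f _ _).prod
      ((hP0f _ _).prod (finite_Iio N)))
  have : Fintype K := hKf.fintype
  obtain ⟨S, c, hcS, hcne, hcsum, hc0⟩ := hC Γ K
    (fun g κ u => s.F u κ.1.1 κ.1.2.1 *
      iteratedDeriv κ.1.2.2.2 (fun t : ℂ => s.F (g⁻¹ * u) κ.1.1 (κ.1.2.1 + t • κ.1.2.2.1)) 0)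
    (fun g κ => h2 n Γ C m s ρ hs κ.1.1 κ.1.2.2.2 g κ.1.2.1 (hPV _ κ.2.1) κ.1.2.2.1)
  obtain ⟨σ, hσh, hσ1, hσ2, hσne, ⟨R, hR0, hRs, hRb⟩, hσd⟩ :=
    h1 n Γ C m s ρ hs hp S c hcS hcne hcsum
  -- the diagonal
  let D : Dia C m :=
    { f := fun γ a => σ γ a γ a
      holo := fun γ a => hσh γ a γ a
      change := by
        intro γ a b z hz hzV hTV
        have hO : C.O a b ∈ 𝓝 z := (C.O_open a b).mem_nhds hz
        have hVn : C.V a ∈ 𝓝 z := (isOpen_V C a).mem_nhds hzV
        have hTc : ContinuousAt (C.T a b) z := ((C.T_holo a b).differentiableAt hO).continuousAt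
        filter_upwards [hO, hVn, C.κ_loc a b z hz,
          hTc.preimage_mem_nhds ((isOpen_V C b).mem_nhds hTV)] with w hw hwV hwκ hwT
        rw [hσ1 γ a b γ a z w hz hzV hTV hwV, hσ2 (γ * C.κ a b z) b γ a b (C.T a b z) w hw hwV hwT hTV,
          hwκ]
        ring
      R := R
      R_nonneg := hR0
      R_sum := hRs
      bound := hRb }
  have hvan : ∀ q ≤ N, ∀ γ a, Van q (C.V a) (D.f γ a) := by
    refine van_le h0 D (T := T) (δ := δ) (by linarith) (by rw [hTδ]; exact hr1)
      (fun a => by rw [hTδ]; exact hrr a) P E hPV hPc hEc ?_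
    intro k hk γ a p hp e he
    show iteratedDeriv k (fun t : ℂ => σ γ a γ a p (p + t • e)) 0 = 0
    rw [hσd γ a k p (hPV a hp) e]
    exact hc0 ⟨(a, p, e, k), hp, he, hk⟩ γ
  -- some order is not exceeded
  have hex : ∃ q, ¬ ∀ γ a, Van q (C.V a) (D.f γ a) := by
    by_contra hcon
    push Not at hcon
    obtain ⟨γ, a, γ', b, z, hz, w, hw, hne⟩ := hσne
    have hdiag : ∀ z ∈ C.V a, ∀ w ∈ C.V a, σ γ a γ a z w = 0 :=
      h0.zero (hσh γ a γ a) fun q => hcon q γ a
    have hall := C.conn (fun γ' b => ∀ z ∈ C.V a, ∀ w ∈ C.V b, σ γ a γ' b z w = 0) ?_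
      γ a γ' b hdiag
    · exact hne (hall z hz w hw)
    · intro γ' b d y hy hyV hTy hQ z hz
      have hO : C.O b d ∈ 𝓝 y := (C.O_open b d).mem_nhds hy
      have hy' : C.T b d y ∈ C.O d b := C.T_mem b d y hy
      have hO' : C.O d b ∈ 𝓝 (C.T b d y) := (C.O_open d b).mem_nhds hy'
      have hTc : ContinuousAt (C.T b d) y := ((C.T_holo b d).differentiableAt hO).continuousAt
      have hTc' : ContinuousAt (C.T d b) (C.T b d y) :=
        ((C.T_holo d b).differentiableAt hO').continuousAt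
      have hyy : C.T d b (C.T b d y) = y := by
        have h3 := C.trans_mem b d b y hy hy'
        have h4 := C.trans_T b d b y hy hy'
        rw [← h4]
        exact C.T_self b y (by
          have := C.O_sub b d hy
          rw [C.O_self b]; exact this)
      have hTT : ∀ᶠ w in 𝓝 (C.T b d y), C.T d b w ∈ C.O b d ∧ C.T d b w ∈ C.V b ∧
          C.κ b d (C.T d b w) = C.κ b d y ∧ C.T b d (C.T d b w) = w ∧ w ∈ C.V d := by
        have e1 : Tendsto (C.T d b) (𝓝 (C.T b d y)) (𝓝 y) := by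
          have := hTc'; rwa [ContinuousAt, hyy] at this
        filter_upwards [hO', e1.eventually hO, e1.eventually ((isOpen_V C b).mem_nhds hyV),
          e1.eventually (C.κ_loc b d y hy), (isOpen_V C d).mem_nhds hTy] with w w1 w2 w3 w4 w5
        refine ⟨w2, w3, w4, ?_, w5⟩
        have h4 := C.trans_T d b d w w1 w2
        rw [← h4]
        exact C.T_self d w (by
          have := C.O_sub d b w1
          rw [C.O_self d]; exact this)
      have hev : ∀ᶠ w in 𝓝 (C.T b d y), σ γ a (γ' * C.κ b d y) d z w = 0 := by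
        filter_upwards [hTT] with w ⟨w1, w2, w3, w4, w5⟩
        have h5 := hσ2 γ a γ' b d z (C.T d b w) w1 w2 (by rw [w4]; exact w5) hz
        rw [hQ z hz _ w2, w3, w4] at h5
        rcases mul_eq_zero.1 h5.symm with h6 | h6
        · exact absurd h6 (pow_ne_zero _ (C.g_ne b d _ w1))
        · exact h6
      have hhol : DifferentiableOn ℂ (fun w => σ γ a (γ' * C.κ b d y) d z w) (C.V d) := by
        have h7 := hσh γ a (γ' * C.κ b d y) d
        have h8 : DifferentiableOn ℂ (fun w : Cm n => ((z, w) : Cm n × Cm n)) (C.V d) :=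
          (differentiableOn_const _).prodMk differentiableOn_id
        exact h7.comp h8 fun w hw => ⟨hz, hw⟩
      exact eqOn_zero_of_eventually (isOpen_V C d) (convex_ball _ _) hhol hTy hev
  have hq1 := Nat.find_spec hex
  have hq2 := @Nat.find_min _ _ hex
  set q1 := Nat.find hex with hq1def
  have hNq : N < q1 := by
    by_contra h
    exact hq1 (hvan q1 (by omega))
  obtain ⟨q, hq⟩ : ∃ q, q1 = q + 1 := ⟨q1 - 1, by omega⟩
  have hv : ∀ γ a, Van q (C.V a) (D.f γ a) := by
    have := hq2 (m := q) (by omega)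
    push Not at this
    exact this
  refine ⟨q, by omega, mkTF h0 D hv, mkTF_good h0 D hv ?_⟩
  by_contra hcon
  push Not at hcon
  refine hq1 fun γ a => ?_
  rw [hq]
  exact h0.succ (isOpen_V C a) (D.holo γ a) (hv γ a) fun z hz v => hcon γ a z hz v

end Vale.Agent.P284.H639
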