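import Vale.Agent.P284.H639.D3Main
import Vale.Agent.P284.H894.Spec2
import Mathlib.LinearAlgebra.Dimension.Finite

/-! # P284, block D3': leading term along the compact diagonal (helper639) -/

open scoped Manifold ContDiff Topology ComplexConjugate ComplexOrder
open Filter Set Metric Asymptotics

noncomputable section

namespace Vale.Agent.P284.H639

open Vale.Agent.P272.K Vale.Agent.P284.H248 Vale.Agent.P272.KOD Vale.Agent.P284.H894

variable {n : ℕ} {Γ : Type} [Group Γ]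

/-- A section over the pieces of the compact diagonal. -/
structure Dib (C : Coc n Γ) (m : ℕ) where
  f : C.I → Cm n → Cm n → ℂ
  holo : ∀ a, DifferentiableOn ℂ (fun p : Cm n × Cm n => f a p.1 p.2) (C.V a ×ˢ C.V a)
  change : ∀ a b z, z ∈ C.O a b → z ∈ C.V a → C.T a b z ∈ C.V b →
    ∀ᶠ w in 𝓝 z, f a z w =
      C.g a b z ^ m * C.g a b w ^ m * f b (C.T a b z) (C.T a b w)
  R : ℝ
  R_nonneg : 0 ≤ R
  bound : ∀ a, ∀ z ∈ C.V a, ∀ w ∈ C.V a, ‖f a z w‖ ≤ R

variable {C : Coc n Γ} {m : ℕ}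

namespace Dib

theorem lead_change (h0 : D0Stmt) (D : Dib C m) {q : ℕ} (hv : ∀ a, Van q (C.V a) (D.f a))
    (a b : C.I) (z : Cm n) (hz : z ∈ C.O a b) (hzV : z ∈ C.V a)
    (hTV : C.T a b z ∈ C.V b) (v : Cm n) :
    Lead q (D.f a) z v = C.g a b z ^ (2 * m) *
      Lead q (D.f b) (C.T a b z) (fderiv ℂ (C.T a b) z v) := by
  have hO : C.O a b ∈ 𝓝 z := (C.O_open a b).mem_nhds hz
  have := h0.change (isOpen_V C a) (isOpen_V C b) (D.holo a) (hv a)
    (D.holo b) (hv b) (C.T a b) (fun w => C.g a b w ^ m) z hzV hTV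
    ((C.T_holo a b).differentiableAt hO)
    (((C.g_holo a b).differentiableAt hO).continuousAt.pow m)
    (D.change a b z hz hzV hTV) v
  rw [this]
  ring

theorem trans_bound (h0 : D0Stmt) (D : Dib C m) {q : ℕ} (hv : ∀ a, Van q (C.V a) (D.f a))
    (a : C.I) (z : Cm n) (hz : z ∈ C.V a) :
    ∃ b, ∃ z' ∈ C.W b, ∀ v : Cm n, ∃ v' : Cm n, ‖v'‖ ≤ C.M * ‖v‖ ∧
      ‖Lead q (D.f a) z v‖ ≤ C.M ^ (2 * m) * ‖Lead q (D.f b) z' v'‖ := by
  obtain ⟨b, hzb, hTb⟩ := C.cover a z (V_sub_Ω C a hz)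
  have hTV : C.T a b z ∈ ball (C.c b) (3 * C.r b) := W_sub_V C b hTb
  refine ⟨b, C.T a b z, hTb, fun v => ⟨fderiv ℂ (C.T a b) z v, ?_, ?_⟩⟩
  · exact (ContinuousLinearMap.le_opNorm _ _).trans
      (mul_le_mul_of_nonneg_right (C.T_le a b z hzb hz hTV) (norm_nonneg _))
  · rw [lead_change h0 D hv a b z hzb hz hTV v, norm_mul, norm_pow]
    exact mul_le_mul_of_nonneg_right
      (pow_le_pow_left₀ (norm_nonneg _) (C.g_le a b z hzb hz hTV) _) (norm_nonneg _)

/-- The contraction. -/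
theorem contract (h0 : D0Stmt) (D : Dib C m) {q N : ℕ} (hq : q ≤ N)
    (hv : ∀ a, Van q (C.V a) (D.f a)) {T δ : ℝ}
    (hT : 4 * C.M ^ (2 * m) * (2 * C.M) ^ N + 1 < T)
    (hδ1 : T * δ ≤ 1) (hδr : ∀ a, T * δ ≤ C.r a) (P : C.I → Set (Cm n)) (E : Set (Cm n))
    (hP : ∀ a, ∀ z ∈ C.W a, ∃ p ∈ P a, dist z p < δ)
    (hE : ∀ v : Cm n, ‖v‖ ≤ 1 → ∃ e ∈ E, dist v e < δ)
    (hz : ∀ a, ∀ p ∈ P a, ∀ e ∈ E, Lead q (D.f a) p e = 0) {B : ℝ} (hB0 : 0 ≤ B)
    (hB : ∀ a, ∀ z ∈ C.W a, ∀ v : Cm n, ‖v‖ ≤ 1 → ‖Lead q (D.f a) z v‖ ≤ B) :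
    ∀ a, ∀ z ∈ C.W a, ∀ v : Cm n, ‖v‖ ≤ 1 → ‖Lead q (D.f a) z v‖ ≤ B / 2 := by
  intro a z hzW v hv1
  have hM := C.M_one
  have hM0 : 0 < C.M := by linarith
  have h2M : 0 < 2 * C.M := by linarith
  have hT1 : 1 < T := by
    have : 0 ≤ 4 * C.M ^ (2 * m) * (2 * C.M) ^ N := by positivity
    linarith
  have hT0 : 0 < T := by linarith
  obtain ⟨p, hp, hzp⟩ := hP a z hzW
  obtain ⟨e, he, hve⟩ := hE v hv1
  set B' : ℝ := C.M ^ (2 * m) * ((2 * C.M) ^ q * B) with hB'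
  -- bound on `V a`
  have hVb : ∀ y ∈ C.V a, ∀ u : Cm n, ‖u‖ ≤ 2 → ‖Lead q (D.f a) y u‖ ≤ B' := by
    intro y hy u hu
    obtain ⟨b, z', hz', h⟩ := trans_bound h0 D hv a y hy
    obtain ⟨u', hu', h'⟩ := h u
    refine h'.trans (mul_le_mul_of_nonneg_left ?_ (pow_nonneg hM0.le _))
    refine homog_bound h0 (isOpen_V C b) (D.holo b) (hv b) (W_sub_V C b hz')
      (hB b z' hz') h2M (hu'.trans ?_)
    nlinarith
  set y : ℂ → Cm n × Cm n := fun t => (z + t • (p - z), v + t • (e - v)) with hy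
  have hyd : Differentiable ℂ y := by
    intro t
    exact ((differentiableAt_const _).add (differentiableAt_id.smul_const _)).prodMk
      ((differentiableAt_const _).add (differentiableAt_id.smul_const _))
  have hy1 : ∀ t ∈ ball (0 : ℂ) T, (y t).1 ∈ C.V a := by
    intro t ht
    have htT : ‖t‖ < T := by simpa using ht
    have hr := C.r_pos a
    have h1 : ‖t • (p - z)‖ ≤ T * δ := by
      rw [norm_smul]
      refine mul_le_mul htT.le ?_ (norm_nonneg _) hT0.le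
      rw [← dist_eq_norm, dist_comm]; exact hzp.le
    have h2 : dist z (C.c a) < C.r a := hzW
    show dist (z + t • (p - z)) (C.c a) < 3 * C.r a
    calc dist (z + t • (p - z)) (C.c a) ≤ dist (z + t • (p - z)) z + dist z (C.c a) :=
          dist_triangle _ _ _
      _ = ‖t • (p - z)‖ + dist z (C.c a) := by rw [dist_eq_norm, add_sub_cancel_left]
      _ < C.r a + C.r a + C.r a := by linarith [hδr a]
      _ = 3 * C.r a := by ring
  have hy2 : ∀ t ∈ ball (0 : ℂ) T, ‖(y t).2‖ ≤ 2 := by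
    intro t ht
    have htT : ‖t‖ < T := by simpa using ht
    have h1 : ‖t • (e - v)‖ ≤ T * δ := by
      rw [norm_smul]
      refine mul_le_mul htT.le ?_ (norm_nonneg _) hT0.le
      rw [← dist_eq_norm, dist_comm]; exact hve.le
    calc ‖v + t • (e - v)‖ ≤ ‖v‖ + ‖t • (e - v)‖ := norm_add_le _ _
      _ ≤ 1 + 1 := add_le_add hv1 (h1.trans hδ1)
      _ = 2 := by norm_num
  have hg : DifferentiableOn ℂ (fun t => Lead q (D.f a) (y t).1 (y t).2) (ball 0 T) := by
    have := h0.holo (isOpen_V C a) (D.holo a) (hv a)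
    exact this.comp hyd.differentiableOn fun t ht => ⟨hy1 t ht, mem_univ _⟩
  have h1 : Lead q (D.f a) (y 1).1 (y 1).2 = 0 := by
    have : y 1 = (p, e) := by simp [hy]
    rw [this]; exact hz a p hp e he
  have h := schwarz hT1 hg (fun t ht => hVb _ (hy1 t ht) _ (hy2 t ht)) h1
  have hy0 : y 0 = (z, v) := by simp [hy]
  simp only [hy0] at h
  refine h.trans ?_
  rw [div_le_iff₀ hT0]
  have hpow : (2 * C.M) ^ q ≤ (2 * C.M) ^ N := pow_le_pow_right₀ (by linarith) hq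
  have h3 : C.M ^ (2 * m) * ((2 * C.M) ^ q * B) ≤ C.M ^ (2 * m) * ((2 * C.M) ^ N * B) :=
    mul_le_mul_of_nonneg_left (mul_le_mul_of_nonneg_right hpow hB0) (pow_nonneg hM0.le _)
  have h4 : (4 * C.M ^ (2 * m) * (2 * C.M) ^ N) * B ≤ T * B :=
    mul_le_mul_of_nonneg_right (by linarith) hB0
  rw [hB']
  nlinarith

theorem bound_W (h0 : D0Stmt) (D : Dib C m) {q : ℕ} (hv : ∀ a, Van q (C.V a) (D.f a))
    (b : C.I) (z : Cm n) (hz : z ∈ C.W b) (v : Cm n) :
    ‖Lead q (D.f b) z v‖ ≤ D.R * cst C q * ‖v‖ ^ q := by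
  have hr := C.r_pos b
  have hsub : ball z (2 * C.r b) ⊆ C.V b := by
    intro w hw
    have h1 : dist w z < 2 * C.r b := hw
    have h2 : dist z (C.c b) < C.r b := hz
    show dist w (C.c b) < 3 * C.r b
    linarith [dist_triangle w z (C.c b)]
  refine (h0.bound (isOpen_V C b) (D.holo b) (hv b) z (2 * C.r b) D.R (by linarith) hsub
    (fun w hw => D.bound b z (W_sub_V C b hz) w (hsub hw)) v).trans ?_
  refine mul_le_mul_of_nonneg_right ?_ (pow_nonneg (norm_nonneg _) _)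
  rw [div_eq_mul_one_div]
  exact mul_le_mul_of_nonneg_left (le_cst C q b) D.R_nonneg

/-- All leading terms of order `q ≤ N` vanish if they vanish at the points of the net. -/
theorem lead_zero (h0 : D0Stmt) (D : Dib C m) {q N : ℕ} (hq : q ≤ N)
    (hv : ∀ a, Van q (C.V a) (D.f a)) {T δ : ℝ}
    (hT : 4 * C.M ^ (2 * m) * (2 * C.M) ^ N + 1 < T)
    (hδ1 : T * δ ≤ 1) (hδr : ∀ a, T * δ ≤ C.r a) (P : C.I → Set (Cm n)) (E : Set (Cm n))
    (hP : ∀ a, ∀ z ∈ C.W a, ∃ p ∈ P a, dist z p < δ)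
    (hE : ∀ v : Cm n, ‖v‖ ≤ 1 → ∃ e ∈ E, dist v e < δ)
    (hz : ∀ a, ∀ p ∈ P a, ∀ e ∈ E, Lead q (D.f a) p e = 0) :
    ∀ a, ∀ z ∈ C.V a, ∀ v : Cm n, Lead q (D.f a) z v = 0 := by
  have hc := cst_nonneg C q
  have hB0 := D.R_nonneg
  have hit : ∀ j : ℕ, ∀ a, ∀ z ∈ C.W a, ∀ v : Cm n, ‖v‖ ≤ 1 →
      ‖Lead q (D.f a) z v‖ ≤ (D.R * cst C q) / 2 ^ j := by
    intro j
    induction j with
    | zero =>
      intro a z hz' v hv1
      refine (bound_W h0 D hv a z hz' v).trans ?_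
      rw [pow_zero, div_one]
      have h1 : ‖v‖ ^ q ≤ 1 := pow_le_one₀ (norm_nonneg _) hv1
      have h3 : 0 ≤ D.R * cst C q := mul_nonneg D.R_nonneg hc
      nlinarith
    | succ j ih =>
      have := contract h0 D hq hv hT hδ1 hδr P E hP hE hz
        (div_nonneg (mul_nonneg hB0 hc) (by positivity)) ih
      intro a z hz' v hv1
      refine (this a z hz' v hv1).trans (le_of_eq ?_)
      rw [pow_succ, div_div]
  have hW : ∀ a, ∀ z ∈ C.W a, ∀ v : Cm n, ‖v‖ ≤ 1 → ‖Lead q (D.f a) z v‖ ≤ 0 := by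
    intro a z hz' v hv1
    have hlim : Tendsto (fun j : ℕ => (D.R * cst C q) / 2 ^ j) atTop (𝓝 0) := by
      have := (tendsto_pow_atTop_nhds_zero_of_lt_one (r := (1 / 2 : ℝ)) (by norm_num)
        (by norm_num)).const_mul (D.R * cst C q)
      simpa [div_eq_mul_inv] using this
    exact ge_of_tendsto' hlim fun j => hit j a z hz' v hv1
  intro a z hz' v
  obtain ⟨b, z', hz'', h⟩ := trans_bound h0 D hv a z hz'
  obtain ⟨v', -, h'⟩ := h v
  have h2 : ‖Lead q (D.f b) z' v'‖ ≤ (‖v'‖ + 1) ^ q * 0 :=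
    homog_bound h0 (isOpen_V C b) (D.holo b) (hv b) (W_sub_V C b hz'')
      (hW b z' hz'') (by positivity) (by linarith)
  rw [mul_zero] at h2
  have h3 : ‖Lead q (D.f b) z' v'‖ = 0 := le_antisymm h2 (norm_nonneg _)
  rw [h3, mul_zero] at h'
  exact norm_le_zero_iff.1 h'

theorem van_zero (D : Dib C m) (a : C.I) : Van 0 (C.V a) (D.f a) := by
  intro z hz v
  simp only [pow_zero]
  rw [isBigO_one_iff]
  refine ⟨D.R, ?_⟩
  rw [eventually_map]
  have hc : ContinuousAt (fun t : ℂ => z + t • v) 0 := by fun_prop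
  have hmem : C.V a ∈ 𝓝 ((fun t : ℂ => z + t • v) 0) := by
    simpa using (isOpen_V C a).mem_nhds hz
  filter_upwards [hc.preimage_mem_nhds hmem] with t ht
  exact D.bound a z hz _ ht

theorem van_le (h0 : D0Stmt) (D : Dib C m) {N : ℕ} {T δ : ℝ}
    (hT : 4 * C.M ^ (2 * m) * (2 * C.M) ^ N + 1 < T)
    (hδ1 : T * δ ≤ 1) (hδr : ∀ a, T * δ ≤ C.r a) (P : C.I → Set (Cm n)) (E : Set (Cm n))
    (hPV : ∀ a, P a ⊆ C.V a)
    (hP : ∀ a, ∀ z ∈ C.W a, ∃ p ∈ P a, dist z p < δ)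
    (hE : ∀ v : Cm n, ‖v‖ ≤ 1 → ∃ e ∈ E, dist v e < δ)
    (hz : ∀ k < N, ∀ a, ∀ p ∈ P a, ∀ e ∈ E,
      iteratedDeriv k (fun t : ℂ => D.f a p (p + t • e)) 0 = 0) :
    ∀ q ≤ N, ∀ a, Van q (C.V a) (D.f a) := by
  intro q
  induction q with
  | zero => intro _ a; exact van_zero D a
  | succ q ih =>
    intro hq a
    have hv := ih (by omega)
    refine h0.succ (isOpen_V C a) (D.holo a) (hv a) ?_
    refine lead_zero h0 D (by omega : q ≤ N) hv hT hδ1 hδr P E hP hE ?_ a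
    intro a p hp e he
    have := h0.coef (isOpen_V C a) (D.holo a) (hv a) p (hPV a hp) e
    rw [hz q (by omega) a p hp e he] at this
    rcases mul_eq_zero.1 this.symm with h | h
    · exact absurd h (by exact_mod_cast q.factorial_ne_zero)
    · exact h

/-- The leading terms of order `q` form a section. -/
def mkXF (h0 : D0Stmt) (D : Dib C m) {q : ℕ} (hv : ∀ a, Van q (C.V a) (D.f a)) :
    XF C q (2 * m) where
  θ a z v := Lead q (D.f a) z v
  holo a := h0.holo (isOpen_V C a) (D.holo a) (hv a)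
  homog a z hz t v := h0.homog (isOpen_V C a) (D.holo a) (hv a) z hz t v
  change a b z hz hzV hTV v := lead_change h0 D hv a b z hz hzV hTV v

end Dib

omit [Group Γ] in
/-- more unknowns than equations -/
theorem exists_coeff [Infinite Γ] {K : Type} [Fintype K] (A : Γ → K → ℂ) :
    ∃ (S : Finset Γ) (c : Γ → ℂ), (∀ g, g ∉ S → c g = 0) ∧ (∃ g, c g ≠ 0) ∧
      ∀ κ, ∑ g ∈ S, c g * A g κ = 0 := by
  classical
  obtain ⟨S, hS⟩ := Infinite.exists_subset_card_eq Γ (Fintype.card K + 1)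
  let φ : (S → ℂ) →ₗ[ℂ] (K → ℂ) :=
    { toFun := fun c κ => ∑ g : S, c g * A g κ
      map_add' := by
        intro c c'
        ext κ
        simp [add_mul, Finset.sum_add_distrib]
      map_smul' := by
        intro t c
        ext κ
        simp [Finset.mul_sum, mul_assoc] }
  have hlt : Module.finrank ℂ (K → ℂ) < Module.finrank ℂ (S → ℂ) := by
    rw [Module.finrank_fintype_fun_eq_card, Module.finrank_fintype_fun_eq_card,
      Fintype.card_coe, hS]
    omega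
  have hker := LinearMap.ker_ne_bot_of_finrank_lt (f := φ) hlt
  obtain ⟨c, hc, hc0⟩ := (Submodule.ne_bot_iff _).1 hker
  obtain ⟨g, hg⟩ := Function.ne_iff.1 hc0
  refine ⟨S, fun g => if h : g ∈ S then c ⟨g, h⟩ else 0, fun g hg => dif_neg hg,
    ⟨g, ?_⟩, fun κ => ?_⟩
  · simp only [g.2, dite_true, Subtype.coe_eta]
    exact hg
  · have h1 : φ c κ = 0 := by rw [LinearMap.mem_ker.1 hc]; rfl
    rw [← Finset.sum_coe_sort S]
    have h2 : φ c κ = ∑ g : S, c g * A g κ := rfl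
    rw [← h1, h2]
    refine Finset.sum_congr rfl fun g _ => ?_
    simp only [g.2, dite_true, Subtype.coe_eta]

/-- **D3'** -/
theorem d3' : D3'Stmt := by
  intro h0 h1 n Γ _ _ C m s ρ hs hp N
  classical
  have hM := C.M_one
  have hM0 : 0 < C.M := by linarith
  -- nets
  set T : ℝ := 4 * C.M ^ (2 * m) * (2 * C.M) ^ N + 2 with hT
  have hT0 : 0 < T := by positivity
  obtain ⟨r0, hr0, hr1, hrr⟩ : ∃ r0 : ℝ, 0 < r0 ∧ r0 ≤ 1 ∧ ∀ a, r0 ≤ C.r a := by
    obtain ⟨a0, -, ha0⟩ := Finset.exists_min_image Finset.univ C.r Finset.univ_nonempty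
    refine ⟨min (C.r a0) 1, lt_min (C.r_pos a0) one_pos, min_le_right _ _, fun a =>
      (min_le_left _ _).trans (ha0 a (Finset.mem_univ a))⟩
  set δ : ℝ := r0 / T with hδ
  have hδ0 : 0 < δ := div_pos hr0 hT0
  have hTδ : T * δ = r0 := by rw [hδ]; field_simp
  have hnet : ∀ (c : Cm n) (r : ℝ), ∃ P : Set (Cm n), P ⊆ closedBall c r ∧ P.Finite ∧
      ∀ z ∈ closedBall c r, ∃ p ∈ P, dist z p < δ := by
    intro c r
    obtain ⟨P, hP, hPf, hPc⟩ := (isCompact_closedBall c r).finite_cover_balls hδ0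
    refine ⟨P, hP, hPf, fun z hz => ?_⟩
    have := hPc hz
    simp only [mem_iUnion, mem_ball, exists_prop] at this
    exact this
  choose P0 hP0s hP0f hP0c using hnet
  set P : C.I → Set (Cm n) := fun a => P0 (C.c a) (C.r a) with hPdef
  set E : Set (Cm n) := P0 0 1 with hEdef
  have hPV : ∀ a, P a ⊆ C.V a := by
    intro a z hz
    have h := hP0s _ _ hz
    have hr := C.r_pos a
    rw [mem_closedBall] at h
    show dist z (C.c a) < 3 * C.r a
    linarith
  have hPc : ∀ a, ∀ z ∈ C.W a, ∃ p ∈ P a, dist z p < δ := fun a z hz =>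
    hP0c _ _ z (ball_subset_closedBall hz)
  have hEc : ∀ v : Cm n, ‖v‖ ≤ 1 → ∃ e ∈ E, dist v e < δ := fun v hv =>
    hP0c _ _ v (by simpa using hv)
  -- the conditions
  set K : Set (C.I × Cm n × Cm n × ℕ) := {x | x.2.1 ∈ P x.1 ∧ x.2.2.1 ∈ E ∧ x.2.2.2 < N} with hK
  have hKf : K.Finite := by
    have hsub : K ⊆ ((univ : Set C.I) ×ˢ ((⋃ a, P a) ×ˢ (E ×ˢ Iio N))) := by
      rintro ⟨a, p, e, k⟩ ⟨h1, h2, h3⟩
      exact ⟨mem_univ _, mem_iUnion.2 ⟨a, h1⟩, h2, h3⟩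
    refine Set.Finite.subset ?_ hsub
    exact finite_univ.prod ((finite_iUnion fun a => hP0f _ _).prod
      ((hP0f _ _).prod (finite_Iio N)))
  have : Fintype K := hKf.fintype
  obtain ⟨S, c, hcS, hcne, hc0⟩ := exists_coeff (Γ := Γ) (K := K)
    (fun g κ => ∑' u : Γ, s.F u κ.1.1 κ.1.2.1 *
      iteratedDeriv κ.1.2.2.2 (fun t : ℂ => s.F (g⁻¹ * u) κ.1.1 (κ.1.2.1 + t • κ.1.2.2.1)) 0)
  obtain ⟨σ, hσh, hinv, hσ1, hσ2, hσne, ⟨R, hRb⟩, hσd⟩ :=
    h1 n Γ C m s ρ hs hp S c hcS hcne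
  have hdi : ∀ (k : Γ) (b : C.I), ∀ z ∈ C.V b, ∀ w ∈ C.V b, σ k b k b z w = σ 1 b 1 b z w := by
    intro k b z hz w hw
    have := hinv k 1 b 1 b z w hz hw
    rwa [mul_one] at this
  -- the diagonal
  let D : Dib C m :=
    { f := fun a => σ 1 a 1 a
      holo := fun a => hσh 1 a 1 a
      change := by
        intro a b z hz hzV hTV
        have hO : C.O a b ∈ 𝓝 z := (C.O_open a b).mem_nhds hz
        have hVn : C.V a ∈ 𝓝 z := (isOpen_V C a).mem_nhds hzV
        have hTc : ContinuousAt (C.T a b) z := ((C.T_holo a b).differentiableAt hO).continuousAt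
        filter_upwards [hO, hVn, C.κ_loc a b z hz,
          hTc.preimage_mem_nhds ((isOpen_V C b).mem_nhds hTV)] with w hw hwV hwκ hwT
        rw [hσ1 1 a b 1 a z w hz hzV hTV hwV, hσ2 (1 * C.κ a b z) b 1 a b (C.T a b z) w hw hwV hwT hTV,
          hwκ, hdi _ b _ hTV _ hwT]
        ring
      R := max R 0
      R_nonneg := le_max_right _ _
      bound := fun a z hz w hw => (hRb 1 a z hz w hw).trans (le_max_left _ _) }
  have hvan : ∀ q ≤ N, ∀ a, Van q (C.V a) (D.f a) := by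
    refine Dib.van_le h0 D (T := T) (δ := δ) (by linarith) (by rw [hTδ]; exact hr1)
      (fun a => by rw [hTδ]; exact hrr a) P E hPV hPc hEc ?_
    intro k hk a p hp e he
    show iteratedDeriv k (fun t : ℂ => σ 1 a 1 a p (p + t • e)) 0 = 0
    rw [hσd 1 a k p (hPV a hp) e]
    exact hc0 ⟨(a, p, e, k), hp, he, hk⟩
  -- some order is not exceeded
  have hex : ∃ q, ¬ ∀ a, Van q (C.V a) (D.f a) := by
    by_contra hcon
    push Not at hcon
    obtain ⟨γ, a, γ', b, z, hz, w, hw, hne⟩ := hσne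
    have hdiag : ∀ z ∈ C.V a, ∀ w ∈ C.V a, σ γ a γ a z w = 0 := fun z hz w hw => by
      rw [hdi γ a z hz w hw]
      exact h0.zero (hσh 1 a 1 a) (fun q => hcon q a) z hz w hw
    have hall := C.conn (fun γ' b => ∀ z ∈ C.V a, ∀ w ∈ C.V b, σ γ a γ' b z w = 0) ?_
      γ a γ' b hdiag
    · exact hne (hall z hz w hw)
    · intro γ' b d y hy hyV hTy hQ z hz
      have hO : C.O b d ∈ 𝓝 y := (C.O_open b d).mem_nhds hy
      have hy' : C.T b d y ∈ C.O d b := C.T_mem b d y hy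
      have hO' : C.O d b ∈ 𝓝 (C.T b d y) := (C.O_open d b).mem_nhds hy'
      have hTc : ContinuousAt (C.T b d) y := ((C.T_holo b d).differentiableAt hO).continuousAt
      have hTc' : ContinuousAt (C.T d b) (C.T b d y) :=
        ((C.T_holo d b).differentiableAt hO').continuousAt
      have hyy : C.T d b (C.T b d y) = y := by
        have h3 := C.trans_mem b d b y hy hy'
        have h4 := C.trans_T b d b y hy hy'
        rw [← h4]
        exact C.T_self b y (by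
          have := C.O_sub b d hy
          rw [C.O_self b]; exact this)
      have hTT : ∀ᶠ w in 𝓝 (C.T b d y), C.T d b w ∈ C.O b d ∧ C.T d b w ∈ C.V b ∧
          C.κ b d (C.T d b w) = C.κ b d y ∧ C.T b d (C.T d b w) = w ∧ w ∈ C.V d := by
        have e1 : Tendsto (C.T d b) (𝓝 (C.T b d y)) (𝓝 y) := by
          have := hTc'; rwa [ContinuousAt, hyy] at this
        filter_upwards [hO', e1.eventually hO, e1.eventually ((isOpen_V C b).mem_nhds hyV),
          e1.eventually (C.κ_loc b d y hy), (isOpen_V C d).mem_nhds hTy] with w w1 w2 w3 w4 w5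
        refine ⟨w2, w3, w4, ?_, w5⟩
        have h4 := C.trans_T d b d w w1 w2
        rw [← h4]
        exact C.T_self d w (by
          have := C.O_sub d b w1
          rw [C.O_self d]; exact this)
      have hev : ∀ᶠ w in 𝓝 (C.T b d y), σ γ a (γ' * C.κ b d y) d z w = 0 := by
        filter_upwards [hTT] with w ⟨w1, w2, w3, w4, w5⟩
        have h5 := hσ2 γ a γ' b d z (C.T d b w) w1 w2 (by rw [w4]; exact w5) hz
        rw [hQ z hz _ w2, w3, w4] at h5
        rcases mul_eq_zero.1 h5.symm with h6 | h6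
        · exact absurd h6 (pow_ne_zero _ (C.g_ne b d _ w1))
        · exact h6
      have hhol : DifferentiableOn ℂ (fun w => σ γ a (γ' * C.κ b d y) d z w) (C.V d) := by
        have h7 := hσh γ a (γ' * C.κ b d y) d
        have h8 : DifferentiableOn ℂ (fun w : Cm n => ((z, w) : Cm n × Cm n)) (C.V d) :=
          (differentiableOn_const _).prodMk differentiableOn_id
        exact h7.comp h8 fun w hw => ⟨hz, hw⟩
      exact eqOn_zero_of_eventually (isOpen_V C d) (convex_ball _ _) hhol hTy hev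
  have hq1 := Nat.find_spec hex
  have hq2 := @Nat.find_min _ _ hex
  set q1 := Nat.find hex with hq1def
  have hNq : N < q1 := by
    by_contra h
    exact hq1 (hvan q1 (by omega))
  obtain ⟨q, hq⟩ : ∃ q, q1 = q + 1 := ⟨q1 - 1, by omega⟩
  have hv : ∀ a, Van q (C.V a) (D.f a) := by
    have := hq2 (m := q) (by omega)
    push Not at this
    exact this
  refine ⟨q, by omega, Dib.mkXF h0 D hv, ?_⟩
  by_contra hcon
  refine hq1 fun a => ?_
  rw [hq]
  refine h0.succ (isOpen_V C a) (D.holo a) (hv a) fun z hz v => ?_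
  by_contra hne
  exact hcon ⟨a, z, hz, v, hne⟩

end Vale.Agent.P284.H639
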