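import Vale.Agent.P284.H639.JetL2
import Vale.Agent.P284.H5.FD
import Vale.Agent.P284.H913.SheetL2
import Vale.Agent.P284.H894.W.Spec2
import Vale.Agent.P009.S.H46.ZeroSet

/-!
# P284, theorem W for maps of finite order: `FDStmt2` (helper639, from blocks of helper5 and helper913)
-/

open scoped Manifold ContDiff Topology Pointwise ComplexConjugate ComplexOrder ENNReal
open Filter Set Metric MeasureTheory

noncomputable section

namespace Vale.Agent.P284.H639.FD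

open Vale.Agent.P272.K Vale.Agent.P284.H894.V Vale.Agent.P284.H894.W Vale.Agent.P284.H5.V
  Vale.Agent.P284.H5.W Vale.Agent.P284.H5.J Vale.Agent.P284.H913 Vale.Agent.P284.H639.J

variable {n : ℕ}

/-! ### The quadratic form -/

/-- the sesquilinear form -/
def sf (A : Matrix (Fin n) (Fin n) ℂ) (x y : Cm n) : ℂ := ∑ j, ∑ k, A j k * x j * conj (y k)

theorem qf_self (A : Matrix (Fin n) (Fin n) ℂ) (x : Cm n) : qf A x = sf A x x := rfl

theorem sf_add_left (A : Matrix (Fin n) (Fin n) ℂ) (x x' y : Cm n) :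
    sf A (x + x') y = sf A x y + sf A x' y := by
  unfold sf
  simp only [← Finset.sum_add_distrib]
  refine Finset.sum_congr rfl fun j _ => Finset.sum_congr rfl fun k _ => ?_
  rw [Pi.add_apply]; ring

theorem sf_add_right (A : Matrix (Fin n) (Fin n) ℂ) (x y y' : Cm n) :
    sf A x (y + y') = sf A x y + sf A x y' := by
  unfold sf
  simp only [← Finset.sum_add_distrib]
  refine Finset.sum_congr rfl fun j _ => Finset.sum_congr rfl fun k _ => ?_
  rw [Pi.add_apply, map_add]; ring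

theorem sf_sum_left {ι : Type*} (s : Finset ι) (A : Matrix (Fin n) (Fin n) ℂ) (x : ι → Cm n)
    (y : Cm n) : sf A (∑ i ∈ s, x i) y = ∑ i ∈ s, sf A (x i) y := by
  classical
  induction s using Finset.induction_on with
  | empty => simp [sf]
  | insert a s ha ih => rw [Finset.sum_insert ha, Finset.sum_insert ha, sf_add_left, ih]

theorem sf_sum_right {ι : Type*} (s : Finset ι) (A : Matrix (Fin n) (Fin n) ℂ) (x : Cm n)
    (y : ι → Cm n) : sf A x (∑ i ∈ s, y i) = ∑ i ∈ s, sf A x (y i) := by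
  classical
  induction s using Finset.induction_on with
  | empty => simp [sf]
  | insert a s ha ih => rw [Finset.sum_insert ha, Finset.sum_insert ha, sf_add_right, ih]

theorem sf_sub (A : Matrix (Fin n) (Fin n) ℂ) (x y : Cm n) :
    sf A (x - y) (x - y) = sf A x x + sf A y y - sf A x y - sf A y x := by
  unfold sf
  simp only [← Finset.sum_add_distrib, ← Finset.sum_sub_distrib]
  refine Finset.sum_congr rfl fun j _ => Finset.sum_congr rfl fun k _ => ?_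
  simp only [Pi.sub_apply, map_sub]
  ring

theorem qf_sum_le {ι : Type*} [Fintype ι] {A : Matrix (Fin n) (Fin n) ℂ} (hA : A.PosDef)
    (y : ι → Cm n) : (qf A (∑ i, y i)).re ≤ Fintype.card ι * ∑ i, (qf A (y i)).re := by
  have h1 : 0 ≤ ∑ i, ∑ k, (qf A (y i - y k)).re :=
    Finset.sum_nonneg fun i _ => Finset.sum_nonneg fun k _ => qf_nonneg hA _
  have h2 : ∑ i, ∑ k, qf A (y i - y k) = 2 * (Fintype.card ι * ∑ i, qf A (y i)) -
      2 * qf A (∑ i, y i) := by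
    simp only [qf_self, sf_sub]
    have e1 : sf A (∑ i, y i) (∑ i, y i) = ∑ i, ∑ k, sf A (y i) (y k) := by
      rw [sf_sum_left]
      exact Finset.sum_congr rfl fun i _ => sf_sum_right _ _ _ _
    have e2 : ∑ i, ∑ k, sf A (y k) (y i) = ∑ i, ∑ k, sf A (y i) (y k) := Finset.sum_comm
    simp only [Finset.sum_sub_distrib, Finset.sum_add_distrib, Finset.sum_const, Finset.card_univ,
      nsmul_eq_mul]
    rw [e1, e2, ← Finset.mul_sum]
    ring
  have h3 := congrArg Complex.re h2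
  have h4 : (∑ i, ∑ k, qf A (y i - y k)).re = ∑ i, ∑ k, (qf A (y i - y k)).re := by
    simp only [Complex.re_sum]
  rw [h4] at h3
  have h5 : (2 * ((Fintype.card ι : ℂ) * ∑ i, qf A (y i)) - 2 * qf A (∑ i, y i)).re =
      2 * (Fintype.card ι * ∑ i, (qf A (y i)).re) - 2 * (qf A (∑ i, y i)).re := by
    simp [Complex.re_sum]
  rw [h5] at h3
  linarith

theorem qf_smul (A : Matrix (Fin n) (Fin n) ℂ) (c : ℂ) (y : Cm n) :
    (qf A (c • y)).re = ‖c‖ ^ 2 * (qf A y).re := by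
  have h : qf A (c • y) = ((‖c‖ ^ 2 : ℝ) : ℂ) * qf A y := by
    unfold qf
    rw [Finset.mul_sum]
    refine Finset.sum_congr rfl fun j _ => ?_
    rw [Finset.mul_sum]
    refine Finset.sum_congr rfl fun k _ => ?_
    simp only [Pi.smul_apply, smul_eq_mul, map_mul]
    have h1 : ((‖c‖ ^ 2 : ℝ) : ℂ) = c * conj c := by
      rw [Complex.mul_conj, Complex.normSq_eq_norm_sq]
    rw [h1]
    ring
  rw [h, Complex.re_ofReal_mul]

/-! ### The gradient of a function along the sheet is bounded by the energy density -/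

section
variable {X : Type} [TopologicalSpace X] [ChartedSpace (Cm n) X] [IsManifold 𝓘(ℂ, Cm n) ω X]
  {E : Type} [TopologicalSpace E] {p : E → X}
  {w : Chart n X → Cm n → Matrix (Fin n) (Fin n) ℂ} {Φ : Cm n → X}

/-- the form of `dΦ(a)` is bounded by the energy density -/
theorem qf_le_enDens (hw : IsHermitian w) (hΦ : ContMDiff 𝓘(ℂ, Cm n) 𝓘(ℂ, Cm n) ω Φ) {ζ : Cm n}
    {e : Chart n X} (he : At e (Φ ζ)) (a : Cm n) :
    (qf (w e (e (Φ ζ))) (fderiv ℂ (fun ξ => e (Φ ξ)) ζ a)).re ≤ n * ‖a‖ ^ 2 * enDens w Φ ζ := by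
  have hA := hw.posDef _ _ he
  have hτ : DifferentiableAt ℂ (fun ξ => e (Φ ξ)) ζ := (tau_smooth hΦ he).differentiableAt (by simp)
  have h1 : fderiv ℂ (fun ξ => e (Φ ξ)) ζ a =
      ∑ j, a j • (fun k => dz j (fun ξ => e (Φ ξ) k) ζ : Cm n) := by
    funext k
    rw [jmat_mulVec hτ a k, Finset.sum_apply]
    refine Finset.sum_congr rfl fun j _ => ?_
    rw [Pi.smul_apply, smul_eq_mul, mul_comm]
    rfl
  rw [h1]
  refine (qf_sum_le hA _).trans ?_
  rw [enDens_eq hw hΦ he, Complex.re_sum, Fintype.card_fin, mul_assoc]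
  refine mul_le_mul_of_nonneg_left ?_ (Nat.cast_nonneg n)
  rw [Finset.mul_sum]
  refine Finset.sum_le_sum fun j _ => ?_
  rw [qf_smul]
  refine mul_le_mul_of_nonneg_right ?_ (qf_nonneg hA _)
  have h2 : ‖a j‖ ≤ ‖a‖ := norm_le_pi_norm a j
  exact pow_le_pow_left₀ (norm_nonneg (a j)) h2 2

/-- the pointwise estimate -/
theorem al_pt {m : ℕ} (hw : IsHermitian w) (hΦ : ContMDiff 𝓘(ℂ, Cm n) 𝓘(ℂ, Cm n) ω Φ)
    {Φl : Cm n → E} (hΦl : Continuous Φl) (hpΦ : ∀ ζ, p (Φl ζ) = Φ ζ) (S : Sheet n m)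
    {V₁ : Set E} (hVT : ∀ z ∈ S.T, Φl z ∈ V₁) {u : V₁ → ℝ} {B : ℝ} (hu : Along p w V₁ u B)
    {z : Cm n} (hz : z ∈ S.T) :
    ‖fderiv ℝ (fun x => ext V₁ u (Φl (S.σ z x))) (S.pr z)‖ ^ 2 ≤
      (|B| * n) * (enDens w Φ z * ‖fderiv ℂ (S.σ z) (S.pr z)‖ ^ 2) := by
  set e := chartAt (Cm n) (Φ z) with he
  have hAt : At e (Φ z) := at_chartAt _
  have hs : S.σ z (S.pr z) = z := S.sec z hz
  have hd : DifferentiableAt ℂ (S.σ z) (S.pr z) := (S.sec_ev z hz).self_of_nhds.2.2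
  have hen := enDens_nonneg hw hΦ z
  have h1 := (along_iff.1 hu m (fun x => Φl (S.σ z x)) (S.pr z)
    (sheet_holTo hΦ hΦl hpΦ S hVT hz)).2 e (by rw [hpΦ, hs]; exact hAt)
  have h2 : ∀ v : Cm m, fderiv ℂ (fun x => e (p (Φl (S.σ z x)))) (S.pr z) v =
      fderiv ℂ (fun ξ => e (Φ ξ)) z (fderiv ℂ (S.σ z) (S.pr z) v) := by
    intro v
    have h3 : (fun x => e (p (Φl (S.σ z x)))) = (fun ξ => e (Φ ξ)) ∘ S.σ z := by
      funext x
      simp only [hpΦ, Function.comp]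
    have hτ : DifferentiableAt ℂ (fun ξ => e (Φ ξ)) (S.σ z (S.pr z)) := by
      rw [hs]
      exact (tau_smooth hΦ hAt).differentiableAt (by simp)
    rw [h3, fderiv_comp _ hτ hd, hs]
    rfl
  have h4 : ∀ v : Cm m, fderiv ℝ (fun x => ext V₁ u (Φl (S.σ z x))) (S.pr z) v ^ 2 ≤
      (|B| * n) * (enDens w Φ z * ‖fderiv ℂ (S.σ z) (S.pr z)‖ ^ 2) * ‖v‖ ^ 2 := by
    intro v
    have h5 := h1 v
    have h6 : (∑ i, ∑ j, w e (e (p (Φl (S.σ z (S.pr z))))) i j *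
        fderiv ℂ (fun x => e (p (Φl (S.σ z x)))) (S.pr z) v i *
        conj (fderiv ℂ (fun x => e (p (Φl (S.σ z x)))) (S.pr z) v j)).re =
        (qf (w e (e (Φ z))) (fderiv ℂ (fun ξ => e (Φ ξ)) z (fderiv ℂ (S.σ z) (S.pr z) v))).re := by
      rw [h2, hpΦ, hs]
      rfl
    rw [h6] at h5
    have h7 := qf_le_enDens hw hΦ hAt (fderiv ℂ (S.σ z) (S.pr z) v)
    have h8 := qf_nonneg (hw.posDef _ _ hAt)
      (fderiv ℂ (fun ξ => e (Φ ξ)) z (fderiv ℂ (S.σ z) (S.pr z) v))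
    have h9 : ‖fderiv ℂ (S.σ z) (S.pr z) v‖ ^ 2 ≤
        (‖fderiv ℂ (S.σ z) (S.pr z)‖ * ‖v‖) ^ 2 :=
      pow_le_pow_left₀ (norm_nonneg _) (ContinuousLinearMap.le_opNorm _ _) 2
    calc _ ≤ _ := h5
      _ ≤ |B| * (qf (w e (e (Φ z)))
          (fderiv ℂ (fun ξ => e (Φ ξ)) z (fderiv ℂ (S.σ z) (S.pr z) v))).re :=
          mul_le_mul_of_nonneg_right (le_abs_self B) h8
      _ ≤ |B| * (n * ‖fderiv ℂ (S.σ z) (S.pr z) v‖ ^ 2 * enDens w Φ z) :=
          mul_le_mul_of_nonneg_left h7 (abs_nonneg B)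
      _ ≤ |B| * (n * (‖fderiv ℂ (S.σ z) (S.pr z)‖ * ‖v‖) ^ 2 * enDens w Φ z) := by gcongr
      _ = _ := by ring
  set L := fderiv ℝ (fun x => ext V₁ u (Φl (S.σ z x))) (S.pr z) with hL
  set R := (|B| * n) * (enDens w Φ z * ‖fderiv ℂ (S.σ z) (S.pr z)‖ ^ 2) with hR
  have hR0 : 0 ≤ R := by positivity
  have h10 : ‖L‖ ≤ √R := by
    refine ContinuousLinearMap.opNorm_le_bound _ (Real.sqrt_nonneg _) fun v => ?_
    rw [Real.norm_eq_abs]
    refine abs_le_of_sq_le_sq ?_ (by positivity)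
    rw [mul_pow, Real.sq_sqrt hR0]
    exact h4 v
  calc ‖L‖ ^ 2 ≤ √R ^ 2 := pow_le_pow_left₀ (norm_nonneg _) h10 2
    _ = R := Real.sq_sqrt hR0

end

/-! ### The energy density as an `ℝ≥0∞`-valued density -/

theorem ae_ne_zero {b : MvPolynomial (Fin n) ℂ} (hb : b ≠ 0) :
    ∀ᵐ ζ : Cm n, MvPolynomial.eval ζ b ≠ 0 := by
  rw [ae_iff]
  have h := Vale.Agent.P009.S.H46.null_zeroSet (volume : Measure (Cm n)) (U := univ)
    (f := fun t => MvPolynomial.eval t b) isOpen_univ isPreconnected_univ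
    (Vale.Agent.P284.H5.C2.differentiable_eval b).differentiableOn ?_
  · simpa using h
  · by_contra hcon
    push Not at hcon
    refine hb (MvPolynomial.funext fun t => ?_)
    rw [map_zero]
    exact hcon t (mem_univ t)

theorem lint_le {f : Cm n → ℝ} (hf : Continuous f) (hf0 : ∀ z, 0 ≤ f z) {C ρ : ℝ}
    (h : ∀ r : ℝ, 1 ≤ r → ∫ z in ball (0 : Cm n) r, f z ≤ C * r ^ ρ) (j : ℕ) :
    ∫⁻ z in ball (0 : Cm n) ((j : ℝ) + 1), ENNReal.ofReal (f z) ≤
      ENNReal.ofReal |C| * ((j : ℝ≥0∞) + 1) ^ ⌈ρ⌉₊ := by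
  have hint : IntegrableOn f (ball (0 : Cm n) ((j : ℝ) + 1)) :=
    (hf.continuousOn.integrableOn_compact (isCompact_closedBall _ _)).mono_set
      ball_subset_closedBall
  rw [← ofReal_integral_eq_lintegral_ofReal hint (Eventually.of_forall hf0)]
  have hj : (1 : ℝ) ≤ (j : ℝ) + 1 := by linarith [Nat.cast_nonneg (α := ℝ) j]
  have h1 := h ((j : ℝ) + 1) hj
  have h2 : C * ((j : ℝ) + 1) ^ ρ ≤ |C| * ((j : ℝ) + 1) ^ ⌈ρ⌉₊ := by
    have h3 : ((j : ℝ) + 1) ^ ρ ≤ ((j : ℝ) + 1) ^ ⌈ρ⌉₊ := by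
      rw [← Real.rpow_natCast]
      exact Real.rpow_le_rpow_of_exponent_le hj (Nat.le_ceil ρ)
    calc C * ((j : ℝ) + 1) ^ ρ ≤ |C| * ((j : ℝ) + 1) ^ ρ :=
          mul_le_mul_of_nonneg_right (le_abs_self C) (by positivity)
      _ ≤ _ := mul_le_mul_of_nonneg_left h3 (abs_nonneg C)
  refine (ENNReal.ofReal_le_ofReal (h1.trans h2)).trans (le_of_eq ?_)
  rw [ENNReal.ofReal_mul (abs_nonneg C), ENNReal.ofReal_pow (by positivity),
    ENNReal.ofReal_add (by positivity) zero_le_one, ENNReal.ofReal_natCast, ENNReal.ofReal_one]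

/-- **FDStmt2** -/
theorem fdStmt2 : FDStmt2 := by
  intro n X _ _ _ _ _ _ w hw Φ hΦ E _ _ p hp N F hF Φl hΦl hpΦ P hP hsurj
  obtain ⟨B, hB⟩ := hF
  obtain ⟨C, ρ, hC⟩ := hΦ.order
  have hwh := hw.toIsHermitian
  have hP' : ∃ ζ, Function.Surjective (fderiv ℂ (fun ζ : Cm n => fun i =>
      MvPolynomial.eval ζ (P i)) ζ) := by
    obtain ⟨ζ, hζ⟩ := hsurj
    refine ⟨ζ, ?_⟩
    have : (fun ζ : Cm n => fun i => MvPolynomial.eval ζ (P i)) = fun ζ => F (Φl ζ) := by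
      funext ζ i
      exact (hP ζ i).symm
    rw [this]
    exact hζ
  have hcont := enDens_continuous hwh hΦ.holo
  obtain ⟨m, hNm, b, hb, hae⟩ := exists_sheet_L2 P hP' (fun z => ENNReal.ofReal (enDens w Φ z))
    (ENNReal.measurable_ofReal.comp hcont.measurable) (ENNReal.ofReal |C|) ENNReal.ofReal_ne_top
    ⌈ρ⌉₊ (lint_le hcont (enDens_nonneg hwh hΦ.holo) hC)
  filter_upwards [hae, ae_ne_zero hb] with ζ₁ h1 h2 hinj hreg
  obtain ⟨S, hS1, hSP, hpr, k, M, hI⟩ := h1 h2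
  obtain ⟨κ, σ, hTB⟩ := tb_of_dens S (enDens w Φ) (enDens_nonneg hwh hΦ.holo) k M hI
  set V₁ := connectedComponentIn (F ⁻¹' {F (Φl ζ₁)}) (Φl ζ₁) with hV
  have hVT : ∀ z ∈ S.T, Φl z ∈ V₁ := sheet_sub hΦl hP S hS1 hSP
  refine ⟨phal p w V₁, ?_, fun u hu => hu⟩
  refine finite_dim_tr S (alA p w V₁ Φl) (fun u => alA_ph hΦ.holo hΦl hpΦ S hVT u)
    (κ := κ) (σ := σ) (fun u => hTB _ (alA_ph hΦ.holo hΦl hpΦ S hVT u) ?_) hS1
    fun u => alA_inj hΦ.holo hp hNm hB hΦl hpΦ hP hinj hreg S hS1 hpr.differentiableAt hSP hV u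
  obtain ⟨B', hB'⟩ := u.2
  exact ⟨|B'| * n, fun z hz => al_pt hwh hΦ.holo hΦl hpΦ S hVT hB' hz⟩

end Vale.Agent.P284.H639.FD
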