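import Vale.Agent.P284.H894.W.Defs
import Mathlib.MeasureTheory.Measure.Lebesgue.EqHaar
import Mathlib.MeasureTheory.Integral.Bochner.Set

/-!
# P284, theorem W (helper639): polynomial growth of the derivative implies finite order
-/

open scoped Manifold ContDiff Topology ComplexConjugate
open Filter Set Metric MeasureTheory

noncomputable section

namespace Vale.Agent.P284.H639.W

open Vale.Agent.P272.K Vale.Agent.P284.H894.V Vale.Agent.P284.H894.W

/-- a function of polynomial growth has polynomially growing integrals over balls -/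
theorem int_le {n : ℕ} {f : Cm n → ℝ} {C : ℝ} (hC : 0 ≤ C) {s : ℕ}
    (h : ∀ ζ, f ζ ≤ C * (1 + ‖ζ‖) ^ s) {r : ℝ} (hr : 1 ≤ r) :
    ∫ ζ in ball (0 : Cm n) r, f ζ ≤
      C * 2 ^ s * (volume (ball (0 : Cm n) 1)).toReal * r ^ ((s : ℝ) + Module.finrank ℝ (Cm n)) := by
  have hr0 : 0 < r := by linarith
  have hB : 0 ≤ C * 2 ^ s * (volume (ball (0 : Cm n) 1)).toReal *
      r ^ ((s : ℝ) + Module.finrank ℝ (Cm n)) := by positivity
  by_cases hf : IntegrableOn f (ball (0 : Cm n) r)
  · have hfin : volume (ball (0 : Cm n) r) < ⊤ := measure_ball_lt_top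
    have h1 : ∫ ζ in ball (0 : Cm n) r, f ζ ≤ ∫ ζ in ball (0 : Cm n) r, C * (2 * r) ^ s := by
      refine setIntegral_mono_on hf (integrableOn_const hfin.ne) measurableSet_ball fun ζ hζ => ?_
      refine (h ζ).trans ?_
      rw [mem_ball_zero_iff] at hζ
      gcongr
      linarith
    refine h1.trans (le_of_eq ?_)
    rw [setIntegral_const, smul_eq_mul, measureReal_def, Measure.addHaar_ball_of_pos volume _ hr0,
      ENNReal.toReal_mul, ENNReal.toReal_ofReal (by positivity), Real.rpow_add hr0,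
      Real.rpow_natCast, Real.rpow_natCast, mul_pow]
    ring
  · rwa [integral_undef hf]

/-- **FO** -/
theorem fo {n : ℕ} {X : Type} [TopologicalSpace X] [ChartedSpace (Cm n) X]
    {w : Chart n X → Cm n → Matrix (Fin n) (Fin n) ℂ} {Φ : Cm n → X} (h : PolyMap w Φ) :
    FiniteOrder w Φ := by
  obtain ⟨C, s, hC⟩ := h.growth
  refine ⟨h.holo, h.nondeg, _, (s : ℝ) + Module.finrank ℝ (Cm n), fun r hr =>
    int_le (C := |C|) (abs_nonneg C) (s := s) (fun ζ => (hC ζ).trans ?_) hr⟩
  exact mul_le_mul_of_nonneg_right (le_abs_self C) (by positivity)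

end Vale.Agent.P284.H639.W
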