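import Vale.Agent.P284.H894.G.Spec

/-!
# P284 (helper639), blocks G6 (assembly) and G12 (the covering group is countable)
-/

open scoped Manifold ContDiff Topology Pointwise
open Filter Set Metric

noncomputable section

namespace Vale.Agent.P284.H639

open Vale.Agent.P272.K Vale.Agent.P284.H248 Vale.Agent.P284.H894 Vale.Agent.P284.H894.G

/-- **Block G6.** -/
theorem g6Stmt : G6Stmt := by
  classical
  intro hG0a hA4 hA5 hG0b hG3 hG4 hG5 n X _ _ _ _ _ _ L hL E Γ _ _ _ _ p hG S hS hexp y W hW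
  obtain ⟨P, a, ha1, ha2⟩ := hG0a n X L (p y)
  -- the lifts of the centres
  have hyy : ∀ b : P.I, ∃ y' : E, p y' = (P.e b).symm (P.c b) ∧ (b = a → y' = y) := by
    intro b
    by_cases hb : b = a
    · subst hb
      refine ⟨y, ?_, fun _ => rfl⟩
      rw [← ha2, (P.e b).left_inv ha1]
    · obtain ⟨y', hy'⟩ := hG.surj ((P.e b).symm (P.c b))
      exact ⟨y', hy', fun h => absurd h hb⟩
  choose yy hyy1 hyy2 using hyy
  obtain ⟨K, σ, hσ, hπ, hc, hv⟩ := hG5 n X L P E Γ p hG yy hyy1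
  obtain ⟨PUc⟩ := hA4 n X L P Γ K
  obtain ⟨Wg⟩ := hA5 n X L P Γ K hL
  obtain ⟨m, -, s, ρ, hs, hpk⟩ := hG0b n Γ (mkCoc P K) PUc Wg a
  have hra := P.r_pos a
  have hcy : σ a (P.c a) = y := (hc a).trans (hyy2 a rfl)
  have hcb : P.c a ∈ ball (P.c a) (4 * P.r a) := mem_ball_self (by positivity)
  have hcont : ContinuousAt (σ a) (P.c a) := (hσ a).continuousAt (isOpen_ball.mem_nhds hcb)
  have hev : ∀ᶠ w in 𝓝 (P.c a), σ a w ∈ W := by
    refine hcont.eventually ?_
    rw [hcy]
    exact hW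
  obtain ⟨ε, hε, hball⟩ := Metric.eventually_nhds_iff_ball.1 hev
  set r : ℝ := min (P.r a) (ε / 2) with hr
  have hr0 : 0 < r := lt_min hra (by positivity)
  have hsub2 : ball (P.c a) (2 * r) ⊆ (mkCoc P K).V a := by
    show ball (P.c a) (2 * r) ⊆ ball (P.c a) (3 * P.r a)
    refine ball_subset_ball ?_
    have := min_le_left (P.r a) (ε / 2)
    rw [← hr] at this
    linarith
  have hcl : closedBall (P.c a) r ⊆ ball (P.c a) (2 * r) := closedBall_subset_ball (by linarith)
  have hz : P.c a ∈ (mkCoc P K).V a := hsub2 (mem_ball_self (by linarith))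
  obtain ⟨t, ht, α, β, hα, hαβ, F, q, hq, hq0, hF1, hFα, hFβ⟩ :=
    hG3 n Γ (mkCoc P K) m s ρ a (P.c a) hz hs hpk S hS hexp r hr0 hsub2
  obtain ⟨v, hv1, hv2⟩ := hG4 n Γ (mkCoc P K) m F q hq hq0 hF1
  obtain ⟨u, hu, hub, huv⟩ := hv v
  have h1 : v.v 1 a (P.c a) ≤ α := by
    refine hv1 1 a (ball (P.c a) r) α isOpen_ball ?_ ?_ _ (mem_ball_self hr0)
    · exact (ball_subset_closedBall.trans hcl).trans hsub2
    · intro j w hw
      exact hFα j w (ball_subset_closedBall hw)
  obtain ⟨w, hw, h2⟩ := hv2 t a (closedBall (P.c a) r) β (isCompact_closedBall _ _)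
    (hcl.trans hsub2) hFβ
  refine ⟨t, ht, u, hu, hub, σ a w, ?_, ?_⟩
  · refine hball w ?_
    have h3 : closedBall (P.c a) r ⊆ ball (P.c a) ε := by
      refine closedBall_subset_ball ?_
      have := min_le_right (P.r a) (ε / 2)
      rw [← hr] at this
      linarith
    exact h3 hw
  · have h4 : u y = v.v 1 a (P.c a) := by
      rw [← huv 1 a (P.c a) (mem_ball_self (by positivity)), one_smul, hcy]
    have h5 : u (t • σ a w) = v.v t a w := huv t a w (hsub2 (hcl hw))
    rw [h4, h5]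
    linarith

/-- **Block G12.** -/
theorem g12Stmt : G12Stmt := by
  intro n X _ _ _ _ _ L P Γ _ K
  obtain ⟨N, hN⟩ := K.exists_N
  obtain ⟨a⟩ := P.ne
  have hall : ∀ γ : Γ, γ ∈ Subgroup.closure (N : Set Γ) := fun γ =>
    K.conn (fun γ _ => γ ∈ Subgroup.closure (N : Set Γ)) (fun γ a b z hz h1 h2 h =>
      mul_mem h (Subgroup.subset_closure (hN a b z (P.mem_cO hz h1 h2)))) 1 a γ a (one_mem _)
  have htop : Subgroup.closure (N : Set Γ) = ⊤ := by
    rw [eq_top_iff]
    exact fun γ _ => hall γ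
  have hsurj : Function.Surjective (FreeGroup.lift (fun x : (N : Set Γ) => (x : Γ))) := by
    rw [← MonoidHom.range_eq_top, eq_top_iff, ← htop, Subgroup.closure_le]
    intro x hx
    exact ⟨FreeGroup.of ⟨x, hx⟩, by simp⟩
  have : Countable (FreeGroup (N : Set Γ)) := by
    have hq : Function.Surjective (FreeGroup.mk (α := (N : Set Γ))) := Quot.mk_surjective
    exact hq.countable
  exact hsurj.countable

end Vale.Agent.P284.H639
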