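import Vale.Agent.P284.H5.Jet
import Vale.Agent.P268.Hol

/-!
# P284, theorem W, block EST (E2, helper639): finite dimension from an `L²` estimate along a sheet

The traces `Σ_{z over w} g(z) ℓ(z)^i` are holomorphic on `{a0 ≠ 0}`; the mean value property on a polydisc
of radius `~ |a0 w| / (1 + |w|)^d` turns the `L²` estimate into a pointwise estimate of the traces.
-/

open scoped Manifold ContDiff Topology Pointwise ComplexConjugate ComplexOrder ENNReal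
open Filter Set Metric MeasureTheory

noncomputable section

namespace Vale.Agent.P284.H639.J

open Vale.Agent.P272.K Vale.Agent.P284.H5.V Vale.Agent.P284.H5.C2 Vale.Agent.P284.H5.J
  Vale.Agent.P284.H913

variable {n m : ℕ}

/-! ### Mean value inequality -/

theorem cHess_normSq_loc {h : Cm m → ℂ} {U : Set (Cm m)} (hU : IsOpen U)
    (hh : DifferentiableOn ℂ h U) {z : Cm m} (hz : z ∈ U) (j k : Fin m) :
    cHess (fun y => ‖h y‖ ^ 2) z j k = dz j h z * cj (dz k h z) := by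
  have hd : ∀ y ∈ U, DifferentiableAt ℂ h y := fun y hy => (hh y hy).differentiableAt (hU.mem_nhds hy)
  have hdr : ∀ y ∈ U, DifferentiableAt ℝ h y := fun y hy => (hd y hy).restrictScalars ℝ
  have hk : DifferentiableOn ℂ (dz k h) U := by
    refine (Vale.Agent.P268.differentiableOn_fderiv_apply hU hh (Pi.single k 1)).congr fun y hy => ?_
    rw [dz_of_holo (hd y hy)]
  have hkd : DifferentiableAt ℂ (dz k h) z := (hk z hz).differentiableAt (hU.mem_nhds hz)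
  have h0 : (fun y => ((‖h y‖ ^ 2 : ℝ) : ℂ)) = fun y => h y * cj (h y) := by
    funext y
    rw [show cj (h y) = (starRingEnd ℂ) (h y) from rfl, Complex.mul_conj,
      Complex.normSq_eq_norm_sq]
  have hc : ∀ {F : Cm m → ℂ} {y}, DifferentiableAt ℝ F y → DifferentiableAt ℝ (fun y => cj (F y)) y :=
    fun hF => Complex.conjCLE.differentiableAt.comp _ hF
  have h1 : dzb k (fun y => h y * cj (h y)) =ᶠ[𝓝 z] fun y => h y * cj (dz k h y) := by
    filter_upwards [hU.mem_nhds hz] with y hy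
    rw [dzb_mul (hdr y hy) (hc (hdr y hy)), dzb_cj (hdr y hy), dzb_of_holo (hd y hy)]
    ring
  unfold cHess
  rw [Matrix.of_apply, h0, Vale.Agent.P272.K.dz_congr h1,
    dz_mul (hdr z hz) (hc (hkd.restrictScalars ℝ)), dz_cj (hkd.restrictScalars ℝ),
    dzb_of_holo hkd]
  simp [cj]

theorem hol_submean {h : Cm m → ℂ} {U : Set (Cm m)} (hU : IsOpen U) (hh : DifferentiableOn ℂ h U)
    {c : Cm m} {R : ℝ} (hR : 0 < R) (hB : closedBall c R ⊆ U) :
    ‖h c‖ ^ 2 ≤ (volume.real (ball c R))⁻¹ * ∫ y in ball c R, ‖h y‖ ^ 2 := by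
  have hs : ∀ z ∈ U, ContDiffAt ℝ 2 h z := fun z hz =>
    (((Vale.Agent.P268.contDiffOn_of_differentiableOn hU hh 2).contDiffAt
      (hU.mem_nhds hz)).restrict_scalars ℝ)
  have key := Vale.Agent.P272.K.QN.H86.polydisc_submean_average (f := fun y => ‖h y‖ ^ 2) (c := c)
    (R := R) (A := 0) hR le_rfl (fun y hy => (hs y (hB hy)).norm_sq ℝ) (fun y hy => by
      have h1 : cHess (fun y => ‖h y‖ ^ 2) y + ((0 : ℝ) : ℂ) • (1 : Matrix (Fin m) (Fin m) ℂ) =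
          Matrix.vecMulVec (fun j => dz j h y) (star fun j => dz j h y) := by
        ext j k
        rw [Complex.ofReal_zero, zero_smul, add_zero, cHess_normSq_loc hU hh (hB hy)]
        rfl
      rw [h1]
      exact Matrix.posSemidef_vecMulVec_self_star _)
  simpa using key

/-! ### Finite dimension from estimates of the traces -/

variable (S : Sheet n m)

/-- the twisted traces of the derivatives of `U` have polynomial growth -/
def TB (κ σ : ℕ → ℕ) (U : Cm n → ℝ) : Prop :=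
  ∀ (j : Fin m) (c : Cm n) (i : ℕ), ∃ C : ℝ, ∀ w, MvPolynomial.eval w S.a0 ≠ 0 →
    ‖MvPolynomial.eval w S.a0‖ ^ κ i * ‖tr' S (fun z => Gd S U j z * lf c z ^ i) w‖ ≤
      C * (1 + ‖w‖) ^ σ i

theorem tr_poly' {g : Cm n → ℂ} (hg : S.Hol g) {k s : ℕ} {C : ℝ}
    (hC : ∀ w, MvPolynomial.eval w S.a0 ≠ 0 →
      ‖MvPolynomial.eval w S.a0‖ ^ k * ‖tr' S g w‖ ≤ C * (1 + ‖w‖) ^ s) :
    ∃ q : MvPolynomial (Fin m) ℂ, q.totalDegree ≤ s ∧ ∀ w, MvPolynomial.eval w S.a0 ≠ 0 →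
      MvPolynomial.eval w S.a0 ^ k * tr' S g w = MvPolynomial.eval w q := by
  refine ext_poly S.a0_ne (C := C) (fun w hw => ?_) (fun w hw => ?_)
  · exact (((differentiable_eval S.a0) w).pow _).mul (tr_diff S g hg w hw)
  · rw [norm_mul, norm_pow]
    exact hC w hw

theorem tw_mem' {g : Cm n → ℂ} (hg : S.Hol g) {k s : ℕ} {C : ℝ}
    (hC : ∀ w, MvPolynomial.eval w S.a0 ≠ 0 →
      ‖MvPolynomial.eval w S.a0‖ ^ k * ‖tr' S g w‖ ≤ C * (1 + ‖w‖) ^ s) :
    (fun w : {w : Cm m // MvPolynomial.eval w S.a0 ≠ 0} =>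
      MvPolynomial.eval (w : Cm m) S.a0 ^ k * tr S g w) ∈ PGr S.a0 s := by
  obtain ⟨q, hq, hqe⟩ := tr_poly' S hg hC
  refine ⟨_, eval_mem_PG hq, ?_⟩
  funext w
  show MvPolynomial.eval (w : Cm m) q = _
  rw [← hqe w.1 w.2, tr'_eq S _ w.1 w.2]

/-- If all twisted traces vanish, so does the function. -/
lemma eq_zero_of_traces' {g : Cm n → ℂ} (hg : S.Hol g) {z₀ : Cm n} (hz₀ : z₀ ∈ S.T) (κ : ℕ → ℕ)
    {c : Cm n} (hc : ∀ z ∈ S.fib (S.pr z₀), ∀ z' ∈ S.fib (S.pr z₀), z ≠ z' → lf c z ≠ lf c z')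
    (h0 : ∀ i < (S.fin (S.pr z₀) (S.off z₀ hz₀)).1.toFinset.card,
      ∀ w : {w : Cm m // MvPolynomial.eval w S.a0 ≠ 0},
      MvPolynomial.eval (w : Cm m) S.a0 ^ (κ i) * tr S (fun z => g z * lf c z ^ i) w = 0) :
    ∀ z ∈ S.T, g z = 0 := by
  refine eq_zero_of_traces S hg hz₀ (k := 0) hc fun i hi w => ?_
  have h1 := (mul_eq_zero.1 (h0 i hi w)).resolve_left (pow_ne_zero _ w.2)
  rw [h1, mul_zero]

/-- **finite dimension** from the estimates of the traces (proof: helper5's `finite_dim`) -/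
theorem finite_dim_tr {𝒱 : Type*} [AddCommGroup 𝒱] [Module ℝ 𝒱] (A : 𝒱 →ₗ[ℝ] (Cm n → ℝ))
    (hph : ∀ u, Ph S (A u)) {κ σ : ℕ → ℕ} (hb : ∀ u, TB S κ σ (A u))
    {z₀ : Cm n} (hz₀ : z₀ ∈ S.T)
    (hinj : ∀ u, (∀ z ∈ S.T, fderiv ℝ (fun w => A u (S.σ z w)) (S.pr z) = 0) → A u z₀ = 0 →
      u = 0) : FiniteDimensional ℝ 𝒱 := by
  classical
  obtain ⟨c, hc⟩ := exists_sep (S.fin (S.pr z₀) (S.off z₀ hz₀)).1
  set r := (S.fin (S.pr z₀) (S.off z₀ hz₀)).1.toFinset.card with hr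
  have hmem : ∀ u (j : Fin m) (i : Fin r),
      (fun w : {w : Cm m // MvPolynomial.eval w S.a0 ≠ 0} =>
        MvPolynomial.eval (w : Cm m) S.a0 ^ (κ (i : ℕ)) *
          tr S (fun z => Gd S (A u) j z * lf c z ^ (i : ℕ)) w) ∈ PGr S.a0 (σ i) := by
    intro u j i
    obtain ⟨C, hC⟩ := hb u j c i
    exact tw_mem' S (hol_lf S (Ph.hol S (hph u) j) c i) hC
  let L : 𝒱 →ₗ[ℝ] (∀ (_ : Fin m) (i : Fin r), PGr S.a0 (σ i)) × ℝ :=
    { toFun := fun u => (fun j i => ⟨_, hmem u j i⟩, A u z₀)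
      map_add' := by
        intro u v
        refine Prod.ext ?_ ?_
        · funext j i
          refine Subtype.ext ?_
          funext w
          show MvPolynomial.eval (w : Cm m) S.a0 ^ (κ (i : ℕ)) *
              tr S (fun z => Gd S (A (u + v)) j z * lf c z ^ (i : ℕ)) w =
            MvPolynomial.eval (w : Cm m) S.a0 ^ (κ (i : ℕ)) *
              tr S (fun z => Gd S (A u) j z * lf c z ^ (i : ℕ)) w +
            MvPolynomial.eval (w : Cm m) S.a0 ^ (κ (i : ℕ)) *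
              tr S (fun z => Gd S (A v) j z * lf c z ^ (i : ℕ)) w
          rw [← mul_add]
          congr 1
          unfold tr
          rw [← Finset.sum_add_distrib]
          refine Finset.sum_congr rfl fun z hz => ?_
          rw [Set.Finite.mem_toFinset] at hz
          rw [map_add]
          show Gd S (A u + A v) j z * lf c z ^ (i : ℕ) = _
          rw [Gd_add S (hph u) (hph v) j hz.1]
          ring
        · show A (u + v) z₀ = A u z₀ + A v z₀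
          rw [map_add]; rfl
      map_smul' := by
        intro t u
        refine Prod.ext ?_ ?_
        · funext j i
          refine Subtype.ext ?_
          funext w
          show MvPolynomial.eval (w : Cm m) S.a0 ^ (κ (i : ℕ)) *
              tr S (fun z => Gd S (A (t • u)) j z * lf c z ^ (i : ℕ)) w =
            t • (MvPolynomial.eval (w : Cm m) S.a0 ^ (κ (i : ℕ)) *
              tr S (fun z => Gd S (A u) j z * lf c z ^ (i : ℕ)) w)
          rw [Complex.real_smul, ← mul_assoc, mul_comm (t : ℂ), mul_assoc]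
          congr 1
          unfold tr
          rw [Finset.mul_sum]
          refine Finset.sum_congr rfl fun z hz => ?_
          rw [Set.Finite.mem_toFinset] at hz
          rw [map_smul]
          show Gd S (t • A u) j z * lf c z ^ (i : ℕ) = _
          rw [Gd_smul S (hph u) t j hz.1, Complex.real_smul]
          ring
        · show A (t • u) z₀ = t • A u z₀
          rw [map_smul]; rfl }
  have hL : Function.Injective L := by
    rw [injective_iff_map_eq_zero]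
    intro u hu
    have h1 : A u z₀ = 0 := congrArg Prod.snd hu
    have h2 : ∀ j, ∀ z ∈ S.T, Gd S (A u) j z = 0 := by
      intro j
      refine eq_zero_of_traces' S (Ph.hol S (hph u) j) hz₀ κ (c := c)
        (fun z hz z' hz' hne => hc z hz z' hz' hne) fun i hi w => ?_
      have h3 := congrFun (congrFun (congrArg Prod.fst hu) j) ⟨i, hi⟩
      exact congrFun (congrArg Subtype.val h3) w
    refine hinj u (fun z hz => ?_) h1
    have hd : DifferentiableAt ℝ (fun w => A u (S.σ z w)) (S.pr z) :=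
      ((hph u) z hz).self_of_nhds.1.differentiableAt (by simp)
    have h4 := fderiv_zero_of_dz (g := fun w => A u (S.σ z w))
      (Complex.ofRealCLM.differentiableAt.comp (S.pr z) hd) (fun j => h2 j z hz)
    ext v
    have h5 : HasFDerivAt (fun w => (A u (S.σ z w) : ℂ))
        (Complex.ofRealCLM.comp (fderiv ℝ (fun w => A u (S.σ z w)) (S.pr z))) (S.pr z) :=
      Complex.ofRealCLM.hasFDerivAt.comp (S.pr z) hd.hasFDerivAt
    rw [h5.fderiv] at h4
    have h6 := congrArg (fun M => M v) h4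
    simpa using h6
  exact FiniteDimensional.of_injective L hL

/-! ### The pointwise estimate implies the estimate of the traces -/

theorem tb_of_pt {U : Cm n → ℝ} (hph : Ph S U) {k s : ℕ}
    (hb : ∃ C : ℝ, ∀ z ∈ S.T, ‖fderiv ℝ (fun w => U (S.σ z w)) (S.pr z)‖ *
      ‖MvPolynomial.eval (S.pr z) S.a0‖ ^ k ≤ C * (1 + ‖S.pr z‖) ^ s) :
    TB S (fun i => k + i) (fun i => s + S.s * i) U := by
  intro j c i
  obtain ⟨C, hC⟩ := hb
  have hbG : ∀ z ∈ S.T, ‖Gd S U j z‖ * ‖MvPolynomial.eval (S.pr z) S.a0‖ ^ k ≤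
      C * (1 + ‖S.pr z‖) ^ s := fun z hz => le_trans (mul_le_mul_of_nonneg_right
        (norm_dz_le ((hph z hz).self_of_nhds.1.differentiableAt (by simp)) j) (by positivity))
        (hC z hz)
  obtain ⟨q, hq, hqe⟩ := tr_poly S (hol_lf S (Ph.hol S hph j) c i) (bd_lf S hbG c i)
  obtain ⟨C', hC'0, hC'⟩ := eval_growth q
  refine ⟨C', fun w hw => ?_⟩
  rw [← norm_pow, ← norm_mul, hqe w hw]
  refine (hC' w).trans (mul_le_mul_of_nonneg_left (pow_le_pow_right₀ ?_ hq) hC'0)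
  linarith [norm_nonneg w]

/-! ### The `L²` estimate implies the estimate of the traces -/

/-- polynomials are locally Lipschitz with polynomial constants -/
theorem poly_lip (a : MvPolynomial (Fin m) ℂ) : ∃ (C : ℝ) (d : ℕ), 1 ≤ C ∧ ∀ w₀ w : Cm m,
    ‖w - w₀‖ ≤ 1 → ‖MvPolynomial.eval w a - MvPolynomial.eval w₀ a‖ ≤
      C * (1 + ‖w₀‖) ^ d * ‖w - w₀‖ := by
  induction a using MvPolynomial.induction_on with
  | C c => exact ⟨1, 0, le_rfl, fun w₀ w _ => by simp⟩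
  | add p q hp hq =>
    obtain ⟨C1, d1, h1, hp⟩ := hp
    obtain ⟨C2, d2, h2, hq⟩ := hq
    refine ⟨C1 + C2, d1 + d2, by linarith, fun w₀ w hw => ?_⟩
    have h3 := hp w₀ w hw
    have h4 := hq w₀ w hw
    have hρ : 1 ≤ 1 + ‖w₀‖ := by linarith [norm_nonneg w₀]
    have e1 : (1 + ‖w₀‖) ^ d1 ≤ (1 + ‖w₀‖) ^ (d1 + d2) := pow_le_pow_right₀ hρ (by omega)
    have e2 : (1 + ‖w₀‖) ^ d2 ≤ (1 + ‖w₀‖) ^ (d1 + d2) := pow_le_pow_right₀ hρ (by omega)
    rw [map_add, map_add]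
    calc ‖MvPolynomial.eval w p + MvPolynomial.eval w q -
          (MvPolynomial.eval w₀ p + MvPolynomial.eval w₀ q)‖
        = ‖(MvPolynomial.eval w p - MvPolynomial.eval w₀ p) +
          (MvPolynomial.eval w q - MvPolynomial.eval w₀ q)‖ := by congr 1; ring
      _ ≤ C1 * (1 + ‖w₀‖) ^ d1 * ‖w - w₀‖ + C2 * (1 + ‖w₀‖) ^ d2 * ‖w - w₀‖ :=
          (norm_add_le _ _).trans (add_le_add h3 h4)
      _ ≤ C1 * (1 + ‖w₀‖) ^ (d1 + d2) * ‖w - w₀‖ + C2 * (1 + ‖w₀‖) ^ (d1 + d2) * ‖w - w₀‖ := by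
          gcongr
      _ = _ := by ring
  | mul_X p i hp =>
    obtain ⟨C1, d1, h1, hp⟩ := hp
    obtain ⟨C2, h2, hg⟩ := eval_growth p
    refine ⟨C1 + C2, d1 + 1 + p.totalDegree, by linarith, fun w₀ w hw => ?_⟩
    have h3 := hp w₀ w hw
    have hρ : 1 ≤ 1 + ‖w₀‖ := by linarith [norm_nonneg w₀]
    have h4 : ‖w i‖ ≤ 1 + ‖w₀‖ := by
      have e1 : ‖w‖ ≤ ‖w - w₀‖ + ‖w₀‖ := by
        have := norm_add_le (w - w₀) w₀
        rwa [sub_add_cancel] at this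
      exact (norm_le_pi_norm w i).trans (by linarith)
    have h5 : ‖w i - w₀ i‖ ≤ ‖w - w₀‖ := norm_le_pi_norm (w - w₀) i
    have e1 : (1 + ‖w₀‖) ^ (d1 + 1) ≤ (1 + ‖w₀‖) ^ (d1 + 1 + p.totalDegree) :=
      pow_le_pow_right₀ hρ (by omega)
    have e2 : (1 + ‖w₀‖) ^ p.totalDegree ≤ (1 + ‖w₀‖) ^ (d1 + 1 + p.totalDegree) :=
      pow_le_pow_right₀ hρ (by omega)
    rw [map_mul, map_mul, MvPolynomial.eval_X, MvPolynomial.eval_X]
    calc ‖MvPolynomial.eval w p * w i - MvPolynomial.eval w₀ p * w₀ i‖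
        = ‖(MvPolynomial.eval w p - MvPolynomial.eval w₀ p) * w i +
          MvPolynomial.eval w₀ p * (w i - w₀ i)‖ := by congr 1; ring
      _ ≤ C1 * (1 + ‖w₀‖) ^ d1 * ‖w - w₀‖ * (1 + ‖w₀‖) +
          C2 * (1 + ‖w₀‖) ^ p.totalDegree * ‖w - w₀‖ := by
          refine (norm_add_le _ _).trans (add_le_add ?_ ?_)
          · rw [norm_mul]
            exact mul_le_mul h3 h4 (norm_nonneg _) (by positivity)
          · rw [norm_mul]
            exact mul_le_mul (hg w₀) h5 (norm_nonneg _) (by positivity)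
      _ = C1 * (1 + ‖w₀‖) ^ (d1 + 1) * ‖w - w₀‖ +
          C2 * (1 + ‖w₀‖) ^ p.totalDegree * ‖w - w₀‖ := by ring
      _ ≤ C1 * (1 + ‖w₀‖) ^ (d1 + 1 + p.totalDegree) * ‖w - w₀‖ +
          C2 * (1 + ‖w₀‖) ^ (d1 + 1 + p.totalDegree) * ‖w - w₀‖ := by gcongr
      _ = _ := by ring

/-- the weighted sum of the squares of a function over the points over `w` -/
def Wt (q : Cm n → ℝ) (k l : ℕ) (w : Cm m) : ℝ≥0∞ :=
  ∑' z : S.fib w, ENNReal.ofReal (q z ^ 2 * ‖MvPolynomial.eval w S.a0‖ ^ k / (1 + ‖w‖) ^ l)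

theorem ofReal_sum_le {q : Cm n → ℝ} {k l : ℕ} {w : Cm m} (hw : MvPolynomial.eval w S.a0 ≠ 0) :
    ENNReal.ofReal (∑ z ∈ (S.fin w hw).1.toFinset,
      q z ^ 2 * ‖MvPolynomial.eval w S.a0‖ ^ k / (1 + ‖w‖) ^ l) ≤ Wt S q k l w := by
  have hcoe : S.fib w = ((S.fin w hw).1.toFinset : Set (Cm n)) := by
    rw [Set.Finite.coe_toFinset]; rfl
  rw [ENNReal.ofReal_sum_of_nonneg fun z _ => by positivity, Wt, hcoe, Finset.tsum_subtype'
    (f := fun z => ENNReal.ofReal (q z ^ 2 * ‖MvPolynomial.eval w S.a0‖ ^ k / (1 + ‖w‖) ^ l))]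

/-- pointwise estimate of the square of the trace -/
theorem tr_sq_le {g : Cm n → ℂ} {q : Cm n → ℝ} (hq : ∀ z ∈ S.T, ‖g z‖ ≤ q z) (c : Cm n) (i : ℕ)
    {w : Cm m} (hw : MvPolynomial.eval w S.a0 ≠ 0) :
    ‖tr' S (fun z => g z * lf c z ^ i) w‖ ^ 2 ≤
      S.deg * (((∑ j, ‖c j‖) * S.K) * (1 + ‖w‖) ^ S.s / ‖MvPolynomial.eval w S.a0‖) ^ (2 * i) *
        ∑ z ∈ (S.fin w hw).1.toFinset, q z ^ 2 := by
  set P := (S.fin w hw).1.toFinset with hP
  have hmem : ∀ z ∈ P, z ∈ S.T ∧ S.pr z = w := fun z hz => by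
    rw [hP, Set.Finite.mem_toFinset] at hz
    exact ⟨hz.1, hz.2⟩
  have hcard : (P.card : ℝ) ≤ S.deg := by
    have h3 := (S.fin w hw).2
    rw [Set.ncard_eq_toFinset_card _ (S.fin w hw).1] at h3
    exact_mod_cast h3
  have ha : 0 < ‖MvPolynomial.eval w S.a0‖ := norm_pos_iff.2 hw
  set Λ := ((∑ j, ‖c j‖) * S.K) * (1 + ‖w‖) ^ S.s / ‖MvPolynomial.eval w S.a0‖ with hΛ
  have hΛ0 : 0 ≤ Λ := by
    have := S.K_nn
    have : 0 ≤ ∑ j, ‖c j‖ := Finset.sum_nonneg fun _ _ => norm_nonneg _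
    positivity
  have hl : ∀ z ∈ P, ‖lf c z‖ ≤ Λ := fun z hz => by
    obtain ⟨h1, h2⟩ := hmem z hz
    have h3 := lf_bd S c h1
    rw [h2] at h3
    rw [hΛ, le_div_iff₀ ha]
    exact h3
  rw [tr'_eq S _ w hw, tr]
  calc ‖∑ z ∈ P, g z * lf c z ^ i‖ ^ 2 ≤ (∑ z ∈ P, q z * Λ ^ i) ^ 2 := by
        refine pow_le_pow_left₀ (norm_nonneg _) ((norm_sum_le _ _).trans
          (Finset.sum_le_sum fun z hz => ?_)) 2
        rw [norm_mul, norm_pow]
        exact mul_le_mul (hq z (hmem z hz).1) (pow_le_pow_left₀ (norm_nonneg _) (hl z hz) i)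
          (by positivity) ((norm_nonneg _).trans (hq z (hmem z hz).1))
    _ ≤ P.card * ∑ z ∈ P, (q z * Λ ^ i) ^ 2 := sq_sum_le_card_mul_sum_sq
    _ ≤ S.deg * ∑ z ∈ P, (q z * Λ ^ i) ^ 2 :=
        mul_le_mul_of_nonneg_right hcard (Finset.sum_nonneg fun _ _ => sq_nonneg _)
    _ = _ := by
        rw [mul_assoc]
        congr 1
        rw [Finset.mul_sum]
        refine Finset.sum_congr rfl fun z _ => ?_
        rw [mul_pow, ← pow_mul, mul_comm i 2]
        ring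

/-- **E2**: the `L²` estimate implies the estimate of the traces. -/
theorem tb_of_L2 (k l : ℕ) : ∃ κ σ : ℕ → ℕ, ∀ U : Cm n → ℝ, Ph S U →
    (∫⁻ w, Wt S (fun z => ‖fderiv ℝ (fun w => U (S.σ z w)) (S.pr z)‖) k l w) < ⊤ → TB S κ σ U := by
  obtain ⟨Ca, d, hCa, hlip⟩ := poly_lip S.a0
  obtain ⟨Cg, hCg0, hgr⟩ := eval_growth S.a0
  set e := S.a0.totalDegree with he
  set D := Module.finrank ℝ (Cm m) with hD
  refine ⟨fun i => D + 2 * i + k, fun i => e * (D + 2 * i + k) + (d + e) * D + 2 * i * S.s + l,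
    fun U hph hI j c i => ?_⟩
  set q : Cm n → ℝ := fun z => ‖fderiv ℝ (fun w => U (S.σ z w)) (S.pr z)‖ with hq
  set I := ∫⁻ w, Wt S q k l w with hIdef
  set v₁ : ℝ := volume.real (ball (0 : Cm m) 1) with hv₁
  have hv₁0 : 0 < v₁ := by
    rw [hv₁, measureReal_def]
    exact ENNReal.toReal_pos (measure_ball_pos _ _ one_pos).ne' measure_ball_lt_top.ne
  set Q₀ : ℝ := Ca + Cg with hQ₀
  have hQ₀1 : 1 ≤ Q₀ := by linarith
  set Cl : ℝ := (∑ j, ‖c j‖) * S.K with hCl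
  have hCl0 : 0 ≤ Cl := mul_nonneg (Finset.sum_nonneg fun _ _ => norm_nonneg _) S.K_nn
  set T : Cm m → ℂ := tr' S (fun z => Gd S U j z * lf c z ^ i) with hT
  set C₀ : ℝ := Cg ^ (D + 2 * i + k) * ((2 * Q₀) ^ D * v₁⁻¹ * S.deg * (2 * Cl * 2 ^ S.s) ^ (2 * i) *
    2 ^ k * 2 ^ l * I.toReal) with hC₀
  have hC₀0 : 0 ≤ C₀ := by positivity
  refine ⟨√C₀, fun w₀ hw₀ => ?_⟩
  set A := ‖MvPolynomial.eval w₀ S.a0‖ with hA
  have hA0 : 0 < A := norm_pos_iff.2 hw₀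
  set ρ := 1 + ‖w₀‖ with hρ
  have hρ1 : 1 ≤ ρ := by rw [hρ]; linarith [norm_nonneg w₀]
  have hρ0 : 0 < ρ := by linarith
  set δ := A / (2 * (Q₀ * ρ ^ (d + e))) with hδ
  have hQρ : 0 < Q₀ * ρ ^ (d + e) := by positivity
  have hδ0 : 0 < δ := by positivity
  have hAle : A ≤ Cg * ρ ^ e := hgr w₀
  have hAQ : A ≤ Q₀ * ρ ^ (d + e) := by
    refine hAle.trans ?_
    have h1 : Cg ≤ Q₀ := by rw [hQ₀]; linarith
    have h2 : ρ ^ e ≤ ρ ^ (d + e) := pow_le_pow_right₀ hρ1 (by omega)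
    exact mul_le_mul h1 h2 (by positivity) (by linarith)
  have hδ1 : δ ≤ 1 := by
    rw [hδ, div_le_one (by positivity)]
    linarith
  have hlow : ∀ w ∈ closedBall w₀ δ, A / 2 ≤ ‖MvPolynomial.eval w S.a0‖ := by
    intro w hw
    rw [mem_closedBall, dist_eq_norm] at hw
    have h1 := hlip w₀ w (hw.trans hδ1)
    have h2 : Ca * ρ ^ d * ‖w - w₀‖ ≤ A / 2 := by
      calc Ca * ρ ^ d * ‖w - w₀‖ ≤ (Q₀ * ρ ^ (d + e)) * δ := by
            have h3 : Ca ≤ Q₀ := by rw [hQ₀]; linarith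
            have h4 : ρ ^ d ≤ ρ ^ (d + e) := pow_le_pow_right₀ hρ1 (by omega)
            gcongr
        _ = A / 2 := by rw [hδ]; field_simp
    have h5 : A ≤ ‖MvPolynomial.eval w S.a0‖ +
        ‖MvPolynomial.eval w S.a0 - MvPolynomial.eval w₀ S.a0‖ := by
      rw [hA]
      calc ‖MvPolynomial.eval w₀ S.a0‖ = ‖MvPolynomial.eval w S.a0 -
            (MvPolynomial.eval w S.a0 - MvPolynomial.eval w₀ S.a0)‖ := by congr 1; ring
        _ ≤ _ := norm_sub_le _ _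
    linarith
  have hne : ∀ w ∈ closedBall w₀ δ, MvPolynomial.eval w S.a0 ≠ 0 := fun w hw => by
    have := hlow w hw
    exact norm_pos_iff.1 (by linarith)
  have hup : ∀ w ∈ closedBall w₀ δ, 1 + ‖w‖ ≤ 2 * ρ := by
    intro w hw
    rw [mem_closedBall, dist_eq_norm] at hw
    have e1 : ‖w‖ ≤ ‖w - w₀‖ + ‖w₀‖ := by
      have := norm_add_le (w - w₀) w₀
      rwa [sub_add_cancel] at this
    rw [hρ]
    linarith [norm_nonneg w₀]
  -- the mean value inequality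
  have hU : IsOpen {w : Cm m | MvPolynomial.eval w S.a0 ≠ 0} := isOpen_ne_zero S.a0
  have hTd : DifferentiableOn ℂ T {w : Cm m | MvPolynomial.eval w S.a0 ≠ 0} := fun w hw =>
    (tr_diff S _ (hol_lf S (Ph.hol S hph j) c i) w hw).differentiableWithinAt
  have hsub := hol_submean hU hTd hδ0 hne
  -- the pointwise bound on the ball
  set W₂ : ℝ := S.deg * (2 * Cl * (2 * ρ) ^ S.s / A) ^ (2 * i) * ((2 / A) ^ k * (2 * ρ) ^ l) with hW₂
  have hW₂0 : 0 ≤ W₂ := by positivity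
  have hpt : ∀ w ∈ ball w₀ δ, ENNReal.ofReal (‖T w‖ ^ 2) ≤ ENNReal.ofReal W₂ * Wt S q k l w := by
    intro w hw
    have hwc := ball_subset_closedBall hw
    have hw0 := hne w hwc
    have ha : 0 < ‖MvPolynomial.eval w S.a0‖ := norm_pos_iff.2 hw0
    have h1 := tr_sq_le S (g := Gd S U j) (q := q) (fun z hz =>
      norm_dz_le ((hph z hz).self_of_nhds.1.differentiableAt (by simp)) j) c i hw0
    refine le_trans (ENNReal.ofReal_le_ofReal (?_ : ‖T w‖ ^ 2 ≤ W₂ *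
      ∑ z ∈ (S.fin w hw0).1.toFinset,
        q z ^ 2 * ‖MvPolynomial.eval w S.a0‖ ^ k / (1 + ‖w‖) ^ l)) ?_
    · refine h1.trans ?_
      have h2 : Cl * (1 + ‖w‖) ^ S.s / ‖MvPolynomial.eval w S.a0‖ ≤
          2 * Cl * (2 * ρ) ^ S.s / A := by
        rw [div_le_div_iff₀ ha hA0]
        have h3 : (1 + ‖w‖) ^ S.s ≤ (2 * ρ) ^ S.s :=
          pow_le_pow_left₀ (by positivity) (hup w hwc) _
        have h4 := hlow w hwc
        calc Cl * (1 + ‖w‖) ^ S.s * A ≤ Cl * (2 * ρ) ^ S.s * (2 * ‖MvPolynomial.eval w S.a0‖) := by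
              gcongr
              linarith
          _ = _ := by ring
      have h5 : ∀ z ∈ (S.fin w hw0).1.toFinset, q z ^ 2 ≤ ((2 / A) ^ k * (2 * ρ) ^ l) *
          (q z ^ 2 * ‖MvPolynomial.eval w S.a0‖ ^ k / (1 + ‖w‖) ^ l) := by
        intro z _
        have h6 : 1 ≤ (2 / A) ^ k * ‖MvPolynomial.eval w S.a0‖ ^ k := by
          rw [← mul_pow]
          refine one_le_pow₀ ?_
          rw [div_mul_eq_mul_div, le_div_iff₀ hA0]
          have h8 := hlow w hwc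
          linarith
        have h7 : (1 + ‖w‖) ^ l ≤ (2 * ρ) ^ l := pow_le_pow_left₀ (by positivity) (hup w hwc) l
        rw [← mul_div_assoc, le_div_iff₀ (by positivity)]
        calc q z ^ 2 * (1 + ‖w‖) ^ l = q z ^ 2 * (1 * (1 + ‖w‖) ^ l) := by rw [one_mul]
          _ ≤ q z ^ 2 * (((2 / A) ^ k * ‖MvPolynomial.eval w S.a0‖ ^ k) * (2 * ρ) ^ l) := by gcongr
          _ = _ := by ring
      calc S.deg * (Cl * (1 + ‖w‖) ^ S.s / ‖MvPolynomial.eval w S.a0‖) ^ (2 * i) *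
            ∑ z ∈ (S.fin w hw0).1.toFinset, q z ^ 2
          ≤ S.deg * (2 * Cl * (2 * ρ) ^ S.s / A) ^ (2 * i) *
            ∑ z ∈ (S.fin w hw0).1.toFinset, ((2 / A) ^ k * (2 * ρ) ^ l) *
              (q z ^ 2 * ‖MvPolynomial.eval w S.a0‖ ^ k / (1 + ‖w‖) ^ l) := by
            gcongr with z hz
            exact h5 z hz
        _ = _ := by rw [← Finset.mul_sum, hW₂]; ring
    · rw [ENNReal.ofReal_mul hW₂0]
      exact mul_le_mul' le_rfl (ofReal_sum_le S hw0)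
  have hTc : ContinuousOn T (closedBall w₀ δ) := (hTd.mono hne).continuousOn
  have hint : IntegrableOn (fun y => ‖T y‖ ^ 2) (ball w₀ δ) :=
    ((hTc.norm.pow 2).integrableOn_compact (isCompact_closedBall _ _)).mono_set
      ball_subset_closedBall
  have hlin : ∫ y in ball w₀ δ, ‖T y‖ ^ 2 ≤ W₂ * I.toReal := by
    have h1 : ENNReal.ofReal (∫ y in ball w₀ δ, ‖T y‖ ^ 2) =
        ∫⁻ y in ball w₀ δ, ENNReal.ofReal (‖T y‖ ^ 2) :=
      ofReal_integral_eq_lintegral_ofReal hint (Eventually.of_forall fun y => by positivity)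
    have h2 : ∫⁻ y in ball w₀ δ, ENNReal.ofReal (‖T y‖ ^ 2) ≤ ENNReal.ofReal W₂ * I := by
      calc ∫⁻ y in ball w₀ δ, ENNReal.ofReal (‖T y‖ ^ 2)
          ≤ ∫⁻ y in ball w₀ δ, ENNReal.ofReal W₂ * Wt S q k l y :=
            setLIntegral_mono' measurableSet_ball hpt
        _ ≤ ∫⁻ y, ENNReal.ofReal W₂ * Wt S q k l y := setLIntegral_le_lintegral _ _
        _ = _ := lintegral_const_mul' _ _ ENNReal.ofReal_ne_top
    have h3 : ENNReal.ofReal (∫ y in ball w₀ δ, ‖T y‖ ^ 2) ≤ ENNReal.ofReal (W₂ * I.toReal) := by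
      rw [ENNReal.ofReal_mul hW₂0, ENNReal.ofReal_toReal hI.ne, h1]
      exact h2
    exact (ENNReal.ofReal_le_ofReal_iff (by positivity)).1 h3
  have hvol : volume.real (ball w₀ δ) = δ ^ D * v₁ := by
    rw [measureReal_def, Measure.addHaar_ball_of_pos volume _ hδ0, ENNReal.toReal_mul,
      ENNReal.toReal_ofReal (by positivity)]
    rfl
  rw [hvol] at hsub
  have hT2 : ‖T w₀‖ ^ 2 ≤ (δ ^ D * v₁)⁻¹ * (W₂ * I.toReal) :=
    hsub.trans (mul_le_mul_of_nonneg_left hlin (by positivity))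
  -- collect the powers
  have hfin : (A ^ (D + 2 * i + k) * ‖T w₀‖) ^ 2 ≤
      (√C₀ * ρ ^ (e * (D + 2 * i + k) + (d + e) * D + 2 * i * S.s + l)) ^ 2 := by
    have h1 : (δ ^ D * v₁)⁻¹ * (W₂ * I.toReal) * A ^ (D + 2 * i + k) =
        (2 * Q₀) ^ D * v₁⁻¹ * S.deg * (2 * Cl * 2 ^ S.s) ^ (2 * i) * 2 ^ k * 2 ^ l * I.toReal *
          ρ ^ ((d + e) * D + 2 * i * S.s + l) := by
      rw [hδ, hW₂]
      simp only [div_pow, mul_pow, pow_add, pow_mul, mul_inv, inv_div]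
      field_simp
      ring_nf
    calc (A ^ (D + 2 * i + k) * ‖T w₀‖) ^ 2
        = A ^ (D + 2 * i + k) * (‖T w₀‖ ^ 2 * A ^ (D + 2 * i + k)) := by ring
      _ ≤ (Cg * ρ ^ e) ^ (D + 2 * i + k) * ((δ ^ D * v₁)⁻¹ * (W₂ * I.toReal) *
          A ^ (D + 2 * i + k)) := by gcongr
      _ = C₀ * ρ ^ (e * (D + 2 * i + k) + (d + e) * D + 2 * i * S.s + l) := by
          rw [h1, hC₀, mul_pow, ← pow_mul]
          ring
      _ ≤ C₀ * (ρ ^ (e * (D + 2 * i + k) + (d + e) * D + 2 * i * S.s + l)) ^ 2 := by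
          refine mul_le_mul_of_nonneg_left ?_ hC₀0
          exact le_self_pow₀ (one_le_pow₀ hρ1) two_ne_zero
      _ = _ := by rw [mul_pow, Real.sq_sqrt hC₀0]
  exact (pow_le_pow_iff_left₀ (by positivity) (by positivity) two_ne_zero).1 hfin

/-- **E2**, finite dimension -/
theorem finite_dim_L2 {𝒱 : Type*} [AddCommGroup 𝒱] [Module ℝ 𝒱] (A : 𝒱 →ₗ[ℝ] (Cm n → ℝ))
    (hph : ∀ u, Ph S (A u)) (k l : ℕ)
    (hb : ∀ u, (∫⁻ w, Wt S (fun z => ‖fderiv ℝ (fun w => A u (S.σ z w)) (S.pr z)‖) k l w) < ⊤)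
    {z₀ : Cm n} (hz₀ : z₀ ∈ S.T)
    (hinj : ∀ u, (∀ z ∈ S.T, fderiv ℝ (fun w => A u (S.σ z w)) (S.pr z) = 0) → A u z₀ = 0 →
      u = 0) : FiniteDimensional ℝ 𝒱 := by
  obtain ⟨κ, σ, h⟩ := tb_of_L2 S k l
  exact finite_dim_tr S A hph (fun u => h _ (hph u) (hb u)) hz₀ hinj

/-- **E2** in the form of helper913's `exists_sheet_L2`: `f` is a density whose weighted integral along the
sheet is finite and which dominates `‖dU‖²`. -/
theorem tb_of_dens (f : Cm n → ℝ) (hf : ∀ z, 0 ≤ f z) (k M : ℕ)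
    (hI : (∫⁻ w, ∑' z : S.fib w, ENNReal.ofReal (f z) *
      ENNReal.ofReal (‖MvPolynomial.eval w S.a0‖ ^ k / (1 + ‖w‖) ^ M)) < ⊤) :
    ∃ κ σ : ℕ → ℕ, ∀ U : Cm n → ℝ, Ph S U →
      (∃ B : ℝ, ∀ z ∈ S.T, ‖fderiv ℝ (fun w => U (S.σ z w)) (S.pr z)‖ ^ 2 ≤
        B * (f z * ‖fderiv ℂ (S.σ z) (S.pr z)‖ ^ 2)) → TB S κ σ U := by
  obtain ⟨κ, σ, h⟩ := tb_of_L2 S (k + 2 * S.k) (M + 2 * S.s)
  refine ⟨κ, σ, fun U hph ⟨B, hB⟩ => h U hph ?_⟩
  have hle : ∀ w, Wt S (fun z => ‖fderiv ℝ (fun w => U (S.σ z w)) (S.pr z)‖) (k + 2 * S.k)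
      (M + 2 * S.s) w ≤ ENNReal.ofReal (|B| * S.K ^ 2) * ∑' z : S.fib w, ENNReal.ofReal (f z) *
        ENNReal.ofReal (‖MvPolynomial.eval w S.a0‖ ^ k / (1 + ‖w‖) ^ M) := by
    intro w
    rw [← ENNReal.tsum_mul_left]
    refine ENNReal.tsum_le_tsum fun z => ?_
    have hz : (z : Cm n) ∈ S.T := z.2.1
    have hzw : S.pr z = w := z.2.2
    rw [← ENNReal.ofReal_mul (hf _), ← ENNReal.ofReal_mul (by positivity)]
    refine ENNReal.ofReal_le_ofReal ?_
    have h1 := hB z hz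
    have h2 := S.dbd z hz
    rw [hzw] at h1 h2
    have h3 : (‖fderiv ℂ (S.σ z) w‖ * ‖MvPolynomial.eval w S.a0‖ ^ S.k) ^ 2 ≤
        (S.K * (1 + ‖w‖) ^ S.s) ^ 2 := pow_le_pow_left₀ (by positivity) h2 2
    have hBa : B ≤ |B| := le_abs_self B
    have hfz := hf z
    simp only [hzw]
    rw [div_le_iff₀ (by positivity)]
    calc ‖fderiv ℝ (fun w => U (S.σ z w)) w‖ ^ 2 * ‖MvPolynomial.eval w S.a0‖ ^ (k + 2 * S.k)
        ≤ (|B| * (f z * ‖fderiv ℂ (S.σ z) w‖ ^ 2)) *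
          ‖MvPolynomial.eval w S.a0‖ ^ (k + 2 * S.k) := by
          refine mul_le_mul_of_nonneg_right (h1.trans ?_) (by positivity)
          exact mul_le_mul_of_nonneg_right hBa (by positivity)
      _ = |B| * f z * ‖MvPolynomial.eval w S.a0‖ ^ k *
          (‖fderiv ℂ (S.σ z) w‖ * ‖MvPolynomial.eval w S.a0‖ ^ S.k) ^ 2 := by ring
      _ ≤ |B| * f z * ‖MvPolynomial.eval w S.a0‖ ^ k * (S.K * (1 + ‖w‖) ^ S.s) ^ 2 := by gcongr
      _ = |B| * S.K ^ 2 * (f z * (‖MvPolynomial.eval w S.a0‖ ^ k / (1 + ‖w‖) ^ M)) *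
          (1 + ‖w‖) ^ (M + 2 * S.s) := by
          field_simp
          ring
  refine lt_of_le_of_lt (lintegral_mono hle) ?_
  rw [lintegral_const_mul' _ _ ENNReal.ofReal_ne_top]
  exact ENNReal.mul_lt_top ENNReal.ofReal_lt_top hI

end Vale.Agent.P284.H639.J
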