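import Vale.Agent.P284.H287.FibDefs
import Vale.Agent.P284.H639.V15
import Vale.Agent.P284.H730.VP

/-!
# P284, next theorem, row S5c (helper639): the metric of the fibre
-/

open scoped Manifold ContDiff Topology Pointwise ComplexConjugate ComplexOrder Matrix
open Filter Set Metric MeasureTheory

noncomputable section

namespace Vale.Agent.P284.H639.S5

open Vale.Agent.P272.K Vale.Agent.P284.H894 Vale.Agent.P284.H894.V Vale.Agent.P284.H287.F
  Vale.Agent.P284.H639.V

variable {m n k : ℕ}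

/-! ### The Jacobian matrix of a map between spaces of different dimensions -/

/-- Jacobian matrix `(∂ψ_p/∂t_i)` -/
def jm (ψ : Cm m → Cm n) (t : Cm m) : Matrix (Fin n) (Fin m) ℂ :=
  Matrix.of fun p i => dz i (fun y => ψ y p) t

theorem jm_apply {ψ : Cm m → Cm n} {t : Cm m} (h : DifferentiableAt ℂ ψ t) (p : Fin n) (i : Fin m) :
    jm ψ t p i = (fderiv ℂ ψ t (Pi.single i 1)) p := by
  unfold jm
  rw [Matrix.of_apply, dz_of_holo ((differentiableAt_pi.1 h) p)]
  rw [fderiv_apply h p]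
  rfl

theorem jm_mulVec {ψ : Cm m → Cm n} {t : Cm m} (h : DifferentiableAt ℂ ψ t) (v : Cm m) :
    (jm ψ t).mulVec v = fderiv ℂ ψ t v := by
  have hv : v = ∑ i, (v i) • (Pi.single i (1 : ℂ) : Cm m) := by
    funext j
    simp only [Finset.sum_apply, Pi.smul_apply]
    rw [Finset.sum_eq_single j]
    · simp
    · intro b _ hb; simp [hb.symm]
    · simp
  funext p
  have h1 : fderiv ℂ ψ t v = ∑ i, v i • fderiv ℂ ψ t (Pi.single i 1) := by
    conv_lhs => rw [hv]
    rw [map_sum]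
    exact Finset.sum_congr rfl fun i _ => map_smul _ _ _
  rw [h1, Finset.sum_apply]
  simp only [Matrix.mulVec, dotProduct]
  refine Finset.sum_congr rfl fun i _ => ?_
  rw [Pi.smul_apply, jm_apply h, smul_eq_mul, mul_comm]

theorem jm_congr {ψ φ : Cm m → Cm n} {t : Cm m} (h : ψ =ᶠ[𝓝 t] φ) : jm ψ t = jm φ t := by
  ext p i
  simp only [jm, Matrix.of_apply]
  refine Vale.Agent.P272.K.dz_congr ?_
  filter_upwards [h] with y hy
  rw [hy]

theorem jm_comp {φ : Cm n → Cm k} {ψ : Cm m → Cm n} {t : Cm m} (hφ : DifferentiableAt ℂ φ (ψ t))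
    (hψ : DifferentiableAt ℂ ψ t) : jm (fun y => φ (ψ y)) t = jm φ (ψ t) * jm ψ t := by
  have h1 : DifferentiableAt ℂ (fun y => φ (ψ y)) t := hφ.comp t hψ
  have h2 : ∀ v : Cm m, (jm (fun y => φ (ψ y)) t).mulVec v = (jm φ (ψ t) * jm ψ t).mulVec v := by
    intro v
    rw [← Matrix.mulVec_mulVec, jm_mulVec h1, jm_mulVec hψ, jm_mulVec hφ]
    have := fderiv_comp t hφ hψ
    rw [show (fun y => φ (ψ y)) = φ ∘ ψ from rfl, this]
    rfl
  exact Matrix.mulVec_injective (funext h2)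

/-- chain rule for the holomorphic Wirtinger derivative -/
theorem dz_comp_jm {f : Cm n → ℂ} {ψ : Cm m → Cm n} {t : Cm m} {i : Fin m}
    (hf : DifferentiableAt ℝ f (ψ t)) (h : DifferentiableAt ℂ ψ t) :
    dz i (fun y => f (ψ y)) t = ∑ p, dz p f (ψ t) * jm ψ t p i := by
  have hc : ∀ v : Cm m, fderiv ℝ (fun y => f (ψ y)) t v = fderiv ℝ f (ψ t) (fderiv ℂ ψ t v) := by
    intro v
    have h1 : DifferentiableAt ℝ ψ t := h.restrictScalars ℝ
    rw [show (fun y => f (ψ y)) = f ∘ ψ from rfl, fderiv_comp t hf h1]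
    simp only [ContinuousLinearMap.comp_apply]
    rw [fderivR_of_holo h]
  unfold dz
  rw [hc, hc, Vale.Agent.P272.K.fderiv_eq, Vale.Agent.P272.K.fderiv_eq]
  have h3 : ∀ p, fderiv ℂ ψ t (Pi.single i 1) p = jm ψ t p i := by
    intro p; rw [jm_apply h]
  have h2 : ∀ p, fderiv ℂ ψ t (Pi.single i Complex.I) p = Complex.I * jm ψ t p i := by
    intro p
    have : (Pi.single i Complex.I : Cm m) = Complex.I • Pi.single i 1 := by
      rw [← Pi.single_smul]; simp
    rw [this, map_smul, Pi.smul_apply, h3, smul_eq_mul]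
  simp only [h2, h3]
  rw [Finset.mul_sum, ← Finset.sum_sub_distrib, Finset.sum_div]
  refine Finset.sum_congr rfl fun p _ => ?_
  have h4 : cj (Complex.I * jm ψ t p i) = -Complex.I * cj (jm ψ t p i) := by simp [cj]
  rw [h4]
  have h5 : Complex.I * Complex.I = -1 := Complex.I_mul_I
  show _ = dz p f (ψ t) * jm ψ t p i
  linear_combination (-(dz p f (ψ t)) * jm ψ t p i / 2 + dzb p f (ψ t) * cj (jm ψ t p i) / 2) * h5

/-- the entries of the Jacobian matrix are holomorphic -/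
theorem jm_holo {ψ : Cm m → Cm n} {U : Set (Cm m)} (hU : IsOpen U) (hψ : DifferentiableOn ℂ ψ U)
    (p : Fin n) (i : Fin m) : DifferentiableOn ℂ (fun y => jm ψ y p i) U := by
  have h1 : DifferentiableOn ℂ (fun y => ψ y p) U := fun y hy => by
    have h := (hψ y hy).differentiableAt (hU.mem_nhds hy)
    exact ((differentiableAt_pi.1 h) p).differentiableWithinAt
  have h2 := Vale.Agent.P268.differentiableOn_fderiv_apply hU h1 (Pi.single i 1)
  refine h2.congr fun y hy => ?_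
  rw [jm, Matrix.of_apply, dz_of_holo ((h1 y hy).differentiableAt (hU.mem_nhds hy))]

theorem smooth_of_holo {F : Type*} [NormedAddCommGroup F] [NormedSpace ℂ F] [CompleteSpace F]
    {f : Cm m → F} {U : Set (Cm m)} (hU : IsOpen U) (hf : DifferentiableOn ℂ f U) {t : Cm m}
    (ht : t ∈ U) : ContDiffAt ℂ ∞ f t :=
  contDiffAt_infty.2 fun q =>
    (Vale.Agent.P268.contDiffOn_of_differentiableOn hU hf q).contDiffAt (hU.mem_nhds ht)

theorem jm_smooth {ψ : Cm m → Cm n} {U : Set (Cm m)} (hU : IsOpen U) (hψ : DifferentiableOn ℂ ψ U)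
    (p : Fin n) (i : Fin m) {t : Cm m} (ht : t ∈ U) :
    ContDiffAt ℝ ∞ (fun y => jm ψ y p i) t :=
  (smooth_of_holo hU (jm_holo hU hψ p i) ht).restrict_scalars ℝ

theorem jm_symm {ψ : Cm m → Cm n} {U : Set (Cm m)} (hU : IsOpen U) (hψ : DifferentiableOn ℂ ψ U)
    (p : Fin n) (i j : Fin m) {t : Cm m} (ht : t ∈ U) :
    dz j (fun y => jm ψ y p i) t = dz i (fun y => jm ψ y p j) t := by
  have h1 : DifferentiableOn ℂ (fun y => ψ y p) U := fun y hy => by
    have h := (hψ y hy).differentiableAt (hU.mem_nhds hy)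
    exact ((differentiableAt_pi.1 h) p).differentiableWithinAt
  have h2 : ContDiffAt ℝ 2 (fun y => ψ y p) t :=
    ((smooth_of_holo hU h1 ht).restrict_scalars ℝ).of_le H730.V.two_le
  exact C2.dz_dz_comm j i (f := fun y => ψ y p) h2

/-! ### The pulled back metric -/

/-- the metric `ψ* w` -/
def pull (ψ : Cm m → Cm n) (w : Cm n → Matrix (Fin n) (Fin n) ℂ) (t : Cm m) :
    Matrix (Fin m) (Fin m) ℂ :=
  (jm ψ t).transpose * w (ψ t) * (jm ψ t).map (starRingEnd ℂ)

theorem pull_apply (ψ : Cm m → Cm n) (w : Cm n → Matrix (Fin n) (Fin n) ℂ) (t : Cm m)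
    (i j : Fin m) :
    pull ψ w t i j = ∑ q, (∑ p, jm ψ t p i * w (ψ t) p q) * cj (jm ψ t q j) := by
  simp only [pull, Matrix.mul_apply, Matrix.transpose_apply, Matrix.map_apply]

theorem quad_pull (J : Matrix (Fin n) (Fin m) ℂ) (M : Matrix (Fin n) (Fin n) ℂ) (v : Cm m) :
    quad (J.transpose * M * J.map (starRingEnd ℂ)) v = quad M (J.mulVec v) := by
  rw [quad_eq, quad_eq]
  have h1 : (fun i => cj (J.mulVec v i)) = (J.map (starRingEnd ℂ)).mulVec fun i => cj (v i) := by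
    funext i
    simp only [Matrix.mulVec, dotProduct, cj, map_sum, map_mul, Matrix.map_apply]
  have h2 : (J.map (starRingEnd ℂ)).conjTranspose = J.transpose := by
    ext i j; simp
  rw [h1, ← Matrix.mulVec_mulVec, ← Matrix.mulVec_mulVec, Matrix.star_mulVec, h2]
  rw [Matrix.dotProduct_mulVec, Matrix.dotProduct_mulVec, Matrix.dotProduct_mulVec]

theorem pull_posDef {ψ : Cm m → Cm n} {w : Cm n → Matrix (Fin n) (Fin n) ℂ} {t : Cm m}
    (hψ : DifferentiableAt ℂ ψ t) (hi : Function.Injective (fderiv ℂ ψ t)) (hw : (w (ψ t)).PosDef) :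
    (pull ψ w t).PosDef := by
  have hH : (pull ψ w t).IsHermitian := by
    have h2 : ((jm ψ t).map (starRingEnd ℂ)).conjTranspose = (jm ψ t).transpose := by
      ext i j; simp
    have := Matrix.isHermitian_conjTranspose_mul_mul ((jm ψ t).map (starRingEnd ℂ)) hw.isHermitian
    rwa [h2] at this
  refine posDef_of_quad hH fun v hv => ?_
  rw [pull, quad_pull]
  refine quad_pos hw fun h0 => hv (hi ?_)
  rw [← jm_mulVec hψ, h0, map_zero]

/-- the metric `ψ* w` is a Kähler metric -/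
theorem pull_ku {ψ : Cm m → Cm n} {U : Set (Cm m)} (hU : IsOpen U) (hψ : DifferentiableOn ℂ ψ U)
    (hi : ∀ t ∈ U, Function.Injective (fderiv ℂ ψ t)) {U' : Set (Cm n)}
    {w : Cm n → Matrix (Fin n) (Fin n) ℂ} (hw : KU U' w) (hm : ∀ t ∈ U, ψ t ∈ U') :
    KU U (pull ψ w) := by
  have hd : ∀ t ∈ U, DifferentiableAt ℂ ψ t := fun t ht => (hψ t ht).differentiableAt (hU.mem_nhds ht)
  have hs : ∀ t ∈ U, ContDiffAt ℝ ∞ ψ t := fun t ht =>
    (smooth_of_holo hU hψ ht).restrict_scalars ℝ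
  refine ⟨hU, fun t ht i j => ?_, fun t ht => pull_posDef (hd t ht) (hi t ht) (hw.pos _ (hm t ht)),
    fun t ht i j l => ?_⟩
  · simp only [pull_apply]
    refine ContDiffAt.sum fun q _ => ContDiffAt.mul (ContDiffAt.sum fun p _ => ContDiffAt.mul
      (jm_smooth hU hψ p i ht) ?_) (C2.contDiffAt_conj (jm_smooth hU hψ q j ht))
    exact (hw.smooth _ (hm t ht) p q).comp t (hs t ht)
  · simp only [pull_apply]
    have hwd : ∀ p q, DifferentiableAt ℝ (fun y => w y p q) (ψ t) := fun p q =>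
      (hw.smooth _ (hm t ht) p q).differentiableAt (by simp)
    have hwc : ∀ p q, DifferentiableAt ℝ (fun y => w (ψ y) p q) t := fun p q =>
      (hwd p q).comp t ((hd t ht).restrictScalars ℝ)
    have hJ : ∀ q i, DifferentiableAt ℂ (fun y => jm ψ y q i) t := fun q i =>
      (jm_holo hU hψ q i t ht).differentiableAt (hU.mem_nhds ht)
    have hJr : ∀ q i, DifferentiableAt ℝ (fun y => jm ψ y q i) t := fun q i =>
      (hJ q i).restrictScalars ℝ
    have hJc : ∀ q i, DifferentiableAt ℝ (fun y => cj (jm ψ y q i)) t := fun q i =>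
      C2.differentiableAt_conj (hJr q i)
    have key : ∀ i l : Fin m, dz l (fun y => ∑ q, (∑ p, jm ψ y p i * w (ψ y) p q) *
        cj (jm ψ y q j)) t = ∑ q, (∑ p, (dz l (fun y => jm ψ y p i) t * w (ψ t) p q +
          jm ψ t p i * ∑ r, dz r (fun y => w y p q) (ψ t) * jm ψ t r l)) * cj (jm ψ t q j) := by
      intro i l
      have hin : ∀ q, DifferentiableAt ℝ (fun y => ∑ p, jm ψ y p i * w (ψ y) p q) t := fun q =>
        DifferentiableAt.fun_sum fun p _ => (hJr p i).fun_mul (hwc p q)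
      rw [C2.dz_sum l _ (fun q _ => (hin q).fun_mul (hJc q j))]
      refine Finset.sum_congr rfl fun q _ => ?_
      rw [C2.dz_mul l (hin q) (hJc q j), C2.dz_conj l (hJr q j),
        Vale.Agent.P272.K.dzb_of_holo (hJ q j), map_zero, mul_zero, add_zero]
      congr 1
      rw [C2.dz_sum l _ (fun p _ => (hJr p i).fun_mul (hwc p q))]
      refine Finset.sum_congr rfl fun p _ => ?_
      rw [C2.dz_mul l (hJr p i) (hwc p q), dz_comp_jm (f := fun y => w y p q) (hwd p q) (hd t ht)]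
    rw [key, key]
    refine Finset.sum_congr rfl fun q _ => ?_
    congr 1
    rw [Finset.sum_add_distrib, Finset.sum_add_distrib]
    congr 1
    · refine Finset.sum_congr rfl fun p _ => ?_
      rw [jm_symm hU hψ p i l ht]
    · simp only [Finset.mul_sum]
      rw [Finset.sum_comm]
      refine Finset.sum_congr rfl fun r _ => Finset.sum_congr rfl fun p _ => ?_
      rw [hw.closed _ (hm t ht) p q r]
      ring

/-- composition on both sides -/
theorem pull_change {ψ : Cm m → Cm n} {φ : Cm m → Cm n} {S : Cm m → Cm m} {T : Cm n → Cm n}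
    {w w' : Cm n → Matrix (Fin n) (Fin n) ℂ} {t : Cm m} (hψ : DifferentiableAt ℂ ψ t)
    (hφ : DifferentiableAt ℂ φ (S t)) (hS : DifferentiableAt ℂ S t)
    (hT : DifferentiableAt ℂ T (ψ t)) (he : ∀ᶠ y in 𝓝 t, T (ψ y) = φ (S y))
    (hw : w (ψ t) = (jm T (ψ t)).transpose * w' (T (ψ t)) * (jm T (ψ t)).map (starRingEnd ℂ)) :
    pull ψ w t = (jm S t).transpose * pull φ w' (S t) * (jm S t).map (starRingEnd ℂ) := by
  have h1 : jm T (ψ t) * jm ψ t = jm φ (S t) * jm S t := by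
    rw [← jm_comp hT hψ, ← jm_comp hφ hS]
    exact jm_congr he
  have h2 : (jm ψ t).transpose * (jm T (ψ t)).transpose =
      (jm S t).transpose * (jm φ (S t)).transpose := by
    rw [← Matrix.transpose_mul, ← Matrix.transpose_mul, h1]
  have h3 : (jm T (ψ t)).map (starRingEnd ℂ) * (jm ψ t).map (starRingEnd ℂ) =
      (jm φ (S t)).map (starRingEnd ℂ) * (jm S t).map (starRingEnd ℂ) := by
    rw [← Matrix.map_mul, ← Matrix.map_mul, h1]
  unfold pull
  rw [hw, he.self_of_nhds]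
  calc _ = ((jm ψ t).transpose * (jm T (ψ t)).transpose) * w' (φ (S t)) *
        ((jm T (ψ t)).map (starRingEnd ℂ) * (jm ψ t).map (starRingEnd ℂ)) := by
        simp only [Matrix.mul_assoc]
    _ = _ := by rw [h2, h3]; simp only [Matrix.mul_assoc]

/-! ### The metric of the fibre -/

section
variable {G : Type} [Group G]

/-- **S5c** -/
theorem exists_km {C : Coc n G} (K : KM C) {N : ℕ} {A : Alb C N} {y : Cm N} (X : FibCoc A y m) :
    ∃ K' : KM X.D, ∀ j t, K'.w j t = pull (X.ψ j) (K.w (X.ix j)) t := by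
  have hVΩ : ∀ a, C.V a ⊆ C.Ω a := fun a =>
    ball_subset_ball (by have := C.r_pos a; linarith)
  have hku : ∀ j, KU (ball (X.D.c j) (5 * X.D.r j)) (pull (X.ψ j) (K.w (X.ix j))) := fun j =>
    pull_ku isOpen_ball (X.holo j) (X.imm j) (K.ku (X.ix j)) fun t ht => hVΩ _ (X.maps j t ht)
  have h45 : ∀ j, closedBall (X.D.c j) (4 * X.D.r j) ⊆ ball (X.D.c j) (5 * X.D.r j) := fun j =>
    closedBall_subset_ball (by have := X.D.r_pos j; linarith)
  have hcl : ∀ j, X.D.Ω j ⊆ closedBall (X.D.c j) (4 * X.D.r j) := fun j => ball_subset_closedBall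
  have h : ∀ j, ∃ B : ℝ, 0 < B ∧ ∀ z ∈ closedBall (X.D.c j) (4 * X.D.r j),
      (∀ ξ : Cm m, ∑ i, ‖ξ i‖ ^ 2 ≤ B * (quad (pull (X.ψ j) (K.w (X.ix j)) z) ξ).re) ∧
      (∀ ξ : Cm m, (quad (pull (X.ψ j) (K.w (X.ix j)) z) ξ).re ≤ B * ∑ i, ‖ξ i‖ ^ 2) ∧
      vol (pull (X.ψ j) (K.w (X.ix j))) z ≤ B ∧ 1 ≤ B * vol (pull (X.ψ j) (K.w (X.ix j))) z :=
    fun j => exists_bds (isCompact_closedBall _ _) _
      (fun z hz => (hku j).smooth z (h45 j hz)) fun z hz => (hku j).pos z (h45 j hz)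
  choose B hB hB' using h
  obtain ⟨a0, ha0⟩ := Finite.exists_max B
  have hall : ∀ j, ∀ z ∈ X.D.Ω j,
      (∀ ξ : Cm m, ∑ i, ‖ξ i‖ ^ 2 ≤ B a0 * (quad (pull (X.ψ j) (K.w (X.ix j)) z) ξ).re) ∧
      (∀ ξ : Cm m, (quad (pull (X.ψ j) (K.w (X.ix j)) z) ξ).re ≤ B a0 * ∑ i, ‖ξ i‖ ^ 2) ∧
      vol (pull (X.ψ j) (K.w (X.ix j))) z ≤ B a0 ∧
      1 ≤ B a0 * vol (pull (X.ψ j) (K.w (X.ix j))) z := by
    intro j z hz
    obtain ⟨h1, h2, h3, h4⟩ := hB' j z (hcl j hz)
    have hpos := (hku j).pos z (h45 j (hcl j hz))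
    refine ⟨fun ξ => (h1 ξ).trans (mul_le_mul_of_nonneg_right (ha0 j) ?_),
      fun ξ => (h2 ξ).trans (mul_le_mul_of_nonneg_right (ha0 j) ?_), h3.trans (ha0 j),
      h4.trans (mul_le_mul_of_nonneg_right (ha0 j) ?_)⟩
    · exact quad_nonneg hpos.posSemidef ξ
    · exact Finset.sum_nonneg fun i _ => sq_nonneg _
    · exact (Complex.pos_iff.1 hpos.det_pos).1.le
  refine ⟨{
    w := fun j => pull (X.ψ j) (K.w (X.ix j))
    ku := fun j =>
      { isOpen := isOpen_ball
        smooth := fun z hz => (hku j).smooth z (h45 j (hcl j hz))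
        pos := fun z hz => (hku j).pos z (h45 j (hcl j hz))
        closed := fun z hz => (hku j).closed z (h45 j (hcl j hz)) }
    change := ?_
    lam := (B a0)⁻¹
    lam_pos := inv_pos.2 (hB a0)
    Lam := B a0
    low := fun j z hz v => by
      rw [sum_eq_quad, inv_mul_le_iff₀ (hB a0)]
      exact (hall j z hz).1 v
    up := fun j z hz v => by
      rw [sum_eq_quad]
      exact (hall j z hz).2.1 v
    vol_up := fun j z hz => (hall j z hz).2.2.1
    vol_low := fun j z hz => by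
      rw [inv_le_iff_one_le_mul₀' (hB a0)]
      exact (hall j z hz).2.2.2 }, fun j t => rfl⟩
  intro a b t ht
  have hta : t ∈ ball (X.D.c a) (5 * X.D.r a) := h45 a (hcl a (X.D.O_sub a b ht))
  have htb : X.D.T a b t ∈ ball (X.D.c b) (5 * X.D.r b) :=
    h45 b (hcl b (X.D.O_sub b a (X.D.T_mem a b t ht)))
  obtain ⟨hd1, hd2, -⟩ := X.dict a b t ht
  have hc := K.change (X.ix a) (X.ix b) (X.ψ a t) hd1
  refine pull_change ((X.holo a t hta).differentiableAt (isOpen_ball.mem_nhds hta))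
    ((X.holo b _ htb).differentiableAt (isOpen_ball.mem_nhds htb))
    ((X.D.T_holo a b t ht).differentiableAt ((X.D.O_open a b).mem_nhds ht))
    ((C.T_holo _ _ _ hd1).differentiableAt ((C.O_open _ _).mem_nhds hd1)) ?_ hc
  filter_upwards [(X.D.O_open a b).mem_nhds ht] with s hs
  exact (X.dict a b s hs).2.1

/-- the metric of the fibre -/
def FibCoc.km {C : Coc n G} (K : KM C) {N : ℕ} {A : Alb C N} {y : Cm N} (X : FibCoc A y m) :
    KM X.D := (exists_km K X).choose

theorem FibCoc.km_w {C : Coc n G} (K : KM C) {N : ℕ} {A : Alb C N} {y : Cm N} (X : FibCoc A y m)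
    (j : X.D.I) (t : Cm m) : (FibCoc.km K X).w j t = pull (X.ψ j) (K.w (X.ix j)) t :=
  (exists_km K X).choose_spec j t

end

end Vale.Agent.P284.H639.S5
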