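import Vale.Agent.P284.H639.TwIbp
import Vale.Agent.P284.H287.T.Defs

/-!
# P284, theorem T, T6 (helper639): sections twisted by a unitary representation

`f_ξ γ a z = Σ_b χ_b(z) π(γ κ_ab(z)) ξ` and `u₀ γ a z = Σ_b χ_b(z) b(γ κ_ab(z))`.
-/

open scoped Manifold ContDiff Topology Pointwise ComplexConjugate ComplexOrder Matrix
open Filter Set Metric MeasureTheory

noncomputable section

namespace Vale.Agent.P284.H639.T6

open Vale.Agent.P272.K Vale.Agent.P272.K.C2 Vale.Agent.P284.H248 Vale.Agent.P284.H894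
  Vale.Agent.P284.H894.V Vale.Agent.P284.H639.V Vale.Agent.P284.H639.Tw Vale.Agent.P284.H66
  Vale.Agent.P284.H913.V Vale.Agent.P284.H66.S7 Vale.Agent.P284.H287.T Vale.Agent.P284.H359.V

variable {n : ℕ} {Γ : Type} [Group Γ] {C : Coc n Γ}
variable {H : Type} [NormedAddCommGroup H] [InnerProductSpace ℝ H]

/-- average over the pieces of a function on the group with values in `H` -/
def av (P : PU C) (φ : Γ → H) (γ : Γ) (a : C.I) (z : Cm n) : H :=
  ∑ b, P.χ b a z • φ (γ * C.κ a b z)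

theorem av_smooth (P : PU C) (φ : Γ → H) (γ : Γ) (a : C.I) {z : Cm n} (hz : z ∈ C.Ω a) :
    ContDiffAt ℝ ∞ (av P φ γ a) z := by
  unfold av
  refine ContDiffAt.sum fun b _ => ?_
  by_cases h : z ∈ C.O a b ∧ C.T a b z ∈ P.K b
  · have h1 : ContDiffAt ℝ ∞ (fun y => P.χ b a y • φ (γ * C.κ a b z)) z :=
      (P.smooth b a z hz).smul contDiffAt_const
    refine h1.congr_of_eventuallyEq ?_
    filter_upwards [C.κ_loc a b z h.1] with y hy
    rw [hy]
  · have h1 := C.closed a b (P.K b) (P.compactK b)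
      (fun y hy => V_sub_Ω C b (P.K_sub b hy)) z hz h
    refine (contDiffAt_const (c := (0 : H))).congr_of_eventuallyEq ?_
    filter_upwards [h1, (isOpen_Ω C a).mem_nhds hz] with y hy hyΩ
    have h2 : P.χ b a y = 0 := by
      by_contra h3
      exact hy (P.supp b a y hyΩ h3)
    rw [h2, zero_smul]

theorem av_compat (P : PU C) (φ : Γ → H) (γ : Γ) {a d : C.I} {z : Cm n} (hz : z ∈ C.O a d) :
    av P φ γ a z = av P φ (γ * C.κ a d z) d (C.T a d z) := by
  unfold av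
  refine Finset.sum_congr rfl fun b _ => ?_
  rw [P.compat b a d z hz]
  by_cases h : P.χ b d (C.T a d z) = 0
  · rw [h]; simp
  · have h1 := (P.supp b d _ (T_mem_Ω C hz) h).1
    rw [C.trans_κ a d b z hz h1, mul_assoc]

theorem av_equi (P : PU C) {φ : Γ → H} (A : H →ₗ[ℝ] H) (c : H) (g : Γ)
    (hφ : ∀ h, φ (g * h) = A (φ h) + c) (γ : Γ) (a : C.I) {z : Cm n} (hz : z ∈ C.Ω a) :
    av P φ (g * γ) a z = A (av P φ γ a z) + c := by
  unfold av
  have h1 : ∀ b : C.I, P.χ b a z • φ (g * γ * C.κ a b z) =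
      A (P.χ b a z • φ (γ * C.κ a b z)) + P.χ b a z • c := by
    intro b
    rw [mul_assoc, hφ, smul_add, map_smul]
  simp only [h1]
  rw [Finset.sum_add_distrib, ← map_sum, ← Finset.sum_smul, P.sum_one a z hz, one_smul]

/-! ### Estimates -/

/-- If `φ` varies by at most `δ` over the neighbours, so does the average. -/
theorem av_sub_le (P : PU C) {φ : Γ → H} {γ : Γ} {δ : ℝ}
    (hφ : ∀ s ∈ C.N, ‖φ (γ * s) - φ γ‖ ≤ δ) {a : C.I} {z : Cm n} (hz : z ∈ C.V a) :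
    ‖av P φ γ a z - φ γ‖ ≤ δ := by
  have hz' := V_sub_Ω C a hz
  have e : av P φ γ a z - φ γ = ∑ b, P.χ b a z • (φ (γ * C.κ a b z) - φ γ) := by
    unfold av
    simp only [smul_sub, Finset.sum_sub_distrib]
    rw [← Finset.sum_smul, P.sum_one a z hz', one_smul]
  rw [e]
  calc ‖∑ b, P.χ b a z • (φ (γ * C.κ a b z) - φ γ)‖
      ≤ ∑ b, ‖P.χ b a z • (φ (γ * C.κ a b z) - φ γ)‖ := norm_sum_le _ _
    _ ≤ ∑ b, P.χ b a z * δ := by
        refine Finset.sum_le_sum fun b _ => ?_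
        rw [norm_smul, Real.norm_eq_abs, abs_of_nonneg (P.nonneg b a z)]
        by_cases h : P.χ b a z = 0
        · rw [h, zero_mul, zero_mul]
        · obtain ⟨h1, h2⟩ := P.supp b a z hz' h
          exact mul_le_mul_of_nonneg_left (hφ _ (C.κ_mem a b z h1 hz (P.K_sub b h2)))
            (P.nonneg b a z)
    _ = δ := by rw [← Finset.sum_mul, P.sum_one a z hz', one_mul]

/-- the derivative of the average -/
theorem av_fderiv (P : PU C) (φ : Γ → H) (γ : Γ) {a : C.I} {z : Cm n} (hz : z ∈ C.Ω a)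
    (x : Cm n) : fderiv ℝ (av P φ γ a) z x =
      ∑ b, fderiv ℝ (P.χ b a) z x • (φ (γ * C.κ a b z) - φ γ) := by
  have hd : ∀ b, DifferentiableAt ℝ (P.χ b a) z := fun b =>
    (P.smooth b a z hz).differentiableAt (by norm_num)
  have e0 : ∑ b, fderiv ℝ (P.χ b a) z x = 0 := by
    have h1 : (fun y => ∑ b, P.χ b a y) =ᶠ[𝓝 z] fun _ => 1 := by
      filter_upwards [(isOpen_Ω C a).mem_nhds hz] with y hy
      exact P.sum_one a y hy
    have h2 := h1.fderiv_eq (𝕜 := ℝ)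
    rw [fderiv_fun_sum fun b _ => hd b] at h2
    have h3 := congrArg (fun L : Cm n →L[ℝ] ℝ => L x) h2
    simpa using h3
  have key : ∀ b, HasFDerivAt (fun y => P.χ b a y • φ (γ * C.κ a b y))
      ((fderiv ℝ (P.χ b a) z).smulRight (φ (γ * C.κ a b z))) z := by
    intro b
    by_cases h : z ∈ C.O a b ∧ C.T a b z ∈ P.K b
    · have h1 := (hd b).hasFDerivAt.smul_const (φ (γ * C.κ a b z))
      refine h1.congr_of_eventuallyEq ?_
      filter_upwards [C.κ_loc a b z h.1] with y hy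
      rw [hy]
    · have h1 := C.closed a b (P.K b) (P.compactK b)
        (fun y hy => V_sub_Ω C b (P.K_sub b hy)) z hz h
      have h2 : P.χ b a =ᶠ[𝓝 z] fun _ => 0 := by
        filter_upwards [h1, (isOpen_Ω C a).mem_nhds hz] with y hy hyΩ
        by_contra h3
        exact hy (P.supp b a y hyΩ h3)
      have h3 : fderiv ℝ (P.χ b a) z = 0 := by
        rw [h2.fderiv_eq]
        exact fderiv_const_apply _
      rw [h3]
      have h4 : HasFDerivAt (fun _ : Cm n => (0 : H)) (0 : Cm n →L[ℝ] H) z := hasFDerivAt_const _ _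
      have h5 : (0 : Cm n →L[ℝ] ℝ).smulRight (φ (γ * C.κ a b z)) = 0 := by
        ext y
        simp
      rw [h5]
      refine h4.congr_of_eventuallyEq ?_
      filter_upwards [h2] with y hy
      rw [hy, zero_smul]
  have h6 : HasFDerivAt (av P φ γ a)
      (∑ b, (fderiv ℝ (P.χ b a) z).smulRight (φ (γ * C.κ a b z))) z := by
    unfold av
    exact HasFDerivAt.fun_sum fun b _ => key b
  rw [h6.fderiv, ContinuousLinearMap.sum_apply]
  simp only [ContinuousLinearMap.smulRight_apply, smul_sub, Finset.sum_sub_distrib]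
  rw [← Finset.sum_smul, e0, zero_smul, sub_zero]

theorem chi_fderiv_zero (P : PU C) {a b : C.I} {z : Cm n} (hz : z ∈ C.Ω a)
    (h : ¬ (z ∈ C.O a b ∧ C.T a b z ∈ P.K b)) : fderiv ℝ (P.χ b a) z = 0 := by
  have h1 := C.closed a b (P.K b) (P.compactK b)
    (fun y hy => V_sub_Ω C b (P.K_sub b hy)) z hz h
  have h2 : P.χ b a =ᶠ[𝓝 z] fun _ => 0 := by
    filter_upwards [h1, (isOpen_Ω C a).mem_nhds hz] with y hy hyΩ
    by_contra h3
    exact hy (P.supp b a y hyΩ h3)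
  rw [h2.fderiv_eq]
  exact fderiv_const_apply _

theorem av_fderiv_le (P : PU C) {φ : Γ → H} {γ : Γ} {δ : ℝ}
    (hφ : ∀ s ∈ C.N, ‖φ (γ * s) - φ γ‖ ≤ δ) {a : C.I} {z : Cm n} (hz : z ∈ C.V a) (x : Cm n) :
    ‖fderiv ℝ (av P φ γ a) z x‖ ≤ (∑ b, ‖fderiv ℝ (P.χ b a) z x‖) * δ := by
  have hz' := V_sub_Ω C a hz
  rw [av_fderiv P φ γ hz' x, Finset.sum_mul]
  refine (norm_sum_le _ _).trans (Finset.sum_le_sum fun b _ => ?_)
  rw [norm_smul]
  by_cases h : z ∈ C.O a b ∧ C.T a b z ∈ P.K b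
  · exact mul_le_mul_of_nonneg_left (hφ _ (C.κ_mem a b z h.1 hz (P.K_sub b h.2))) (norm_nonneg _)
  · rw [chi_fderiv_zero P hz' h]
    simp

/-- a bound for the derivatives of the partition of unity on the middle balls -/
theorem exists_chi_bound (P : PU C) : ∃ A : ℝ, 0 ≤ A ∧ ∀ a, ∀ z ∈ C.V a, ∀ x : Cm n,
    ∑ b, ‖fderiv ℝ (P.χ b a) z x‖ ≤ A * ‖x‖ := by
  have h1 : ∀ a : C.I, ∃ A : ℝ, 0 ≤ A ∧ ∀ z ∈ C.V a, ∑ b, ‖fderiv ℝ (P.χ b a) z‖ ≤ A := by
    intro a
    have hK : IsCompact (closedBall (C.c a) (3 * C.r a)) := isCompact_closedBall _ _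
    have hsub : closedBall (C.c a) (3 * C.r a) ⊆ C.Ω a := by
      refine closedBall_subset_ball ?_
      have := C.r_pos a
      linarith
    have hc : ContinuousOn (fun z => ∑ b, ‖fderiv ℝ (P.χ b a) z‖)
        (closedBall (C.c a) (3 * C.r a)) := by
      intro z hz
      have h2 : ContinuousAt (fun z => ∑ b, ‖fderiv ℝ (P.χ b a) z‖) z := by
        refine tendsto_finsetSum _ fun b _ => ?_
        have h3 := ((P.smooth b a z (hsub hz)).fderiv_right (m := 0) (by norm_num)).continuousAt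
        exact h3.norm
      exact h2.continuousWithinAt
    obtain ⟨M, hM⟩ := hK.exists_bound_of_continuousOn hc
    refine ⟨max M 0, le_max_right _ _, fun z hz => ?_⟩
    have h4 := hM z (ball_subset_closedBall hz)
    rw [Real.norm_eq_abs] at h4
    exact (le_abs_self _).trans (h4.trans (le_max_left _ _))
  choose A hA0 hA using h1
  refine ⟨∑ a, A a, Finset.sum_nonneg fun a _ => hA0 a, fun a z hz x => ?_⟩
  have h2 : A a ≤ ∑ a, A a := Finset.single_le_sum (fun a _ => hA0 a) (Finset.mem_univ a)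
  calc ∑ b, ‖fderiv ℝ (P.χ b a) z x‖ ≤ ∑ b, ‖fderiv ℝ (P.χ b a) z‖ * ‖x‖ :=
        Finset.sum_le_sum fun b _ => ContinuousLinearMap.le_opNorm _ _
    _ = (∑ b, ‖fderiv ℝ (P.χ b a) z‖) * ‖x‖ := by rw [Finset.sum_mul]
    _ ≤ (∑ a, A a) * ‖x‖ := mul_le_mul_of_nonneg_right ((hA a z hz).trans h2) (norm_nonneg _)

theorem av_fderiv_le' (P : PU C) : ∃ A : ℝ, 0 ≤ A ∧ ∀ (H : Type) [NormedAddCommGroup H]
    [InnerProductSpace ℝ H] (φ : Γ → H) (γ : Γ) (δ : ℝ), (∀ s ∈ C.N, ‖φ (γ * s) - φ γ‖ ≤ δ) →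
    ∀ a, ∀ z ∈ C.V a, ‖fderiv ℝ (av P φ γ a) z‖ ≤ A * δ := by
  obtain ⟨A, hA, h⟩ := exists_chi_bound P
  refine ⟨A, hA, fun H _ _ φ γ δ hφ a z hz => ?_⟩
  have hδ : 0 ≤ δ := by
    obtain ⟨b, hb, hb'⟩ := C.cover a z (V_sub_Ω C a hz)
    have hr := C.r_pos b
    have hm := C.κ_mem a b z hb hz (ball_subset_ball (by linarith) hb')
    exact (norm_nonneg _).trans (hφ _ hm)
  refine ContinuousLinearMap.opNorm_le_bound _ (mul_nonneg hA hδ) fun x => ?_
  refine (av_fderiv_le P hφ hz x).trans ?_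
  calc (∑ b, ‖fderiv ℝ (P.χ b a) z x‖) * δ ≤ (A * ‖x‖) * δ :=
        mul_le_mul_of_nonneg_right (h a z hz x) hδ
    _ = A * δ * ‖x‖ := by ring

theorem BD_const (c : ℝ) : BD C (fun _ _ => c) where
  cont a := continuousOn_const
  compat a b z _ _ _ := rfl

theorem BInt_one_pos (P : PU C) (K : KM C) : 0 < BInt P K (fun _ _ => 1) := by
  obtain ⟨a⟩ := C.ne
  have h1 := BD.le P K (BD_const (C := C) 1) (fun _ _ _ => zero_le_one) a
  refine lt_of_lt_of_le ?_ h1
  have hne : (C.V a).Nonempty := ⟨C.c a, mem_ball_self (by have := C.r_pos a; linarith)⟩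
  have h2 : ∀ z ∈ C.V a, 0 < (fun z => (1 : ℝ) * vol (K.w a) z) z := by
    intro z hz
    have := (H730.V.vpStmt.nonneg (K.w a) (fun _ => 0) z ((K.ku a).pos z (V_sub_Ω C a hz))).2.2
    simpa using this
  rw [setIntegral_pos_iff_support_of_nonneg_ae]
  · have h3 : Function.support (fun z => (1 : ℝ) * vol (K.w a) z) ∩ C.V a = C.V a := by
      ext z
      constructor
      · exact fun h => h.2
      · exact fun h => ⟨(h2 z h).ne', h⟩
    rw [h3]
    exact (isOpen_V C a).measure_pos _ hne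
  · filter_upwards [ae_restrict_mem (isOpen_V C a).measurableSet] with z hz
    exact (h2 z hz).le
  · exact (BD_const (C := C) 1).int_vol K a

theorem BInt_const (P : PU C) (K : KM C) (c : ℝ) :
    BInt P K (fun _ _ => c) = c * BInt P K (fun _ _ => 1) := by
  have h := BInt_comb P K (BD_const (C := C) 1) (BD_const (C := C) 1) c 0
  simpa using h

/-! ### The sections -/

/-- the almost invariant section -/
def fx (P : PU C) (π : Γ →* (H ≃ₗᵢ[ℝ] H)) (ξ : H) : Γ → C.I → Cm n → H :=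
  av P fun g => π g ξ

theorem fx_sec (P : PU C) (π : Γ →* (H ≃ₗᵢ[ℝ] H)) (ξ : H) : Sec C π 0 (fx P π ξ) where
  smooth γ a _ hz := av_smooth P _ γ a hz
  compat γ _ _ _ hz := av_compat P _ γ hz
  equi g γ a z hz := by
    have h := av_equi P (φ := fun g => π g ξ) ((π g).toLinearEquiv : H →ₗ[ℝ] H) 0 g
      (fun h => by simp [map_mul]) γ a hz
    rw [add_zero] at h
    rw [Pi.zero_apply, add_zero]
    exact h

/-- **(6b)** a smooth section with given periods -/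
theorem u0_sec (P : PU C) (π : Γ →* (H ≃ₗᵢ[ℝ] H)) (b : Γ → H)
    (hb : ∀ g h, b (g * h) = b g + π g (b h)) : Sec C π b (av P b) where
  smooth γ a _ hz := av_smooth P _ γ a hz
  compat γ _ _ _ hz := av_compat P _ γ hz
  equi g γ a z hz := by
    exact av_equi P (φ := b) ((π g).toLinearEquiv : H →ₗ[ℝ] H) (b g) g
      (fun h => by rw [hb, add_comm]; rfl) γ a hz

theorem one_ev (π : Γ →* (H ≃ₗᵢ[ℝ] H)) {u : Γ → C.I → Cm n → H} (hu : Sec C π 0 u) {a b : C.I}
    {z : Cm n} (hz : z ∈ C.O a b) : u 1 a z = π (C.κ a b z) (u 1 b (C.T a b z)) := by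
  have h1 := hu.equi (C.κ a b z) 1 b (C.T a b z) (T_mem_Ω C hz)
  rw [mul_one, Pi.zero_apply, add_zero] at h1
  rw [hu.compat 1 a b z hz, one_mul, h1]

/-- inner products of sections are functions on the base -/
theorem BD_inner (π : Γ →* (H ≃ₗᵢ[ℝ] H)) {u v : Γ → C.I → Cm n → H} (hu : Sec C π 0 u)
    (hv : Sec C π 0 v) : BD C (fun a z => @inner ℝ H _ (u 1 a z) (v 1 a z)) where
  cont a z hz := ((hu.smooth 1 a z hz).continuousAt.inner (𝕜 := ℝ)
    (hv.smooth 1 a z hz).continuousAt).continuousWithinAt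
  compat a b z hz _ _ := by
    rw [one_ev π hu hz, one_ev π hv hz, LinearIsometryEquiv.inner_map_map]

theorem BD_nsq (π : Γ →* (H ≃ₗᵢ[ℝ] H)) {u : Γ → C.I → Cm n → H} (hu : Sec C π 0 u) :
    BD C (fun a z => ‖u 1 a z‖ ^ 2) :=
  BD_congr (BD_inner π hu hu) fun a z _ => real_inner_self_eq_norm_sq _

theorem fx_norm_le (P : PU C) (π : Γ →* (H ≃ₗᵢ[ℝ] H)) (ξ : H) {a : C.I} {z : Cm n}
    (hz : z ∈ C.Ω a) : ‖fx P π ξ 1 a z‖ ≤ ‖ξ‖ := by
  unfold fx av
  calc ‖∑ b, P.χ b a z • π (1 * C.κ a b z) ξ‖ ≤ ∑ b, ‖P.χ b a z • π (1 * C.κ a b z) ξ‖ :=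
        norm_sum_le _ _
    _ = ∑ b, P.χ b a z * ‖ξ‖ := by
        refine Finset.sum_congr rfl fun b _ => ?_
        rw [norm_smul, Real.norm_eq_abs, abs_of_nonneg (P.nonneg b a z),
          LinearIsometryEquiv.norm_map]
    _ = ‖ξ‖ := by rw [← Finset.sum_mul, P.sum_one a z hz, one_mul]

/-- the `L²` norm of the almost invariant section -/
theorem fx_L2 (P : PU C) (K : KM C) (π : Γ →* (H ≃ₗᵢ[ℝ] H)) {ξ : H} {δ : ℝ} (hδ : δ ≤ ‖ξ‖)
    (h : ∀ s ∈ C.N, ‖π s ξ - ξ‖ ≤ δ) :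
    (‖ξ‖ - δ) ^ 2 * BInt P K (fun _ _ => 1) ≤ BInt P K (fun a z => ‖fx P π ξ 1 a z‖ ^ 2) ∧
    BInt P K (fun a z => ‖fx P π ξ 1 a z‖ ^ 2) ≤ ‖ξ‖ ^ 2 * BInt P K (fun _ _ => 1) := by
  constructor
  · rw [← BInt_const]
    refine BInt_mono P K (BD_const _) (BD_nsq π (fx_sec P π ξ)) fun a z hz => ?_
    have h1 : ‖fx P π ξ 1 a z - ξ‖ ≤ δ := by
      have h2 := av_sub_le P (φ := fun g => π g ξ) (γ := 1) (δ := δ)
        (fun s hs => by simpa using h s hs) hz
      simpa [fx] using h2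
    have h3 : ‖ξ‖ - δ ≤ ‖fx P π ξ 1 a z‖ := by
      have h4 : ‖ξ‖ ≤ ‖fx P π ξ 1 a z‖ + ‖fx P π ξ 1 a z - ξ‖ := by
        have h5 := norm_sub_le (fx P π ξ 1 a z) (fx P π ξ 1 a z - ξ)
        rwa [sub_sub_cancel] at h5
      linarith
    exact pow_le_pow_left₀ (by linarith) h3 2
  · rw [← BInt_const]
    refine BInt_mono P K (BD_nsq π (fx_sec P π ξ)) (BD_const _) fun a z hz => ?_
    exact pow_le_pow_left₀ (norm_nonneg _) (fx_norm_le P π ξ (V_sub_Ω C a hz)) 2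

theorem cw_cont {U : Set (Cm n)} {w : Cm n → Matrix (Fin n) (Fin n) ℂ} (hw : KU U w) {z : Cm n}
    (hz : z ∈ U) (a b : Fin n × Bool) : ContDiffAt ℝ ∞ (fun y => cw w y a b) z := by
  have h0 : (w z).det ≠ 0 := (hw.pos z hz).det_pos.ne'
  have h1 : MC ∞ w z := fun i j => hw.smooth z hz i j
  have h : ContDiffAt ℝ ∞ (fun y => (w y)⁻¹ b.1 a.1) z := h1.inv h0 b.1 a.1
  have hre : ContDiffAt ℝ ∞ (fun y => ((w y)⁻¹ b.1 a.1).re) z :=
    Complex.reCLM.contDiff.contDiffAt.comp z h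
  have him : ContDiffAt ℝ ∞ (fun y => ((w y)⁻¹ b.1 a.1).im) z :=
    Complex.imCLM.contDiff.contDiffAt.comp z h
  unfold cw cf
  obtain ⟨j, α⟩ := a
  obtain ⟨k, β⟩ := b
  cases α <;> cases β <;> simp only [if_true, if_false, reduceCtorEq, Bool.false_eq_true,
    Bool.true_eq_false] <;> first | exact hre.div_const 4 | exact him.div_const 4 | exact him.neg.div_const 4

/-- a bound for the coefficients of the metric on the middle balls -/
theorem exists_cw_bound (K : KM C) : ∃ A : ℝ, 0 ≤ A ∧ ∀ a, ∀ z ∈ C.V a,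
    ∑ i, ∑ j, |cw (K.w a) z i j| ≤ A := by
  have h1 : ∀ a : C.I, ∃ A : ℝ, 0 ≤ A ∧ ∀ z ∈ C.V a, ∑ i, ∑ j, |cw (K.w a) z i j| ≤ A := by
    intro a
    have hK : IsCompact (closedBall (C.c a) (3 * C.r a)) := isCompact_closedBall _ _
    have hsub : closedBall (C.c a) (3 * C.r a) ⊆ C.Ω a := by
      refine closedBall_subset_ball ?_
      have := C.r_pos a
      linarith
    have hc : ContinuousOn (fun z => ∑ i, ∑ j, |cw (K.w a) z i j|)
        (closedBall (C.c a) (3 * C.r a)) := by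
      intro z hz
      have h2 : ContinuousAt (fun z => ∑ i, ∑ j, |cw (K.w a) z i j|) z := by
        refine tendsto_finsetSum _ fun i _ => tendsto_finsetSum _ fun j _ => ?_
        exact (cw_cont (K.ku a) (hsub hz) i j).continuousAt.abs
      exact h2.continuousWithinAt
    obtain ⟨M, hM⟩ := hK.exists_bound_of_continuousOn hc
    refine ⟨max M 0, le_max_right _ _, fun z hz => ?_⟩
    have h4 := hM z (ball_subset_closedBall hz)
    rw [Real.norm_eq_abs] at h4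
    exact (le_abs_self _).trans (h4.trans (le_max_left _ _))
  choose A hA0 hA using h1
  exact ⟨∑ a, A a, Finset.sum_nonneg fun a _ => hA0 a, fun a z hz => (hA a z hz).trans
    (Finset.single_le_sum (fun a _ => hA0 a) (Finset.mem_univ a))⟩

theorem grH_le (w : Cm n → Matrix (Fin n) (Fin n) ℂ) (u : Cm n → H) (z : Cm n) :
    |grH w u u z| ≤ (∑ i, ∑ j, |cw w z i j|) * ‖fderiv ℝ u z‖ ^ 2 := by
  have hd : ∀ i, ‖dH u z i‖ ≤ ‖fderiv ℝ u z‖ := fun i =>
    ((fderiv ℝ u z).le_opNorm _).trans (mul_le_of_le_one_right (norm_nonneg _) (norm_ev i))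
  unfold grH
  refine (Finset.abs_sum_le_sum_abs _ _).trans ?_
  rw [Finset.sum_mul]
  refine Finset.sum_le_sum fun i _ => (Finset.abs_sum_le_sum_abs _ _).trans ?_
  rw [Finset.sum_mul]
  refine Finset.sum_le_sum fun j _ => ?_
  rw [abs_mul]
  refine mul_le_mul_of_nonneg_left ?_ (abs_nonneg _)
  refine (abs_real_inner_le_norm _ _).trans ?_
  rw [sq]
  exact mul_le_mul (hd i) (hd j) (norm_nonneg _) (norm_nonneg _)

theorem grH_cont (K : KM C) {a : C.I} {u v : Cm n → H} (hu : ∀ z ∈ C.Ω a, ContDiffAt ℝ ∞ u z)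
    (hv : ∀ z ∈ C.Ω a, ContDiffAt ℝ ∞ v z) : ContinuousOn (grH (K.w a) u v) (C.Ω a) := by
  intro z hz
  have h2 : ContinuousAt (grH (K.w a) u v) z := by
    refine tendsto_finsetSum _ fun i _ => tendsto_finsetSum _ fun j _ => ?_
    have h3 : ContinuousAt (fun y => fderiv ℝ u y (ev i)) z :=
      ((hu z hz).fderiv_right (m := 0) (by norm_num)).continuousAt.clm_apply continuousAt_const
    have h4 : ContinuousAt (fun y => fderiv ℝ v y (ev j)) z :=
      ((hv z hz).fderiv_right (m := 0) (by norm_num)).continuousAt.clm_apply continuousAt_const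
    exact (cw_cont (K.ku a) hz i j).continuousAt.mul (h3.inner (𝕜 := ℝ) h4)
  exact h2.continuousWithinAt

/-- **(6c)** the energy of the almost invariant section -/
theorem fx_energy (P : PU C) (K : KM C) : ∃ A : ℝ, 0 ≤ A ∧ ∀ (H : Type) [NormedAddCommGroup H]
    [InnerProductSpace ℝ H] (π : Γ →* (H ≃ₗᵢ[ℝ] H)) (ξ : H) (δ : ℝ),
    (∀ s ∈ C.N, ‖π s ξ - ξ‖ ≤ δ) →
    BInt P K (fun a z => grH (K.w a) (fx P π ξ 1 a) (fx P π ξ 1 a) z) ≤ A * δ ^ 2 := by
  obtain ⟨A, hA, h⟩ := av_fderiv_le' P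
  obtain ⟨B, hB, hB'⟩ := exists_cw_bound K
  refine ⟨B * A ^ 2 * BInt P K (fun _ _ => 1),
    mul_nonneg (mul_nonneg hB (sq_nonneg A)) (BInt_one_pos P K).le, fun H _ _ π ξ δ hδ => ?_⟩
  have hfx : ∀ a, ∀ z ∈ C.Ω a, ContDiffAt ℝ ∞ (fx P π ξ 1 a) z := (fx_sec P π ξ).smooth 1
  have e : B * A ^ 2 * BInt P K (fun _ _ => 1) * δ ^ 2 = BInt P K (fun _ _ => B * (A * δ) ^ 2) := by
    rw [BInt_const P K (B * (A * δ) ^ 2)]
    ring
  rw [e]
  unfold BInt
  refine Finset.sum_le_sum fun a _ => ?_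
  refine setIntegral_mono_on ?_ ?_ measurableSet_ball fun z hz => ?_
  · exact intV (((chi_cont P a a).mul (grH_cont K (hfx a) (hfx a))).mul (vol_cont K a))
  · exact (BD_const (C := C) _).int_chi P K a a
  · have h1 : grH (K.w a) (fx P π ξ 1 a) (fx P π ξ 1 a) z ≤ B * (A * δ) ^ 2 := by
      refine (le_abs_self _).trans ((grH_le _ _ _).trans ?_)
      have h2 := h H (fun g => π g ξ) 1 δ (fun s hs => by simpa using hδ s hs) a z hz
      exact mul_le_mul (hB' a z hz) (pow_le_pow_left₀ (norm_nonneg _) h2 2) (sq_nonneg _) hB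
    have h2 := P.nonneg a a z
    have h3 := vol_nn K (V_sub_Ω C a hz)
    gcongr

end Vale.Agent.P284.H639.T6
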