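import Vale.Agent.P284.H639.TwIbp
import Vale.Agent.P284.H894.V.V13

/-!
# P284, theorem A (helper639): the resolvent lemma applied to twisted sections

`L v = Δ v - q v` on sections twisted by a unitary character has dense range, `q ≥ 0`, `q ≢ 0`.
-/

open scoped Manifold ContDiff Topology Pointwise ComplexConjugate ComplexOrder Matrix
open Filter Set Metric MeasureTheory

noncomputable section

namespace Vale.Agent.P284.H639.Tw

open Vale.Agent.P272.K Vale.Agent.P272.K.C2 Vale.Agent.P284.H248 Vale.Agent.P284.H894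
  Vale.Agent.P284.H894.V Vale.Agent.P284.H639.V Vale.Agent.P284.H66 Vale.Agent.P284.H913.V
  Vale.Agent.P284.H66.S7
open Vale.Agent.P284.H409.A (lapC Tw Psi Pot IbpStmt DensStmt PoinStmt ResStmt)

section glob
variable {n : ℕ} {Γ : Type} [Group Γ] {C : Coc n Γ}
variable {σ : Γ → ℂ} {s v : Γ → C.I → Cm n → ℂ}

theorem BD_mul {F G : C.I → Cm n → ℝ} (hF : BD C F) (hG : BD C G) :
    BD C (fun a z => F a z * G a z) where
  cont a := (hF.cont a).mul (hG.cont a)
  compat a b z hz hza hzb := by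
    simp only [hF.compat a b z hz hza hzb, hG.compat a b z hz hza hzb]

theorem Pot.BD {q : C.I → Cm n → ℝ} (hq : Pot C q) : BD C q where
  cont a z hz := (hq.smooth a z hz).continuousAt.continuousWithinAt
  compat a b z hz _ _ := hq.compat a b z hz

/-- the real vector space of sections -/
def VV (C : Coc n Γ) (σ : Γ → ℂ) : Submodule ℝ (Γ → C.I → Cm n → ℂ) where
  carrier := {s | UT C σ s}
  add_mem' hs hv := UT.add hs hv
  zero_mem' := UT.zero
  smul_mem' c s hs := by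
    have h := UT.const_mul hs (c : ℂ)
    have e : (fun γ a z => (c : ℂ) * s γ a z) = c • s := by
      funext γ a z
      simp
    rw [e] at h
    exact h

theorem VV.ut (f : VV C σ) : UT C σ (f : Γ → C.I → Cm n → ℂ) := f.2

/-- inner product density -/
def ipd (s v : Γ → C.I → Cm n → ℂ) (a : C.I) (z : Cm n) : ℝ := (s 1 a z * conj (v 1 a z)).re

/-- energy density -/
def grd (K : KM C) (s v : Γ → C.I → Cm n → ℂ) (a : C.I) (z : Cm n) : ℝ :=
  gr (K.w a) (fun y => (s 1 a y).re) (fun y => (v 1 a y).re) z +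
    gr (K.w a) (fun y => (s 1 a y).im) (fun y => (v 1 a y).im) z

theorem re_df {s : Cm n → ℂ} {z : Cm n} (h : ContDiffAt ℝ ∞ s z) :
    DifferentiableAt ℝ (fun y => (s y).re) z := (re_sm h).differentiableAt (by norm_num)

theorem im_df {s : Cm n → ℂ} {z : Cm n} (h : ContDiffAt ℝ ∞ s z) :
    DifferentiableAt ℝ (fun y => (s y).im) z := (im_sm h).differentiableAt (by norm_num)

theorem grd_add (K : KM C) {s t : Γ → C.I → Cm n → ℂ} (hs : UT C σ s) (ht : UT C σ t)
    (v : Γ → C.I → Cm n → ℂ) {a : C.I} {z : Cm n} (hz : z ∈ C.Ω a) :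
    grd K (s + t) v a z = grd K s v a z + grd K t v a z := by
  have h1 := hs.smooth 1 a z hz
  have h2 := ht.smooth 1 a z hz
  have e1 := Asm.gr_add (w := K.w a) (h := fun y => (v 1 a y).re) (re_df h1) (re_df h2)
  have e2 := Asm.gr_add (w := K.w a) (h := fun y => (v 1 a y).im) (im_df h1) (im_df h2)
  show gr _ (fun y => (s 1 a y + t 1 a y).re) _ z + gr _ (fun y => (s 1 a y + t 1 a y).im) _ z = _
  simp only [Complex.add_re, Complex.add_im]
  rw [e1, e2, grd, grd]
  ring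

theorem grd_smul (K : KM C) (c : ℝ) (hs : UT C σ s)
    (v : Γ → C.I → Cm n → ℂ) {a : C.I} {z : Cm n} (hz : z ∈ C.Ω a) :
    grd K (c • s) v a z = c * grd K s v a z := by
  have h1 := hs.smooth 1 a z hz
  have e1 := Asm.gr_smul (w := K.w a) (h := fun y => (v 1 a y).re) c (re_df h1)
  have e2 := Asm.gr_smul (w := K.w a) (h := fun y => (v 1 a y).im) c (im_df h1)
  show gr _ (fun y => (c • s 1 a y).re) _ z + gr _ (fun y => (c • s 1 a y).im) _ z = _
  simp only [Complex.smul_re, Complex.smul_im, smul_eq_mul]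
  rw [e1, e2, grd]
  ring

theorem grd_symm (K : KM C) (s v : Γ → C.I → Cm n → ℂ) {a : C.I} {z : Cm n} (hz : z ∈ C.Ω a) :
    grd K s v a z = grd K v s a z := by
  have hp := (K.ku a).pos z hz
  rw [grd, grd, H730.V.vpStmt.symm _ _ _ _ hp, H730.V.vpStmt.symm _ (fun y => (s 1 a y).im) _ _ hp]

theorem grd_nonneg (K : KM C) (s : Γ → C.I → Cm n → ℂ) {a : C.I} {z : Cm n} (hz : z ∈ C.Ω a) :
    0 ≤ grd K s s a z := by
  have hp := (K.ku a).pos z hz
  exact add_nonneg (H730.V.vpStmt.nonneg _ _ _ hp).1 (H730.V.vpStmt.nonneg _ _ _ hp).1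

theorem ipd_symm (s v : Γ → C.I → Cm n → ℂ) (a : C.I) (z : Cm n) :
    ipd s v a z = ipd v s a z := by
  simp only [ipd, Complex.mul_re, Complex.conj_re, Complex.conj_im]
  ring

theorem ipd_self (s : Γ → C.I → Cm n → ℂ) (a : C.I) (z : Cm n) :
    ipd s s a z = ‖s 1 a z‖ ^ 2 := by
  rw [ipd, Complex.mul_conj, Complex.ofReal_re, Complex.normSq_eq_norm_sq]

/-- a symmetric bilinear form from a density -/
def bil (P : PU C) (K : KM C) (σ : Γ → ℂ)
    (D : (Γ → C.I → Cm n → ℂ) → (Γ → C.I → Cm n → ℂ) → C.I → Cm n → ℝ)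
    (hBD : ∀ s v, UT C σ s → UT C σ v → BD C (D s v))
    (hsymm : ∀ s v a, ∀ z ∈ C.Ω a, D s v a z = D v s a z)
    (hadd : ∀ s t v, UT C σ s → UT C σ t → ∀ a, ∀ z ∈ C.Ω a,
      D (s + t) v a z = D s v a z + D t v a z)
    (hsmul : ∀ (c : ℝ) s v, UT C σ s → ∀ a, ∀ z ∈ C.Ω a, D (c • s) v a z = c * D s v a z) :
    VV C σ →ₗ[ℝ] VV C σ →ₗ[ℝ] ℝ :=
  LinearMap.mk₂ ℝ (fun f h => BInt P K (D (f : Γ → C.I → Cm n → ℂ) h))
    (by
      intro f g h
      rw [← BInt_add P K (hBD _ _ f.2 h.2) (hBD _ _ g.2 h.2)]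
      exact BInt_congr P K fun a z hz => hadd _ _ _ f.2 g.2 a z (V_sub_Ω C a hz))
    (by
      intro c f h
      have h1 := BInt_comb P K (hBD _ _ f.2 h.2) (hBD _ _ f.2 h.2) c 0
      rw [zero_mul, add_zero] at h1
      rw [smul_eq_mul, ← h1]
      refine BInt_congr P K fun a z hz => ?_
      rw [zero_mul, add_zero]
      exact hsmul c _ _ f.2 a z (V_sub_Ω C a hz))
    (by
      intro f g h
      rw [← BInt_add P K (hBD _ _ f.2 g.2) (hBD _ _ f.2 h.2)]
      refine BInt_congr P K fun a z hz => ?_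
      have hz' := V_sub_Ω C a hz
      rw [hsymm _ _ a z hz', hsymm (f : Γ → C.I → Cm n → ℂ) g a z hz',
        hsymm (f : Γ → C.I → Cm n → ℂ) h a z hz']
      exact hadd _ _ _ g.2 h.2 a z hz')
    (by
      intro c f h
      have h1 := BInt_comb P K (hBD _ _ f.2 h.2) (hBD _ _ f.2 h.2) c 0
      rw [zero_mul, add_zero] at h1
      rw [smul_eq_mul, ← h1]
      refine BInt_congr P K fun a z hz => ?_
      have hz' := V_sub_Ω C a hz
      rw [zero_mul, add_zero, hsymm _ _ a z hz', hsymm (f : Γ → C.I → Cm n → ℂ) h a z hz']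
      exact hsmul c _ _ h.2 a z hz')

/-- the operator `Δ v - q v`, extended by `0` -/
def Lq (K : KM C) (q : C.I → Cm n → ℝ) (s : Γ → C.I → Cm n → ℂ) (γ : Γ) (a : C.I) (z : Cm n) : ℂ :=
  (C.Ω a).indicator (fun z => lapC (K.w a) (s γ a) z - (q a z : ℂ) * s γ a z) z

theorem Lq_of_mem (K : KM C) (q : C.I → Cm n → ℝ) (s : Γ → C.I → Cm n → ℂ) (γ : Γ) {a : C.I}
    {z : Cm n} (hz : z ∈ C.Ω a) :
    Lq K q s γ a z = lapC (K.w a) (s γ a) z - (q a z : ℂ) * s γ a z := indicator_of_mem hz _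

theorem Lq_ut (K : KM C) {q : C.I → Cm n → ℝ} (hq : Pot C q) (hs : UT C σ s) :
    UT C σ (Lq K q s) := by
  have h1 := (hs.lapC K).add ((hs.mul_base hq.smooth hq.compat).const_mul (-1))
  refine ⟨fun γ a z hz => ?_, fun γ a b z hz => ?_, fun g γ a z hz => ?_⟩
  · refine (h1.smooth γ a z hz).congr_of_eventuallyEq ?_
    filter_upwards [(isOpen_Ω C a).mem_nhds hz] with y hy
    rw [Lq_of_mem K q s γ hy]
    ring
  · have h2 := h1.compat γ a b z hz
    rw [Lq_of_mem K q s γ (O_sub_Ω C hz), Lq_of_mem K q s _ (T_mem_Ω C hz)]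
    linear_combination h2
  · have h2 := h1.equiv g γ a z hz
    rw [Lq_of_mem K q s _ hz, Lq_of_mem K q s _ hz]
    linear_combination h2

/-- the operator as a linear map -/
def LL (K : KM C) {q : C.I → Cm n → ℝ} (hq : Pot C q) : VV C σ →ₗ[ℝ] VV C σ where
  toFun f := ⟨Lq K q f, Lq_ut K hq f.2⟩
  map_add' := by
    intro f g
    apply Subtype.ext
    funext γ a z
    show Lq K q (fun γ a z => (f : Γ → C.I → Cm n → ℂ) γ a z + (g : Γ → C.I → Cm n → ℂ) γ a z)
      γ a z = Lq K q f γ a z + Lq K q g γ a z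
    by_cases hz : z ∈ C.Ω a
    · rw [Lq_of_mem K q _ γ hz, Lq_of_mem K q _ γ hz, Lq_of_mem K q _ γ hz,
        lapC_add (K.w a) (f.2.smooth γ a z hz) (g.2.smooth γ a z hz)]
      ring
    · rw [Lq, Lq, Lq, indicator_of_notMem hz, indicator_of_notMem hz, indicator_of_notMem hz,
        add_zero]
  map_smul' := by
    intro c f
    apply Subtype.ext
    funext γ a z
    have e : ((c • f : VV C σ) : Γ → C.I → Cm n → ℂ) =
        fun γ a z => (c : ℂ) * (f : Γ → C.I → Cm n → ℂ) γ a z := by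
      funext γ a z
      show c • (f : Γ → C.I → Cm n → ℂ) γ a z = _
      simp
    show Lq K q ((c • f : VV C σ) : Γ → C.I → Cm n → ℂ) γ a z = c • Lq K q f γ a z
    rw [e, Complex.real_smul]
    by_cases hz : z ∈ C.Ω a
    · rw [Lq_of_mem K q _ γ hz, Lq_of_mem K q _ γ hz,
        lapC_const_mul (K.w a) (c : ℂ) (f.2.smooth γ a z hz)]
      ring
    · rw [Lq, Lq, indicator_of_notMem hz, indicator_of_notMem hz, mul_zero]

theorem ex_pot (hD : DensStmt) (hI : IbpStmt) (hP : PoinStmt) (hR : ResStmt)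
    (n : ℕ) (Γ : Type) [Group Γ] (C : Coc n Γ) (P : PU C) (K : KM C) (σ : Γ → ℂ)
    (hσ : ∀ g, ‖σ g‖ = 1) (hσm : ∀ g h, σ (g * h) = σ g * σ h) (q : C.I → Cm n → ℝ)
    (hq : Pot C q) (hq0 : ∃ a, ∃ z ∈ C.Ω a, q a z ≠ 0) (s : Γ → C.I → Cm n → ℂ)
    (hs : Tw C σ 0 s) (δ : ℝ) (hδ : 0 < δ) :
    ∃ v, Tw C σ 0 v ∧ BInt P K (fun a z => ‖lapC (K.w a) (v 1 a) z - (q a z : ℂ) * v 1 a z -
      s 1 a z‖ ^ 2) < δ := by
  -- the forms
  have hipBD : ∀ s v : Γ → C.I → Cm n → ℂ, UT C σ s → UT C σ v → BD C (ipd s v) :=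
    fun s v h1 h2 => BD_ip hσ h1 h2
  have hgrBD : ∀ s v : Γ → C.I → Cm n → ℂ, UT C σ s → UT C σ v → BD C (grd K s v) :=
    fun s v h1 h2 => BD_gr K hσ h1 h2
  have hqBD := Pot.BD hq
  let ip : VV C σ →ₗ[ℝ] VV C σ →ₗ[ℝ] ℝ := bil P K σ ipd hipBD
    (fun s v a z _ => ipd_symm s v a z)
    (fun s t v _ _ a z _ => by
      show ((s 1 a z + t 1 a z) * _).re = _
      rw [add_mul, Complex.add_re]; rfl)
    (fun c s v _ a z _ => by
      show ((c • s 1 a z) * _).re = _
      rw [smul_mul_assoc, Complex.smul_re]; rfl)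
  let en : VV C σ →ₗ[ℝ] VV C σ →ₗ[ℝ] ℝ := bil P K σ
    (fun s v a z => grd K s v a z + q a z * ipd s v a z)
    (fun s v h1 h2 => by
      have := BD_comb (hgrBD s v h1 h2) (BD_mul hqBD (hipBD s v h1 h2)) 1 1
      refine BD_congr this fun a z _ => ?_
      ring)
    (fun s v a z hz => by simp only [grd_symm K s v hz, ipd_symm s v a z])
    (fun s t v h1 h2 a z hz => by
      have e : ipd (s + t) v a z = ipd s v a z + ipd t v a z := by
        show ((s 1 a z + t 1 a z) * _).re = _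
        rw [add_mul, Complex.add_re]; rfl
      simp only [grd_add K h1 h2 v hz, e]
      ring)
    (fun c s v h1 a z hz => by
      have e : ipd (c • s) v a z = c * ipd s v a z := by
        show ((c • s 1 a z) * _).re = _
        rw [smul_mul_assoc, Complex.smul_re]; rfl
      simp only [grd_smul K c h1 v hz, e]
      ring)
  have hip : ∀ f h : VV C σ, ip f h = BInt P K (ipd (f : Γ → C.I → Cm n → ℂ) h) :=
    fun _ _ => rfl
  have hen : ∀ f h : VV C σ, en f h = BInt P K (fun a z =>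
      grd K (f : Γ → C.I → Cm n → ℂ) h a z + q a z * ipd (f : Γ → C.I → Cm n → ℂ) h a z) :=
    fun _ _ => rfl
  have hsq : ∀ f : VV C σ, ip f f = BInt P K fun a z => ‖(f : Γ → C.I → Cm n → ℂ) 1 a z‖ ^ 2 := by
    intro f
    rw [hip]
    exact BInt_congr P K fun a z _ => ipd_self _ a z
  have hL : ∀ f : VV C σ, ((LL K hq f : VV C σ) : Γ → C.I → Cm n → ℂ) = Lq K q f := fun _ => rfl
  obtain ⟨v, hv⟩ := hR (VV C σ) ip en (LL K hq)
    (fun f h => by
      rw [hip, hip]
      exact BInt_congr P K fun a z _ => ipd_symm _ _ a z)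
    (fun f => by
      rw [hsq]
      exact BInt_nonneg P K fun a z _ => by positivity)
    (fun f h => by
      rw [hen, hen]
      exact BInt_congr P K fun a z hz => by
        rw [grd_symm K _ _ (V_sub_Ω C a hz), ipd_symm])
    (fun f => by
      rw [hen]
      refine BInt_nonneg P K fun a z hz => ?_
      rw [ipd_self]
      exact add_nonneg (grd_nonneg K _ (V_sub_Ω C a hz))
        (mul_nonneg (hq.nonneg a z (V_sub_Ω C a hz)) (by positivity)))
    (fun f h => by
      rw [hip, hen, hL]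
      have h1 := hI n Γ C P K σ hσ f h f.2.tw h.2.tw
      have h2 := BInt_comb P K (BD_ip hσ (f.2.lapC K) h.2)
        (BD_mul hqBD (hipBD _ _ f.2 h.2)) 1 (-1)
      have h3 := BInt_add P K (hgrBD _ _ f.2 h.2) (BD_mul hqBD (hipBD _ _ f.2 h.2))
      rw [h3]
      have h4 : BInt P K (ipd (Lq K q f) h) = BInt P K (fun a z =>
          1 * (lapC (K.w a) ((f : Γ → C.I → Cm n → ℂ) 1 a) z *
            conj ((h : Γ → C.I → Cm n → ℂ) 1 a z)).re +
          (-1) * (q a z * ipd (f : Γ → C.I → Cm n → ℂ) h a z)) := by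
        refine BInt_congr P K fun a z hz => ?_
        rw [ipd, Lq_of_mem K q _ 1 (V_sub_Ω C a hz), sub_mul, Complex.sub_re, mul_assoc,
          Complex.re_ofReal_mul, ipd]
        ring
      rw [h4, h2]
      have h5 : BInt P K (grd K (f : Γ → C.I → Cm n → ℂ) h) = -BInt P K (fun a z =>
          (lapC (K.w a) ((f : Γ → C.I → Cm n → ℂ) 1 a) z *
            conj ((h : Γ → C.I → Cm n → ℂ) 1 a z)).re) := by
        rw [h1, neg_neg]
        rfl
      rw [h5]
      ring)
    (by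
      obtain ⟨l₀, hl₀, h⟩ := hD n Γ C P K σ hσ hσm q hq
      refine ⟨l₀, hl₀, fun l hl f δ hδ => ?_⟩
      obtain ⟨v, hv, hlt⟩ := h l hl f f.2.tw δ hδ
      refine ⟨⟨v, UT.of_tw hv⟩, ?_⟩
      rw [hsq]
      refine lt_of_eq_of_lt (BInt_congr P K fun a z hz => ?_) hlt
      have e : ((l • (⟨v, UT.of_tw hv⟩ : VV C σ) - LL K hq (⟨v, UT.of_tw hv⟩ : VV C σ) - f :
          VV C σ) : Γ → C.I → Cm n → ℂ) 1 a z =
          l • v 1 a z - Lq K q v 1 a z - (f : Γ → C.I → Cm n → ℂ) 1 a z := rfl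
      rw [e, Lq_of_mem K q _ 1 (V_sub_Ω C a hz), Complex.real_smul]
      congr 2
      push_cast
      ring)
    (fun h hB h0 => by
      have h1 := hP n Γ C P K σ hσ hσm q hq hq0 (fun j => h j) (fun j => (h j).2.tw)
        (by
          obtain ⟨B, hB⟩ := hB
          exact ⟨B, fun j => by rw [← hsq]; exact hB j⟩)
        (by
          refine h0.congr fun j => ?_
          rw [hen]
          refine BInt_congr P K fun a z _ => ?_
          rw [ipd_self]
          rfl)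
      refine h1.congr fun j => ?_
      rw [hsq])
    (⟨s, UT.of_tw hs⟩ : VV C σ) δ hδ
  refine ⟨v, v.2.tw, ?_⟩
  rw [hsq] at hv
  refine lt_of_eq_of_lt (BInt_congr P K fun a z hz => ?_) hv
  have e : ((LL K hq v - (⟨s, UT.of_tw hs⟩ : VV C σ) : VV C σ) : Γ → C.I → Cm n → ℂ) 1 a z =
      Lq K q v 1 a z - s 1 a z := rfl
  rw [e, Lq_of_mem K q _ 1 (V_sub_Ω C a hz)]

end glob

end Vale.Agent.P284.H639.Tw
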