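import Vale.Agent.P284.H639.TwRes

/-!
# P284, theorem A (helper639): a smooth function with given affine periods

`u₀ γ a z = Σ_b χ_b(z) f (γ κ_ab(z))`.
-/

open scoped Manifold ContDiff Topology Pointwise ComplexConjugate ComplexOrder Matrix
open Filter Set Metric MeasureTheory

noncomputable section

namespace Vale.Agent.P284.H639.Tw

open Vale.Agent.P272.K Vale.Agent.P272.K.C2 Vale.Agent.P284.H248 Vale.Agent.P284.H894
  Vale.Agent.P284.H894.V Vale.Agent.P284.H639.V Vale.Agent.P284.H66 Vale.Agent.P284.H913.V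
  Vale.Agent.P284.H66.S7
open Vale.Agent.P284.H409.A (lapC Tw Psi Pot)

variable {n : ℕ} {Γ : Type} [Group Γ] {C : Coc n Γ}

/-- the average of a function on the group -/
def u0 (P : PU C) (f : Γ → ℂ) (γ : Γ) (a : C.I) (z : Cm n) : ℂ :=
  ∑ b, (P.χ b a z : ℂ) * f (γ * C.κ a b z)

theorem u0_smooth (P : PU C) (f : Γ → ℂ) (γ : Γ) (a : C.I) {z : Cm n} (hz : z ∈ C.Ω a) :
    ContDiffAt ℝ ∞ (u0 P f γ a) z := by
  unfold u0
  refine ContDiffAt.sum fun b _ => ?_
  by_cases h : z ∈ C.O a b ∧ C.T a b z ∈ P.K b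
  · have h1 : ContDiffAt ℝ ∞ (fun y => (P.χ b a y : ℂ) * f (γ * C.κ a b z)) z :=
      (C2.contDiffAt_ofReal (P.smooth b a z hz)).mul contDiffAt_const
    refine h1.congr_of_eventuallyEq ?_
    filter_upwards [C.κ_loc a b z h.1] with y hy
    rw [hy]
  · have h1 := C.closed a b (P.K b) (P.compactK b)
      (fun y hy => V_sub_Ω C b (P.K_sub b hy)) z hz h
    refine (contDiffAt_const (c := (0 : ℂ))).congr_of_eventuallyEq ?_
    filter_upwards [h1, (isOpen_Ω C a).mem_nhds hz] with y hy hyΩ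
    have h2 : P.χ b a y = 0 := by
      by_contra h3
      exact hy (P.supp b a y hyΩ h3)
    rw [h2, Complex.ofReal_zero, zero_mul]

theorem u0_compat (P : PU C) (f : Γ → ℂ) (γ : Γ) {a d : C.I} {z : Cm n} (hz : z ∈ C.O a d) :
    u0 P f γ a z = u0 P f (γ * C.κ a d z) d (C.T a d z) := by
  unfold u0
  refine Finset.sum_congr rfl fun b _ => ?_
  rw [P.compat b a d z hz]
  by_cases h : P.χ b d (C.T a d z) = 0
  · rw [h]; simp
  · have h1 := (P.supp b d _ (T_mem_Ω C hz) h).1
    rw [C.trans_κ a d b z hz h1, mul_assoc]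

/-- **existence of a smooth function with the periods `(χ, f)`** -/
theorem exists_tw0 (P : PU C) {χ f : Γ → ℂ} (hf : ∀ g h, f (g * h) = f g + χ g * f h) :
    Tw C χ f (u0 P f) where
  smooth γ a _ hz := u0_smooth P f γ a hz
  compat γ _ _ _ hz := u0_compat P f γ hz
  equi g γ a z hz := by
    unfold u0
    have h1 : ∀ b : C.I, (P.χ b a z : ℂ) * f (g * γ * C.κ a b z) =
        (P.χ b a z : ℂ) * f g + χ g * ((P.χ b a z : ℂ) * f (γ * C.κ a b z)) := by
      intro b
      rw [mul_assoc, hf]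
      ring
    simp only [h1]
    rw [Finset.sum_add_distrib, ← Finset.mul_sum, ← Finset.sum_mul]
    have h2 : (∑ b, (P.χ b a z : ℂ)) = 1 := by
      rw [← Complex.ofReal_sum, P.sum_one a z hz, Complex.ofReal_one]
    rw [h2, one_mul, add_comm]

end Vale.Agent.P284.H639.Tw
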